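import Vale.Agent.P214.GEN.ChargeB

/-!
# P214, general rate: cover and charge (3): the final inequality

`charge`: positivity, the alternative at almost every point, the class estimate and a bound of the
top part give `Ffl (start) ≤ εA + εT`.
-/

open Set Filter Topology MeasureTheory Metric
open scoped RealInnerProductSpace ENNReal

set_option linter.all false

namespace Vale.Agent.P214.GEN

open Vale.Agent.P214.Skel Vale.Agent.P214.EX Vale.Agent.P214.R2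

variable {E : Type*} [NormedAddCommGroup E] [InnerProductSpace ℝ E] [FiniteDimensional ℝ E]
  [MeasurableSpace E] [BorelSpace E]
variable {m Q : ℕ} {T : Submodule ℝ E} {G : Set E} {h : ℝ} {ν : Measure E} {P : E → E →L[ℝ] E}

/-- the points served by the top level -/
def TopSet (m Q : ℕ) (T : Submodule ℝ E) (ν : Measure E) (P : E → E →L[ℝ] E) (t₀ : ℝ)
    (C9 Ca k₀ : ℕ) (cd : ℝ) : Set E :=
  {y | ‖T.starProjection y‖ < 1 ∧ (k₀ : ℝ) ≤ vv m Q T ν P (T.starProjection y) t₀ ∧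
    (cd * FV.tilt T (P y) ≤ (vv m Q T ν P (T.starProjection y) t₀ ^ C9)⁻¹ ∨
      ∃ ra, Coll m Q T ν P Ca (T.starProjection y) t₀ ra)}

/-- the index of the collapse scale is at most `2 k` -/
lemma exists_l (hC : FV.CylStat m T G h ν P) {x : E} {t ra : ℝ} {Ca k : ℕ} (ht : 0 < t)
    (hk1 : 1 ≤ k) (hk : ⌊vv m Q T ν P x t⌋₊ = k) (hc : Coll m Q T ν P Ca x t ra) :
    ∃ l : ℕ, t / 2 ^ (l + 1) < ra ∧ ra ≤ t / 2 ^ l ∧ l + 1 < 4 * k := by
  have h0 : 0 < ra / t := div_pos hc.pos ht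
  have h1 : ra / t ≤ 1 := (div_le_one ht).2 hc.le
  obtain ⟨l, hl1, hl2⟩ := exists_nat_pow_near_of_lt_one h0 h1 (y := (1 / 2 : ℝ)) (by norm_num)
    (by norm_num)
  have hpow : ∀ n : ℕ, (1 / 2 : ℝ) ^ n = 1 / 2 ^ n := fun n => by rw [one_div_pow]
  rw [hpow] at hl1 hl2
  rw [lt_div_iff₀ ht] at hl1
  rw [div_le_iff₀ ht] at hl2
  refine ⟨l, ?_, ?_, ?_⟩
  · calc t / 2 ^ (l + 1) = 1 / 2 ^ (l + 1) * t := by ring
      _ < ra := hl1
  · calc ra ≤ 1 / 2 ^ l * t := hl2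
      _ = t / 2 ^ l := by ring
  · have hk' : (1 : ℝ) ≤ k := by exact_mod_cast hk1
    have hkv : (k : ℝ) ≤ vv m Q T ν P x t := by
      rw [← hk]
      exact Nat.floor_le (Nat.pos_of_floor_pos (by omega)).le
    have hv1 : 1 ≤ vv m Q T ν P x t := by linarith
    have hvk : vv m Q T ν P x t < k + 1 := by
      have := Nat.lt_floor_add_one (vv m Q T ν P x t)
      rwa [hk] at this
    have hA := AA_eq hC ht hv1
    have h2 : ra ^ 2 ≤ (t / 2 ^ l) ^ 2 := by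
      have : ra ≤ t / 2 ^ l := by
        calc ra ≤ 1 / 2 ^ l * t := hl2
          _ = t / 2 ^ l := by ring
      have := hc.pos
      gcongr
    have h3 : t ^ 2 * Real.exp (-(vv m Q T ν P x t)) ≤ (t / 2 ^ l) ^ 2 := by
      rw [← hA]; exact hc.sq.trans h2
    have h4 : Real.exp (-(vv m Q T ν P x t)) ≤ (1 / 2 ^ l) ^ 2 := by
      have h5 : (t / 2 ^ l) ^ 2 = t ^ 2 * (1 / 2 ^ l) ^ 2 := by ring
      rw [h5] at h3
      exact le_of_mul_le_mul_left h3 (by positivity)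
    have h5 := Real.log_le_log (Real.exp_pos _) h4
    rw [Real.log_exp, Real.log_pow, Real.log_div one_ne_zero (by positivity), Real.log_one,
      Real.log_pow, zero_sub] at h5
    push_cast at h5
    have hlog := Real.log_two_gt_d9
    have h6 : (l : ℝ) * (2 * Real.log 2) ≤ vv m Q T ν P x t := by linarith
    have h7 : (l : ℝ) * 1 ≤ (l : ℝ) * (2 * Real.log 2) := by
      gcongr
      linarith
    have h8 : (l : ℝ) < k + 1 := by linarith
    have h9 : l < k + 1 := by exact_mod_cast h8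
    omega

/-- **Cover and charge.** -/
theorem charge (hC : FV.CylStat m T G h ν P) {c₀ κ₀ : ℝ} {M : ℕ} {η₁ t₀ δ : ℝ} {φ : E → ℝ}
    {ρ N : ℕ → E → ℝ} (hφ : BaseTest T 0 1 φ) (hδ : 0 < δ) (hδ2 : δ ≤ 1) (ht₀ : 0 < t₀)
    (ht₀' : t₀ ≤ 1 / 16) (hT : Tot m Q T ν P c₀ κ₀ M η₁ t₀ δ φ ρ N)
    {Cd C9 Ca Cc k₀ : ℕ} {cd c C Cp A' : ℝ}
    (hcd : 0 < cd) (hcd1 : cd ≤ 1) (hc : 0 < c) (hCp : 0 ≤ Cp) (hC0 : 0 ≤ C) (hCd : 1 ≤ Cd)
    (hk₀ : 1 ≤ k₀) (hC9 : 11 ≤ C9) (hCc : 11 ≤ Cc) (hcl : ClassEst m Q T ν P C9 Cc Ca k₀ c C)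
    (hA1 : 2 * Cp / cd ≤ A') (hA2 : Cp * m * C ≤ A')
    (hk₀A : COMP.cst E (min c (1 / 2)) *
      ENNReal.ofReal (4 * A' * Cd ^ 4 * (Cd + 4 : ℕ) ^ 2 * (2 / k₀)) ≤ ENNReal.ofReal (1 / 2))
    (halt : ∀ᵐ y ∂ν, ‖T.starProjection y‖ < 1 → 0 < FV.tilt T (P y) →
      Cp * FV.tilt T (P y) * rhoLim ρ (T.starProjection y)
        ≤ 1 / 2 * negLim N (T.starProjection y) ∨
      AltPt m Q T ν P t₀ ρ N Cd C9 Ca k₀ cd y)
    {εA εT : ℝ} (hεA : 0 ≤ εA) (hεT : 0 ≤ εT)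
    (hpos : ENNReal.ofReal (Ffl m Q T ν P (rhoLim ρ)) ≤ ENNReal.ofReal εA +
      ∫⁻ y in {y | T.starProjection y ∈ ball (0 : E) 1}, ENNReal.ofReal (Cp * FV.tilt T (P y) ^ 2) *
        ENNReal.ofReal (rhoLim ρ (T.starProjection y)) ∂ν)
    (htop : ∫⁻ y in TopSet m Q T ν P t₀ C9 Ca k₀ cd, ENNReal.ofReal (Cp * FV.tilt T (P y) ^ 2) *
        ENNReal.ofReal (rhoLim ρ (T.starProjection y)) ∂ν ≤ ENNReal.ofReal εT) :
    Ffl m Q T ν P (psiStart φ δ) ≤ εA + εT := by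
  classical
  have hcp : 0 < min c (1 / 2 : ℝ) := lt_min hc (by norm_num)
  have hc12 : min c (1 / 2 : ℝ) ≤ 1 / 2 := min_le_right _ _
  have hA' : 0 ≤ A' := le_trans (by positivity) hA2
  set D : ℕ := Cd + 4 with hD
  set Cl := Cls m Q T ν P t₀ ρ N Cd C9 Ca k₀ D cd with hCldef
  set g : E → ℝ≥0∞ := fun y => ENNReal.ofReal (Cp * FV.tilt T (P y) ^ 2) *
    ENNReal.ofReal (rhoLim ρ (T.starProjection y)) with hg
  set Sp : Set E := {y | 0 ≤ FV.tilt T (P y) ∧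
    (FV.tilt T (P y) = 0 ∨ Cp * FV.tilt T (P y) * rhoLim ρ (T.starProjection y)
        ≤ 1 / 2 * negLim N (T.starProjection y))} with hSp
  -- the cover
  have hcov : ∀ᵐ y ∂ν, y ∈ {y | T.starProjection y ∈ ball (0 : E) 1} →
      y ∈ Sp ∪ TopSet m Q T ν P t₀ C9 Ca k₀ cd ∪ ⋃ a, Cl a := by
    filter_upwards [halt, tilt_nonneg_ae hC] with y hy hy0 hyb
    have hyn : ‖T.starProjection y‖ < 1 := by
      have : T.starProjection y ∈ ball (0 : E) 1 := hyb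
      rwa [mem_ball_zero_iff] at this
    rcases hy0.eq_or_lt with h0 | h0
    · exact Or.inl (Or.inl ⟨hy0, Or.inl h0.symm⟩)
    rcases hy hyn h0 with h1 | h1
    · exact Or.inl (Or.inl ⟨hy0, Or.inr h1⟩)
    · obtain ⟨i, hi, hv, hor⟩ := h1
      rcases Nat.eq_zero_or_pos i with h0 | h0
      · refine Or.inl (Or.inr ?_)
        subst h0
        rw [pow_zero, div_one] at hv hor
        exact ⟨hyn, hv, hor⟩
      · have hev : Ev m Q T ν P t₀ ρ N Cd (T.starProjection y) i := by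
          rcases hi with hi | hi
          · omega
          · exact hi
        have hTpos : 0 < t₀ / 2 ^ i := by positivity
        obtain ⟨k, hk⟩ : ∃ k : ℕ, ⌊vv m Q T ν P (T.starProjection y) (t₀ / 2 ^ i)⌋₊ = k := ⟨_, rfl⟩
        have hk0k : k₀ ≤ k := by rw [← hk]; exact Nat.le_floor hv
        have hk1 : 1 ≤ k := hk₀.trans hk0k
        have hk' : (1 : ℝ) ≤ k := by exact_mod_cast hk1
        have hkv : (k : ℝ) ≤ vv m Q T ν P (T.starProjection y) (t₀ / 2 ^ i) := by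
          rw [← hk]
          exact Nat.floor_le (Nat.pos_of_floor_pos (by omega)).le
        refine Or.inr (mem_iUnion.2 ?_)
        by_cases hco : cd * FV.tilt T (P y) ≤ ((k : ℝ) ^ C9)⁻¹
        · refine ⟨(i, k, 0), ⟨hk0k, ?_⟩, Or.inl ⟨rfl, hyn, hev, hk, ?_⟩⟩
          · show 0 < D * k
            exact Nat.mul_pos (by omega) hk1
          · rw [le_div_iff₀ hcd, mul_comm]; exact hco
        · rw [not_le] at hco
          have hvk : (vv m Q T ν P (T.starProjection y) (t₀ / 2 ^ i) ^ C9)⁻¹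
              ≤ ((k : ℝ) ^ C9)⁻¹ := by gcongr
          rcases hor with h2 | ⟨ra, hra⟩
          · linarith
          · obtain ⟨l, hl1, hl2, hl3⟩ := exists_l hC hTpos hk1 hk hra
            refine ⟨(i, k, l + 1), ⟨hk0k, ?_⟩, Or.inr ⟨l, rfl, hyn, hev, hk, ?_, ra, hl1, hl2, hra⟩⟩
            · show l + 1 < D * k
              exact hl3.trans_le (Nat.mul_le_mul_right k (by omega))
            · show ((k : ℝ) ^ C9)⁻¹ ≤ FV.tilt T (P y)
              have : cd * FV.tilt T (P y) ≤ 1 * FV.tilt T (P y) := by gcongr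
              linarith
  have hsplit : ∫⁻ y in {y | T.starProjection y ∈ ball (0 : E) 1}, g y ∂ν
      ≤ ∫⁻ y in Sp, g y ∂ν + ∫⁻ y in TopSet m Q T ν P t₀ C9 Ca k₀ cd, g y ∂ν +
        ∑' a, ∫⁻ y in Cl a, g y ∂ν := by
    have h1 : ∫⁻ y in {y | T.starProjection y ∈ ball (0 : E) 1}, g y ∂ν
        ≤ ∫⁻ y in Sp ∪ TopSet m Q T ν P t₀ C9 Ca k₀ cd ∪ ⋃ a, Cl a, g y ∂ν :=
      lintegral_mono' (Measure.restrict_mono_ae hcov) le_rfl
    refine h1.trans ((lintegral_union_le _ _ _).trans (add_le_add (lintegral_union_le _ _ _) ?_))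
    exact lintegral_iUnion_le _ _
  refine COMP.comp_cyl hC hφ hδ hδ2 ht₀ (ρ := ρ) (N := N) (K := TH.win) hT
    (fun a : ℕ × ℕ × ℕ => a.1) (fun a => Cd * a.2.1) (mm := gth Cd) (gth_pos hCd)
    (c := min c (1 / 2)) hcp (hc12.trans (by norm_num)) (dl := chg k₀ D A')
    (w := fun _ y => ENNReal.ofReal (Cp * FV.tilt T (P y) ^ 2)) (Cl := Cl) ?_ ?_
    (κ := ENNReal.ofReal (4 * A' * Cd ^ 4 * D ^ 2 * (2 / k₀))) ?_ ?_
    (Sp := Sp) (w₀ := fun y => ENNReal.ofReal (Cp * FV.tilt T (P y) ^ 2)) ?_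
    (εA := εA + εT) (by positivity) ?_
  · -- the balls are in the domain
    rintro ⟨i, k, l'⟩ z hz
    have hzn : ‖T.starProjection z‖ < 1 := by
      obtain ⟨-, h1 | ⟨l, -, h1⟩⟩ := hz
      · exact h1.2.1
      · exact h1.1
    refine closedBall_subset_closedBall' ?_
    rw [dist_zero_right]
    have h2 : t₀ / 2 ^ i ≤ 1 / 16 :=
      le_trans (div_le_self ht₀.le (one_le_pow₀ (by norm_num))) ht₀'
    show 2 * (t₀ / 2 ^ i) + ‖T.starProjection z‖ ≤ 5 / 4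
    linarith
  · intro a z hz
    exact cls_charge hC ht₀ ht₀' hcd hk₀ hc12 (min_le_left _ _) hCp hC0 hC9 hCc hcl hA1 hA2 a hz
  · intro j
    exact chg_sum hk₀ hCd (by omega) hA' j
  · exact_mod_cast hk₀A
  · -- the points with the `N`-alternative
    intro y hy
    obtain ⟨h0, h1⟩ := hy
    rcases h1 with h1 | h1
    · rw [h1]; simp
    · rw [← ENNReal.ofReal_mul (by positivity)]
      apply ENNReal.ofReal_le_ofReal
      calc Cp * FV.tilt T (P y) ^ 2 * rhoLim ρ (T.starProjection y)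
          = (Cp * FV.tilt T (P y) * rhoLim ρ (T.starProjection y)) * FV.tilt T (P y) := by ring
        _ ≤ (1 / 2 * negLim N (T.starProjection y)) * FV.tilt T (P y) := by gcongr
        _ = _ := by ring
  · -- positivity
    refine hpos.trans ?_
    rw [ENNReal.ofReal_add hεA hεT, add_assoc]
    gcongr
    refine hsplit.trans ?_
    calc ∫⁻ y in Sp, g y ∂ν + ∫⁻ y in TopSet m Q T ν P t₀ C9 Ca k₀ cd, g y ∂ν +
          ∑' a, ∫⁻ y in Cl a, g y ∂ν
        ≤ ∫⁻ y in Sp, g y ∂ν + ENNReal.ofReal εT + ∑' a, ∫⁻ y in Cl a, g y ∂ν := by gcongr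
      _ = ENNReal.ofReal εT + (∫⁻ y in Sp, g y ∂ν + ∑' a, ∫⁻ y in Cl a, g y ∂ν) := by ring

end Vale.Agent.P214.GEN
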