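import Vale.Agent.P214.GEN.Props
import Vale.Agent.P214.TPU.ClsV
import Vale.Agent.P214.AREA.Ratio

/-!
# P214, general rate: `BoxClass` from the two-point slab lemma
-/

open Set Filter Topology MeasureTheory Metric
open scoped RealInnerProductSpace ENNReal

set_option linter.all false

namespace Vale.Agent.P214.GEN

open Vale.Agent.P214.Skel Vale.Agent.P214.EX Vale.Agent.P214.R2 Vale.Agent.P214.FV

variable {E : Type*} [NormedAddCommGroup E] [InnerProductSpace ℝ E] [FiniteDimensional ℝ E]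
  [MeasurableSpace E] [BorelSpace E]
variable {m Q : ℕ} {T : Submodule ℝ E} {G : Set E} {h : ℝ} {ν : Measure E} {P : E → E →L[ℝ] E}
  {x : E} {s t : ℝ}

lemma bsq_lt_iff (hx : x ∈ T) (hs : 0 < s) {y : E} (hy : y ∈ cylSet T x s) :
    ODE.bsq T x y < s ^ 2 := by
  have hpp : T.starProjection x = x := Submodule.starProjection_eq_self_iff.2 hx
  rw [cylSet, mem_setOf_eq, mem_ball, dist_eq_norm] at hy
  unfold ODE.bsq ODE.bx
  rw [map_sub, hpp]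
  gcongr

/-- the window kernel is one on the half ball -/
lemma win_half (hx : x ∈ T) (hs : 0 < s) {y : E} (hy : y ∈ cylSet T x s) :
    TH.win (ODE.bsq T x y / (2 * s) ^ 2) = 1 := by
  refine TH.win_one ?_
  have := bsq_lt_iff hx hs hy
  rw [div_le_iff₀ (by positivity)]
  nlinarith

lemma continuous_kwin (x : E) (s : ℝ) : Continuous fun y => TH.win (ODE.bsq T x y / s ^ 2) :=
  TH.contDiff_win_two.continuous.comp ((ODE.continuous_bsq T x).div_const _)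

/-- the sharp excess and `AA` -/
lemma exc_le_AA (hC : CylStat m T G h ν P) (hx : x ∈ T) (hs : 0 < s) :
    exc T ν P x s ≤ 2 * ((2 * s) ^ m / (2 * s) ^ 2) * AA m Q T ν P x (2 * s) := by
  haveI := hC.fin
  have hI : Integrable (fun y => TH.win (ODE.bsq T x y / (2 * s) ^ 2) * ODE.tilt T P y) ν := by
    refine (TH.integrable_tilt hC).bdd_mul (c := 1)
      (continuous_kwin x (2 * s)).aestronglyMeasurable ?_
    exact Eventually.of_forall fun y => by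
      rw [Real.norm_eq_abs, abs_of_nonneg (TH.win_nonneg _)]; exact TH.win_le_one _
  have h1 : exc T ν P x s ≤ ∫ y, TH.win (ODE.bsq T x y / (2 * s) ^ 2) * ODE.tilt T P y ∂ν := by
    unfold exc
    rw [← integral_indicator (measurableSet_cylSet T x s)]
    refine integral_mono_ae ((integrable_tilt' hC).indicator (measurableSet_cylSet T x s)) hI ?_
    filter_upwards [tilt_nonneg_ae hC] with y hy
    by_cases hyc : y ∈ cylSet T x s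
    · rw [indicator_of_mem hyc, win_half hx hs hyc, one_mul, TH.tilt_agree]
    · rw [indicator_of_notMem hyc]
      rw [TH.tilt_agree] at hy
      exact mul_nonneg (TH.win_nonneg _) hy
  have h2 : ODE.tiltK m T x TH.win P ν (2 * s) / 2 ≤ AA m Q T ν P x (2 * s) := le_max_right _ _
  have h3 : ∫ y, TH.win (ODE.bsq T x y / (2 * s) ^ 2) * ODE.tilt T P y ∂ν =
      (2 * s) ^ m / (2 * s) ^ 2 * ODE.tiltK m T x TH.win P ν (2 * s) := by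
    unfold ODE.tiltK
    have h4 : (2 * s) ^ (2 - (m : ℤ)) = (2 * s) ^ 2 / (2 * s) ^ m := by
      rw [zpow_sub₀ (by positivity), zpow_natCast]; norm_cast
    rw [h4]
    field_simp
  rw [h3] at h1
  refine h1.trans ?_
  have h5 : 0 ≤ (2 * s) ^ m / (2 * s) ^ 2 := by positivity
  calc (2 * s) ^ m / (2 * s) ^ 2 * ODE.tiltK m T x TH.win P ν (2 * s)
      = 2 * ((2 * s) ^ m / (2 * s) ^ 2) * (ODE.tiltK m T x TH.win P ν (2 * s) / 2) := by ring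
    _ ≤ _ := by gcongr

/-- the constant of the plane -/
lemma cK_le (hT : Module.finrank ℝ T = m) : cK m T TH.win ≤ AREA.kap m := by
  have h0 := AREA.plane_ball hT (Submodule.zero_mem T) (zero_le_one (α := ℝ))
  rw [one_pow, one_mul] at h0
  have hT0 : MeasurableSet (T : Set E) := T.closed_of_finiteDimensional.measurableSet
  have h1 : cK m T TH.win ≤
      ∫ y in (T : Set E), (closedBall (0 : E) 1).indicator (fun _ => (1 : ℝ)) y ∂(μH[m] : Measure E) := by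
    unfold cK
    refine integral_mono_of_nonneg (Eventually.of_forall fun y => TH.win_nonneg _) ?_ ?_
    · refine (integrable_indicator_iff isClosed_closedBall.measurableSet).2 ?_
      refine integrableOn_const ?_
      rw [Measure.restrict_apply isClosed_closedBall.measurableSet, inter_comm, h0]
      exact ENNReal.ofReal_ne_top
    · refine Eventually.of_forall fun y => ?_
      by_cases hy : y ∈ closedBall (0 : E) 1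
      · simp only [indicator_of_mem hy]
        exact TH.win_le_one _
      · simp only [indicator_of_notMem hy]
        rw [mem_closedBall_zero_iff, not_le] at hy
        rw [TH.win_zero (by nlinarith)]
  refine h1.trans (le_of_eq ?_)
  rw [integral_indicator_const _ isClosed_closedBall.measurableSet, smul_eq_mul, mul_one,
    measureReal_def, Measure.restrict_apply isClosed_closedBall.measurableSet, inter_comm, h0,
    ENNReal.toReal_ofReal (AREA.kap_pos m).le]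

/-- mass of the half cylinder -/
lemma mass_le (hC : CylStat m T G h ν P) (hx : x ∈ T) (ht : 0 < t) :
    ν.real (cylSet T x (t / 2)) ≤
      t ^ m * (AA m Q T ν P x t / (2 * t ^ 2) + Q * AREA.kap m) := by
  haveI := hC.fin
  have hI : Integrable (fun y => TH.win (ODE.bsq T x y / t ^ 2)) ν := by
    refine Integrable.of_bound (continuous_kwin x t).aestronglyMeasurable 1 ?_
    exact Eventually.of_forall fun y => by
      rw [Real.norm_eq_abs, abs_of_nonneg (TH.win_nonneg _)]; exact TH.win_le_one _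
  have h1 : ν.real (cylSet T x (t / 2)) ≤ ∫ y, TH.win (ODE.bsq T x y / t ^ 2) ∂ν := by
    have h2 : ν.real (cylSet T x (t / 2)) =
        ∫ y, (cylSet T x (t / 2)).indicator (fun _ => (1:ℝ)) y ∂ν := by
      rw [integral_indicator_const _ (measurableSet_cylSet T _ _), smul_eq_mul, mul_one]
    rw [h2]
    refine integral_mono ((integrable_const _).indicator (measurableSet_cylSet T _ _)) hI ?_
    intro y
    by_cases hy : y ∈ cylSet T x (t / 2)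
    · simp only [indicator_of_mem hy]
      have := win_half hx (by positivity) hy
      rw [show 2 * (t / 2) = t by ring] at this
      rw [this]
    · simp only [indicator_of_notMem hy]
      exact TH.win_nonneg _
  have h3 : ODE.aK m T x TH.win ν (Q * cK m T TH.win) t ≤ AA m Q T ν P x t := le_max_left _ _
  have h4 : ∫ y, TH.win (ODE.bsq T x y / t ^ 2) ∂ν =
      t ^ m * (ODE.aK m T x TH.win ν (Q * cK m T TH.win) t / (2 * t ^ 2) + Q * cK m T TH.win) := by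
    unfold ODE.aK ODE.massK
    rw [zpow_neg, zpow_natCast]
    field_simp
    ring
  have h5 := cK_le hC.dimT
  rw [h4] at h1
  refine h1.trans ?_
  have h6 : (0:ℝ) ≤ Q := Nat.cast_nonneg _
  gcongr

/-- numbers of a base point of the class -/
lemma class_num {k : ℕ} (hk : k ≠ 0) (hA : 0 < AA m Q T ν P x t) (ht : 0 < t)
    (hv : ⌊vv m Q T ν P x t⌋₊ = k) :
    (k : ℝ) ≤ vv m Q T ν P x t ∧ AA m Q T ν P x t ≤ Real.exp (-(k : ℝ)) * t ^ 2 ∧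
      Real.exp (-((k : ℝ) + 1)) * t ^ 2 ≤ AA m Q T ν P x t := by
  obtain ⟨h1, h2⟩ := (Nat.floor_eq_iff' hk).1 hv
  have h3 : AA m Q T ν P x t = Real.exp (-(vv m Q T ν P x t)) * t ^ 2 := by
    unfold vv
    rw [← Real.log_inv, Real.exp_log (by positivity), inv_div]
    field_simp
  refine ⟨h1, ?_, ?_⟩
  · rw [h3]
    gcongr
  · rw [h3]
    gcongr

/-- the points of the class -/
def ClsPt (m Q : ℕ) (T : Submodule ℝ E) (ν : Measure E) (P : E → E →L[ℝ] E) (Ca k l : ℕ)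
    (T₁ : ℝ) (x : E) : Prop :=
  x ∈ T ∧ ‖x‖ ≤ 1 ∧ 0 < AA m Q T ν P x T₁ ∧ ⌊vv m Q T ν P x T₁⌋₊ = k ∧
      ∃ ra, T₁ / 2 ^ (l + 1) < ra ∧ ra ≤ T₁ / 2 ^ l ∧ Coll m Q T ν P Ca x T₁ ra

/-- energies at scales between `w` and the collapse scale -/
lemma class_exc (hC : CylStat m T G h ν P) {Ca k l : ℕ} {T₁ w u : ℝ} (hk0 : k ≠ 0)
    (hT₁ : 0 < T₁) (hx : ClsPt m Q T ν P Ca k l T₁ x) (hw : 0 < w)
    (hwlo : ((k : ℝ) ^ Ca)⁻¹ * (Real.exp (-(k : ℝ)) * T₁ ^ 2) ≤ w ^ 2) (hwu : w ≤ 2 * u)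
    (huρ : 2 * u ≤ T₁ / 2 ^ (l + 1)) :
    exc T ν P x u ≤ 1 / 2 * 2 ^ m * (u ^ m / u ^ 2) *
      (((k : ℝ) ^ Ca)⁻¹ * (Real.exp (-(k : ℝ)) * T₁ ^ 2)) := by
  obtain ⟨hxT, -, hxA, hxk, ra, k1, k2, k3⟩ := hx
  obtain ⟨hxv, hxΛ, -⟩ := class_num hk0 hxA hT₁ hxk
  have hkpos : (0 : ℝ) < k := by exact_mod_cast Nat.pos_of_ne_zero hk0
  have hu0 : 0 < u := by linarith
  have h1 : (vv m Q T ν P x T₁ ^ Ca)⁻¹ ≤ ((k : ℝ) ^ Ca)⁻¹ := by gcongr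
  have h2 : (vv m Q T ν P x T₁ ^ Ca)⁻¹ * AA m Q T ν P x T₁ ≤
      ((k : ℝ) ^ Ca)⁻¹ * (Real.exp (-(k : ℝ)) * T₁ ^ 2) := by gcongr
  have h3 : AA m Q T ν P x (2 * u) ≤ ((k : ℝ) ^ Ca)⁻¹ * (Real.exp (-(k : ℝ)) * T₁ ^ 2) := by
    refine (k3.small (2 * u) (by positivity) ?_ ?_).trans h2
    · refine h2.trans (hwlo.trans ?_)
      gcongr
    · exact huρ.trans k1.le
  refine (exc_le_AA (Q := Q) hC hxT hu0).trans ?_
  calc 2 * ((2 * u) ^ m / (2 * u) ^ 2) * AA m Q T ν P x (2 * u)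
      ≤ 2 * ((2 * u) ^ m / (2 * u) ^ 2) *
        (((k : ℝ) ^ Ca)⁻¹ * (Real.exp (-(k : ℝ)) * T₁ ^ 2)) := by gcongr
    _ = _ := by
        rw [mul_pow, mul_pow]
        field_simp

/-- class points are good -/
lemma class_good (hC : CylStat m T G h ν P) {Ca C9 k l : ℕ} {T₁ w r t : ℝ} {p : E} (hk1 : 1 ≤ k)
    (hT₁ : 0 < T₁) (hx : ClsPt m Q T ν P Ca k l T₁ x) (hw : 0 < w) (hwr : 4 * w ≤ r)
    (hwlo : ((k : ℝ) ^ Ca)⁻¹ * (Real.exp (-(k : ℝ)) * T₁ ^ 2) ≤ w ^ 2)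
    (hrρ : 4 * r ≤ T₁ / 2 ^ (l + 1)) (hr2 : ((k : ℝ) ^ 2)⁻¹ * (Real.exp (-(k : ℝ)) * T₁ ^ 2) ≤ r ^ 2)
    (hCa : C9 + 3 ≤ Ca) (hX : 4 * 2 ^ m / TPU.c0 m (cg m) ≤ (k : ℝ)) (hxp : x ∈ closedBall p t) :
    x ∈ TPU.good m T ν P p t w r (2 ^ m * ((k : ℝ) ^ Ca)⁻¹ * (Real.exp (-(k : ℝ)) * T₁ ^ 2))
      (TPU.c0 m (cg m) / 8 * ((k : ℝ) ^ C9)⁻¹ * r ^ m) := by
  have hr : 0 < r := by linarith
  have hk0 : k ≠ 0 := by omega
  have hkpos : (0 : ℝ) < k := by exact_mod_cast Nat.pos_of_ne_zero hk0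
  have hk1' : (1 : ℝ) ≤ k := by exact_mod_cast hk1
  set Λ := Real.exp (-(k : ℝ)) * T₁ ^ 2 with hΛ
  have hΛ0 : 0 < Λ := by positivity
  have hc0 := TPU.c0_pos (m := m) (cg_pos m)
  refine ⟨hxp, ?_, ?_⟩
  · intro u hu
    have hu0 : 0 < u := hw.trans_le hu.1
    have h1 := class_exc hC hk0 hT₁ hx hw hwlo (u := u) (by linarith [hu.1]) (by linarith [hu.2])
    have h2 : u ^ (2 - (m : ℤ)) = u ^ 2 / u ^ m := by
      rw [zpow_sub₀ hu0.ne', zpow_natCast]; norm_cast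
    rw [h2]
    calc u ^ 2 / u ^ m * exc T ν P x u
        ≤ u ^ 2 / u ^ m * (1 / 2 * 2 ^ m * (u ^ m / u ^ 2) * (((k : ℝ) ^ Ca)⁻¹ * Λ)) := by gcongr
      _ = 1 / 2 * (2 ^ m * ((k : ℝ) ^ Ca)⁻¹ * Λ) := by field_simp
      _ ≤ 2 ^ m * ((k : ℝ) ^ Ca)⁻¹ * Λ := by
          have : 0 ≤ 2 ^ m * ((k : ℝ) ^ Ca)⁻¹ * Λ := by positivity
          linarith
  · have h1 := class_exc hC hk0 hT₁ hx hw hwlo (u := r) (by linarith) (by linarith)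
    refine h1.trans ?_
    have h2 : Λ ≤ (k : ℝ) ^ 2 * r ^ 2 := by
      calc Λ = (k : ℝ) ^ 2 * (((k : ℝ) ^ 2)⁻¹ * Λ) := by field_simp
        _ ≤ (k : ℝ) ^ 2 * r ^ 2 := by gcongr
    have h3 : ((k : ℝ) ^ Ca)⁻¹ * (k : ℝ) ^ 2 ≤ ((k : ℝ) ^ C9)⁻¹ * (k : ℝ)⁻¹ := by
      have h4 : ((k : ℝ) ^ Ca)⁻¹ ≤ ((k : ℝ) ^ (C9 + 3))⁻¹ := by gcongr
      calc ((k : ℝ) ^ Ca)⁻¹ * (k : ℝ) ^ 2 ≤ ((k : ℝ) ^ (C9 + 3))⁻¹ * (k : ℝ) ^ 2 := by gcongr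
        _ = ((k : ℝ) ^ C9)⁻¹ * (k : ℝ)⁻¹ := by
            rw [pow_add]
            field_simp
    have h6 : (2 : ℝ) ^ m ≤ TPU.c0 m (cg m) / 4 * k := by
      rw [div_le_iff₀ hc0] at hX
      linarith
    calc 1 / 2 * 2 ^ m * (r ^ m / r ^ 2) * (((k : ℝ) ^ Ca)⁻¹ * Λ)
        ≤ 1 / 2 * 2 ^ m * (r ^ m / r ^ 2) * (((k : ℝ) ^ Ca)⁻¹ * ((k : ℝ) ^ 2 * r ^ 2)) := by
          gcongr
      _ = 1 / 2 * r ^ m * (2 ^ m * (((k : ℝ) ^ Ca)⁻¹ * (k : ℝ) ^ 2)) := by field_simp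
      _ ≤ 1 / 2 * r ^ m * ((TPU.c0 m (cg m) / 4 * k) * (((k : ℝ) ^ C9)⁻¹ * (k : ℝ)⁻¹)) := by
          gcongr
      _ = TPU.c0 m (cg m) / 8 * ((k : ℝ) ^ C9)⁻¹ * r ^ m := by field_simp; ring

/-- the right side -/
lemma class_rhs {k c' Cc : ℕ} {T₁ w r e Y M₀ W0 K₀ : ℝ} (hk1 : 1 ≤ k) (hT₁ : 0 < T₁)
    (hM₀ : 0 ≤ M₀) (hW0 : 0 ≤ W0) (hK₀ : 0 ≤ K₀) (he : 0 ≤ e) (heY : e ≤ 2 * Y)
    (hY : Real.exp (-((k : ℝ) + 1)) * T₁ ^ m ≤ Y)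
    (hweq : w = W0 * ((k : ℝ) ^ (c' + 1))⁻¹ * Real.exp (-((k : ℝ) / 2)) * T₁)
    (hwr : w / r ≤ ((k : ℝ) ^ c')⁻¹) (hrt : r / (T₁ / 8) ≤ ((k : ℝ) ^ c')⁻¹)
    (hkc : 4 * ((k : ℝ) ^ c')⁻¹ ≤ ((k : ℝ) ^ Cc)⁻¹) :
    K₀ * (w / (T₁ / 32) * √(4 * (32 ^ m * M₀) * (T₁ / 32) ^ m * e) +
      (w / r + r / (T₁ / 32)) * e) ≤
      K₀ * (32 * W0 * √(8 * M₀ * Real.exp 1) + 10) * ((k : ℝ) ^ Cc)⁻¹ * Y := by
  have hkpos : (0 : ℝ) < k := by exact_mod_cast hk1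
  have hk1' : (1 : ℝ) ≤ k := by exact_mod_cast hk1
  have hexp1 : Real.exp (-((k : ℝ) + 1)) = Real.exp (-(k : ℝ)) * (Real.exp 1)⁻¹ := by
    rw [← Real.exp_neg, ← Real.exp_add]; congr 1; ring
  have he1 := Real.exp_pos 1
  have hY0 : 0 < Y := lt_of_lt_of_le (by positivity) hY
  have hY' : Real.exp (-(k : ℝ)) * T₁ ^ m ≤ Real.exp 1 * Y := by
    calc Real.exp (-(k : ℝ)) * T₁ ^ m = Real.exp 1 * (Real.exp (-((k : ℝ) + 1)) * T₁ ^ m) := by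
          rw [hexp1]; field_simp
      _ ≤ _ := by gcongr
  have hev : Real.exp (-((k : ℝ) / 2)) ^ 2 = Real.exp (-(k : ℝ)) := by
    rw [← Real.exp_nat_mul]; congr 1; push_cast; ring
  have hkC0 : 0 < ((k : ℝ) ^ Cc)⁻¹ := by positivity
  have hkc0 : 0 < ((k : ℝ) ^ c')⁻¹ := by positivity
  have h1 : ((k : ℝ) ^ (c' + 1))⁻¹ ≤ ((k : ℝ) ^ Cc)⁻¹ := by
    have h2 : ((k : ℝ) ^ (c' + 1))⁻¹ ≤ ((k : ℝ) ^ c')⁻¹ := by
      gcongr
      omega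
    linarith
  have hsq : Real.exp (-((k : ℝ) / 2)) * √(4 * (32 ^ m * M₀) * (T₁ / 32) ^ m * e) ≤
      √(8 * M₀ * Real.exp 1) * Y := by
    have e1 : Real.exp (-((k : ℝ) / 2)) * √(4 * (32 ^ m * M₀) * (T₁ / 32) ^ m * e) =
        √(Real.exp (-(k : ℝ)) * (4 * (32 ^ m * M₀) * (T₁ / 32) ^ m * e)) := by
      rw [← hev, Real.sqrt_mul (sq_nonneg (Real.exp (-((k : ℝ) / 2))))
        (4 * (32 ^ m * M₀) * (T₁ / 32) ^ m * e), Real.sqrt_sq (by positivity)]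
    have e2 : √(8 * M₀ * Real.exp 1) * Y = √(8 * M₀ * Real.exp 1 * Y ^ 2) := by
      rw [Real.sqrt_mul (by positivity) (Y ^ 2), Real.sqrt_sq hY0.le]
    rw [e1, e2]
    refine Real.sqrt_le_sqrt ?_
    calc Real.exp (-(k : ℝ)) * (4 * (32 ^ m * M₀) * (T₁ / 32) ^ m * e)
        = 4 * M₀ * (Real.exp (-(k : ℝ)) * T₁ ^ m) * e := by rw [div_pow]; field_simp
      _ ≤ 4 * M₀ * (Real.exp 1 * Y) * (2 * Y) := by gcongr
      _ = _ := by ring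
  have hX0 := Real.sqrt_nonneg (8 * M₀ * Real.exp 1)
  have t1 : w / (T₁ / 32) * √(4 * (32 ^ m * M₀) * (T₁ / 32) ^ m * e) ≤
      32 * W0 * √(8 * M₀ * Real.exp 1) * ((k : ℝ) ^ Cc)⁻¹ * Y := by
    calc w / (T₁ / 32) * √(4 * (32 ^ m * M₀) * (T₁ / 32) ^ m * e)
        = 32 * W0 * ((k : ℝ) ^ (c' + 1))⁻¹ *
          (Real.exp (-((k : ℝ) / 2)) * √(4 * (32 ^ m * M₀) * (T₁ / 32) ^ m * e)) := by
          rw [hweq]; field_simp
      _ ≤ 32 * W0 * ((k : ℝ) ^ Cc)⁻¹ * (√(8 * M₀ * Real.exp 1) * Y) := by gcongr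
      _ = _ := by ring
  have t2 : (w / r + r / (T₁ / 32)) * e ≤ 10 * ((k : ℝ) ^ Cc)⁻¹ * Y := by
    have h3 : r / (T₁ / 32) = 4 * (r / (T₁ / 8)) := by field_simp; ring
    rw [h3]
    have h4 : w / r + 4 * (r / (T₁ / 8)) ≤ 5 * ((k : ℝ) ^ Cc)⁻¹ := by
      nlinarith
    calc (w / r + 4 * (r / (T₁ / 8))) * e ≤ (5 * ((k : ℝ) ^ Cc)⁻¹) * e := by gcongr
      _ ≤ (5 * ((k : ℝ) ^ Cc)⁻¹) * (2 * Y) := by gcongr
      _ = _ := by ring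
  calc K₀ * (w / (T₁ / 32) * √(4 * (32 ^ m * M₀) * (T₁ / 32) ^ m * e) +
        (w / r + r / (T₁ / 32)) * e)
      ≤ K₀ * (32 * W0 * √(8 * M₀ * Real.exp 1) * ((k : ℝ) ^ Cc)⁻¹ * Y +
        10 * ((k : ℝ) ^ Cc)⁻¹ * Y) := by gcongr
    _ = _ := by ring

/-- the collapse scale is not too small -/
lemma class_sc {Ca k l : ℕ} {T₁ : ℝ} {p : E} (hk0 : k ≠ 0) (hT₁ : 0 < T₁)
    (hp : ClsPt m Q T ν P Ca k l T₁ p) :
    Real.exp (-(k : ℝ)) * T₁ ^ 2 ≤ 4 * Real.exp 1 * (T₁ / 2 ^ (l + 1)) ^ 2 := by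
  obtain ⟨hpT, hp1, hpA, hpk, ra₀, hra1, hra2, hraC⟩ := hp
  obtain ⟨hpv, hpΛ, hplo⟩ := class_num hk0 hpA hT₁ hpk
  have h2ρ : T₁ / 2 ^ l = 2 * (T₁ / 2 ^ (l + 1)) := by rw [pow_succ]; field_simp
  have he1 := Real.exp_pos 1
  have hexp1 : Real.exp (-((k : ℝ) + 1)) = Real.exp (-(k : ℝ)) * (Real.exp 1)⁻¹ := by
    rw [← Real.exp_neg, ← Real.exp_add]; congr 1; ring
  calc Real.exp (-(k : ℝ)) * T₁ ^ 2
      = Real.exp 1 * (Real.exp (-((k : ℝ) + 1)) * T₁ ^ 2) := by rw [hexp1]; field_simp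
    _ ≤ Real.exp 1 * ((2 * (T₁ / 2 ^ (l + 1))) ^ 2) := by
        have h9 : ra₀ ^ 2 ≤ (2 * (T₁ / 2 ^ (l + 1))) ^ 2 := by
          have := hraC.pos
          rw [h2ρ] at hra2
          gcongr
        have h10 := hplo.trans (hraC.sq.trans h9)
        gcongr
    _ = _ := by ring

/-- choice of the widths -/
lemma class_choice {X : ℝ} {C9 Cc k : ℕ} {T₁ ρ : ℝ} (hk4 : 4 ≤ k)
    (hL : TPU.Large (Cc + 1) (TPU.cW m (2 ^ m)) X k) (hT₁ : 0 < T₁) (hρ : 0 < ρ)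
    (hsc : Real.exp (-(k : ℝ)) * T₁ ^ 2 ≤ 4 * Real.exp 1 * ρ ^ 2) :
    ∃ w r : ℝ, 0 < w ∧ 4 * w ≤ r ∧ r ≤ T₁ / 32 ∧ 4 * r ≤ ρ ∧ w / r ≤ ((k : ℝ) ^ (Cc + 1))⁻¹ ∧
      r / (T₁ / 8) ≤ ((k : ℝ) ^ (Cc + 1))⁻¹ ∧
      2 * TH.thC 2 * (2 ^ m * ((k : ℝ) ^ (C9 + 2 * Cc + 12))⁻¹ *
        (Real.exp (-(k : ℝ)) * T₁ ^ 2)) *
        Real.log (r / (2 * w)) ≤ TPU.wf m (cg m) * w ^ 2 ∧
      w = TPU.cW m (2 ^ m) * ((k : ℝ) ^ (Cc + 1 + 1))⁻¹ * Real.exp (-((k : ℝ) / 2)) * T₁ ∧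
      ((k : ℝ) ^ 2)⁻¹ * (Real.exp (-(k : ℝ)) * T₁ ^ 2) ≤ r ^ 2 ∧
      ((k : ℝ) ^ (C9 + 2 * Cc + 12))⁻¹ * (Real.exp (-(k : ℝ)) * T₁ ^ 2) ≤ w ^ 2 ∧
      4 * ((k : ℝ) ^ (Cc + 1))⁻¹ ≤ ((k : ℝ) ^ Cc)⁻¹ := by
  have hk4' : (4 : ℝ) ≤ k := by exact_mod_cast hk4
  have hkpos : (0 : ℝ) < k := by linarith
  have hk1 : (1 : ℝ) ≤ k := by linarith
  have hcW := TPU.one_le_cW (m := m) (Cσ := 2 ^ m) (by positivity)
  obtain ⟨w, r, hw, hwr, hrτ, hrρ, hwr', hrt', hlog, hweq, hr2⟩ :=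
    TPU.choice (m := m) (a := C9 + 2 * Cc + 12) (by positivity) hL hT₁ hρ hsc (by omega)
  have hkcC : 4 * ((k : ℝ) ^ (Cc + 1))⁻¹ ≤ ((k : ℝ) ^ Cc)⁻¹ := by
    rw [pow_succ, mul_inv]
    have : (k : ℝ)⁻¹ ≤ 1 / 4 := by
      rw [inv_le_comm₀ hkpos (by norm_num)]; linarith
    have h0 : 0 < ((k : ℝ) ^ Cc)⁻¹ := by positivity
    nlinarith
  refine ⟨w, r, hw, hwr, ?_, hrρ, hwr', hrt', hlog, hweq, hr2, ?_, hkcC⟩
  · have h2 : ((k : ℝ) ^ Cc)⁻¹ ≤ 1 := inv_le_one_of_one_le₀ (one_le_pow₀ hk1)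
    have h1 : r / (T₁ / 8) ≤ 1 / 4 := by linarith
    rw [div_le_iff₀ (by positivity)] at h1
    linarith
  · have he2 : Real.exp (-((k : ℝ) / 2)) ^ 2 = Real.exp (-(k : ℝ)) := by
      rw [← Real.exp_nat_mul]; congr 1; push_cast; ring
    have hw2 : w ^ 2 = TPU.cW m (2 ^ m) ^ 2 *
        (((k : ℝ) ^ (2 * Cc + 4))⁻¹ * (Real.exp (-(k : ℝ)) * T₁ ^ 2)) := by
      rw [hweq, mul_pow, mul_pow, mul_pow, he2, inv_pow, ← pow_mul,
        show (Cc + 1 + 1) * 2 = 2 * Cc + 4 by ring]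
      ring
    rw [hw2]
    have h5 : ((k : ℝ) ^ (C9 + 2 * Cc + 12))⁻¹ ≤ ((k : ℝ) ^ (2 * Cc + 4))⁻¹ :=
      inv_anti₀ (by positivity) (pow_le_pow_right₀ hk1 (by omega))
    calc ((k : ℝ) ^ (C9 + 2 * Cc + 12))⁻¹ * (Real.exp (-(k : ℝ)) * T₁ ^ 2)
        ≤ ((k : ℝ) ^ (2 * Cc + 4))⁻¹ * (Real.exp (-(k : ℝ)) * T₁ ^ 2) := by gcongr
      _ ≤ _ := le_mul_of_one_le_left (by positivity) (one_le_pow₀ hcW)

/-- mass and energy at the top scale -/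
lemma class_top (hC : CylStat m T G h ν P) {Ca k l : ℕ} {T₁ : ℝ} {p : E} (hk0 : k ≠ 0)
    (hT₁ : 0 < T₁) (hp : ClsPt m Q T ν P Ca k l T₁ p) :
    ν.real (cylSet T p (16 * (T₁ / 32))) ≤ 32 ^ m * (1 + Q * AREA.kap m) * (T₁ / 32) ^ m ∧
    exc T ν P p (4 * (T₁ / 32)) ≤ 2 * (T₁ ^ ((m : ℤ) - 2) * AA m Q T ν P p T₁) ∧
    Real.exp (-((k : ℝ) + 1)) * T₁ ^ m ≤ T₁ ^ ((m : ℤ) - 2) * AA m Q T ν P p T₁ := by
  obtain ⟨hpT, hp1, hpA, hpk, -⟩ := hp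
  obtain ⟨hpv, hpΛ, hplo⟩ := class_num hk0 hpA hT₁ hpk
  have hY : T₁ ^ ((m : ℤ) - 2) * AA m Q T ν P p T₁ = T₁ ^ m / T₁ ^ 2 * AA m Q T ν P p T₁ := by
    rw [zpow_sub₀ hT₁.ne', zpow_natCast]; norm_cast
  refine ⟨?_, ?_, ?_⟩
  · rw [show 16 * (T₁ / 32) = T₁ / 2 by ring]
    refine (mass_le (Q := Q) hC hpT hT₁).trans ?_
    have h1 : AA m Q T ν P p T₁ / (2 * T₁ ^ 2) ≤ 1 := by
      rw [div_le_one (by positivity)]
      refine hpΛ.trans ?_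
      have h2 : Real.exp (-(k : ℝ)) ≤ 1 := Real.exp_le_one_iff.2 (by
        have : (0:ℝ) ≤ k := Nat.cast_nonneg _
        linarith)
      have h3 : 0 < T₁ ^ 2 := by positivity
      nlinarith
    calc T₁ ^ m * (AA m Q T ν P p T₁ / (2 * T₁ ^ 2) + Q * AREA.kap m)
        ≤ T₁ ^ m * (1 + Q * AREA.kap m) := by gcongr
      _ = _ := by rw [div_pow]; field_simp
  · refine (exc_mono' hC (by linarith : 4 * (T₁ / 32) ≤ T₁ / 2)).trans ?_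
    have h1 := exc_le_AA (Q := Q) hC hpT (by positivity : 0 < T₁ / 2)
    rw [show 2 * (T₁ / 2) = T₁ by ring] at h1
    rw [hY]
    linarith
  · rw [hY]
    calc Real.exp (-((k : ℝ) + 1)) * T₁ ^ m
        = T₁ ^ m / T₁ ^ 2 * (Real.exp (-((k : ℝ) + 1)) * T₁ ^ 2) := by field_simp
      _ ≤ _ := by gcongr

variable (E) in
/-- **Class energy.** -/
theorem boxClass (m Q : ℕ) : BoxClass E m Q := by
  intro C9 Cc
  obtain ⟨v₀, hv₀⟩ := TPU.exists_large (Cc + 1) (TPU.cW m (2 ^ m)) (4 * 2 ^ m / TPU.c0 m (cg m))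
  set M₀ : ℝ := 1 + Q * AREA.kap m with hM₀
  have hM0 : 0 ≤ M₀ := by
    have h1 := AREA.kap_pos m
    rw [hM₀]; positivity
  have hc0 := TPU.c0_pos (m := m) (cg_pos m)
  have hclC : 0 ≤ TPU.clC m (32 ^ m * M₀) := by unfold TPU.clC; positivity
  have hcW := TPU.one_le_cW (m := m) (Cσ := 2 ^ m) (by positivity)
  have hcW0 : 0 ≤ TPU.cW m (2 ^ m) := by linarith
  refine ⟨C9 + 2 * Cc + 12, max 4 ⌈v₀⌉₊, 1 / 32,
    TPU.clC m (32 ^ m * M₀) * (32 * TPU.cW m (2 ^ m) * √(8 * M₀ * Real.exp 1) + 10) + 1, 1,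
    by norm_num, by norm_num, by positivity, one_pos, ?_⟩
  intro T h ν P hI _ T₁ k l S hT₁ hT₁' hk hS p hp
  have hC := hI.cyl
  haveI := hC.fin
  have hk4 : 4 ≤ k := (le_max_left _ _).trans hk
  have hk0 : k ≠ 0 := by omega
  have hkv : v₀ ≤ k := (Nat.le_ceil v₀).trans (by exact_mod_cast (le_max_right _ _).trans hk)
  have hL := hv₀ k hkv
  have hρ0 : 0 < T₁ / 2 ^ (l + 1) := by positivity
  obtain ⟨w, r, hw, hwr, hrt, hrρ, hwr', hrt', hlog, hweq, hr2, hwlo, hkcC⟩ :=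
    class_choice (C9 := C9) hk4 hL hT₁ hρ0 (class_sc hk0 hT₁ (hS p hp))
  obtain ⟨hmass, heY, hYlo⟩ := class_top hC hk0 hT₁ (hS p hp)
  have hpA := (hS p hp).2.2.1
  have hp1 := (hS p hp).2.1
  have hcore := TPU.core_int (M := 32 ^ m * M₀) (t := T₁ / 32) (r := r) (w := w)
    (σ := 2 ^ m * ((k : ℝ) ^ (C9 + 2 * Cc + 12))⁻¹ * (Real.exp (-(k : ℝ)) * T₁ ^ 2))
    (lam := ((k : ℝ) ^ C9)⁻¹) hI (hS p hp).1 (by rw [sub_zero]; linarith) hmass hw hwr hrt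
    (by positivity) hlog
  have hgm : MeasurableSet (TPU.good m T ν P p (T₁ / 32) w r
    (2 ^ m * ((k : ℝ) ^ (C9 + 2 * Cc + 12))⁻¹ * (Real.exp (-(k : ℝ)) * T₁ ^ 2))
    (TPU.c0 m (cg m) / 8 * ((k : ℝ) ^ C9)⁻¹ * r ^ m)) := (TPU.isClosed_good hC hw).measurableSet
  have hDm := TPU.nullMeasurableSet_lev (lam := ((k : ℝ) ^ C9)⁻¹) hC hgm
  have hsub : {y | T.starProjection y ∈ S ∩ ball p (1 / 32 * T₁) ∧
      ((k : ℝ) ^ C9)⁻¹ ≤ FV.tilt T (P y)} ⊆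
      {y | T.starProjection y ∈ TPU.good m T ν P p (T₁ / 32) w r
    (2 ^ m * ((k : ℝ) ^ (C9 + 2 * Cc + 12))⁻¹ * (Real.exp (-(k : ℝ)) * T₁ ^ 2))
    (TPU.c0 m (cg m) / 8 * ((k : ℝ) ^ C9)⁻¹ * r ^ m) ∧ ((k : ℝ) ^ C9)⁻¹ ≤ FV.tilt T (P y)} := by
    rintro y ⟨⟨hyS, hyb⟩, hyl⟩
    refine ⟨?_, hyl⟩
    refine class_good hC (by omega) hT₁ (hS _ hyS) hw hwr hwlo hrρ hr2 (by omega) hL.bigX ?_
    refine ball_subset_closedBall ?_
    rwa [show 1 / 32 * T₁ = T₁ / 32 by ring] at hyb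
  have he0 : 0 ≤ exc T ν P p (4 * (T₁ / 32)) := exc_nonneg hC _ _
  have hrhs := class_rhs (m := m) (c' := Cc + 1) (Cc := Cc) (T₁ := T₁) (w := w) (r := r)
    (M₀ := M₀) (W0 := TPU.cW m (2 ^ m)) (K₀ := TPU.clC m (32 ^ m * M₀))
    (by omega : 1 ≤ k) hT₁ hM0 hcW0 hclC he0 heY hYlo hweq hwr' hrt' hkcC
  refine (lintegral_mono_set hsub).trans ?_
  rw [← ofReal_integral_eq_lintegral_ofReal (integrable_tilt' hC).integrableOn
    (ae_restrict_of_ae (tilt_nonneg_ae hC))]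
  refine ENNReal.ofReal_le_ofReal (hcore.trans (hrhs.trans ?_))
  have h1 : 0 < ((k : ℝ) ^ Cc)⁻¹ * (T₁ ^ ((m : ℤ) - 2) * AA m Q T ν P p T₁) := by
    have : (0:ℝ) < k := by exact_mod_cast Nat.pos_of_ne_zero hk0
    positivity
  linarith

end Vale.Agent.P214.GEN
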