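import Vale.Agent.P214.GEN.Props
import Vale.Agent.P214.COMP.Charge

/-!
# P214, general rate: the top classes (level `i = 0`, no event)
-/

open Set Filter Topology MeasureTheory Metric
open scoped RealInnerProductSpace ENNReal

set_option linter.all false

namespace Vale.Agent.P214.GEN

open Vale.Agent.P214.Skel Vale.Agent.P214.EX Vale.Agent.P214.R2

/-! ### arithmetic -/

/-- `AA = T² e^{-v}` -/
lemma AA_eq_exp {A T : ℝ} (hA : 0 < A) (hT : 0 < T) :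
    A = T ^ 2 * Real.exp (-(Real.log (T ^ 2 / A))) := by
  rw [Real.exp_neg, Real.exp_log (by positivity)]
  field_simp

/-- the dyadic index of a scale -/
lemma exists_dyadic {ra T : ℝ} (h0 : 0 < ra) (h1 : ra ≤ T) :
    ∃ l : ℕ, T / 2 ^ (l + 1) < ra ∧ ra ≤ T / 2 ^ l := by
  have hT : 0 < T := h0.trans_le h1
  obtain ⟨l, hl1, hl2⟩ := exists_nat_pow_near_of_lt_one (x := ra / T) (y := 1 / 2)
    (by positivity) (by rw [div_le_one hT]; exact h1) (by norm_num) (by norm_num)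
  refine ⟨l, ?_, ?_⟩
  · rw [one_div, inv_pow] at hl1
    rw [lt_div_iff₀ hT] at hl1
    rwa [div_eq_inv_mul]
  · rw [one_div, inv_pow] at hl2
    rw [div_le_iff₀ hT] at hl2
    rwa [div_eq_inv_mul]

/-- the dyadic index of a collapse scale is at most `⌊v⌋` -/
lemma dyadic_le {ra A T : ℝ} {l : ℕ} (hA : 0 < A) (hT : 0 < T) (hra : A ≤ ra ^ 2) (h0 : 0 < ra)
    (hl : ra ≤ T / 2 ^ l) : l < ⌊Real.log (T ^ 2 / A)⌋₊ + 1 := by
  have h1 : (2 : ℝ) ^ (2 * l) ≤ T ^ 2 / A := by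
    rw [le_div_iff₀ hA]
    have h2 : A ≤ (T / 2 ^ l) ^ 2 := hra.trans (by gcongr)
    calc (2 : ℝ) ^ (2 * l) * A ≤ 2 ^ (2 * l) * (T / 2 ^ l) ^ 2 := by gcongr
      _ = T ^ 2 := by rw [div_pow, ← pow_mul, mul_comm l 2]; field_simp
  have h2 : (l : ℝ) ≤ Real.log (T ^ 2 / A) := by
    have h3 : Real.log ((2 : ℝ) ^ (2 * l)) ≤ Real.log (T ^ 2 / A) :=
      Real.log_le_log (by positivity) h1
    rw [Real.log_pow] at h3
    push_cast at h3
    have h4 : (1 : ℝ) / 2 ≤ Real.log 2 := by have := Real.log_two_gt_d9; linarith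
    have h5 : (0 : ℝ) ≤ l := Nat.cast_nonneg l
    nlinarith
  rw [Nat.lt_succ_iff]
  exact Nat.le_floor h2

/-- `∑_{k ≥ k₀} (k + 1) k^{-c} ≤ 4 k₀^{-(c-2)}` -/
lemma tsum_top {k₀ c : ℕ} (hk₀ : 1 ≤ k₀) (hc : 3 ≤ c) {B : ℝ} (hB : 0 ≤ B) :
    ∑' a : ℕ × ℕ, (if k₀ ≤ a.1 ∧ a.2 < a.1 + 1 then ENNReal.ofReal (B * ((a.1 : ℝ) ^ c)⁻¹) else 0)
      ≤ ENNReal.ofReal (4 * B * ((k₀ : ℝ) ^ (c - 2))⁻¹) := by
  rw [ENNReal.tsum_prod (f := fun k l => if k₀ ≤ k ∧ l < k + 1 then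
    ENNReal.ofReal (B * ((k : ℝ) ^ c)⁻¹) else 0)]
  have hk₀p : (0 : ℝ) < k₀ := by exact_mod_cast hk₀
  have h1 : ∀ k : ℕ, (∑' l : ℕ, if k₀ ≤ k ∧ l < k + 1 then
      ENNReal.ofReal (B * ((k : ℝ) ^ c)⁻¹) else 0) ≤
      ENNReal.ofReal (2 * B * ((k₀ : ℝ) ^ (c - 3))⁻¹) *
        (if k₀ ≤ k then ENNReal.ofReal (((k : ℝ) ^ 2)⁻¹) else 0) := by
    intro k
    by_cases hk : k₀ ≤ k
    · simp only [hk, true_and, if_true]
      rw [COMP.tsum_lt, ← ENNReal.ofReal_mul (by positivity), ← ENNReal.ofReal_natCast,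
        ← ENNReal.ofReal_mul (by positivity)]
      apply ENNReal.ofReal_le_ofReal
      have hkp : (0 : ℝ) < k := hk₀p.trans_le (by exact_mod_cast hk)
      have hk1 : (1 : ℝ) ≤ k := by exact_mod_cast (hk₀.trans hk)
      have h2 : (k : ℝ) ^ c = (k : ℝ) ^ (c - 3) * (k : ℝ) ^ 2 * k := by
        rw [mul_assoc, ← pow_succ, ← pow_add]; congr 1; omega
      have h3 : ((k : ℝ) ^ (c - 3))⁻¹ ≤ ((k₀ : ℝ) ^ (c - 3))⁻¹ := by
        gcongr
      push_cast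
      rw [h2, mul_inv, mul_inv]
      calc ((k : ℝ) + 1) * (B * (((k : ℝ) ^ (c - 3))⁻¹ * ((k : ℝ) ^ 2)⁻¹ * (k : ℝ)⁻¹))
          = (((k : ℝ) + 1) * (k : ℝ)⁻¹) * (B * ((k : ℝ) ^ (c - 3))⁻¹ * ((k : ℝ) ^ 2)⁻¹) := by ring
        _ ≤ 2 * (B * ((k₀ : ℝ) ^ (c - 3))⁻¹ * ((k : ℝ) ^ 2)⁻¹) := by
            have h4 : ((k : ℝ) + 1) * (k : ℝ)⁻¹ ≤ 2 := by
              rw [← div_eq_mul_inv, div_le_iff₀ hkp]; linarith
            gcongr
        _ = 2 * B * ((k₀ : ℝ) ^ (c - 3))⁻¹ * ((k : ℝ) ^ 2)⁻¹ := by ring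
    · simp [hk]
  refine (ENNReal.tsum_le_tsum h1).trans ?_
  rw [ENNReal.tsum_mul_left]
  refine (mul_le_mul' le_rfl (COMP.tsum_inv_sq k₀ hk₀)).trans ?_
  rw [← ENNReal.ofReal_mul (by positivity)]
  apply ENNReal.ofReal_le_ofReal
  have h5 : (k₀ : ℝ) ^ (c - 2) = (k₀ : ℝ) ^ (c - 3) * k₀ := by
    rw [← pow_succ]; congr 1; omega
  rw [h5, mul_inv]
  apply le_of_eq
  ring

variable {E : Type*} [NormedAddCommGroup E] [InnerProductSpace ℝ E] [FiniteDimensional ℝ E]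
  [MeasurableSpace E] [BorelSpace E]
variable {m Q : ℕ} {T : Submodule ℝ E} {G : Set E} {h : ℝ} {ν : Measure E} {P : E → E →L[ℝ] E}

lemma aem_tilt (hC : FV.CylStat m T G h ν P) : AEMeasurable (fun y => FV.tilt T (P y)) ν :=
  (integrable_tilt' hC).aestronglyMeasurable.aemeasurable

/-- energy of a set of points over `ball 0 1` -/
lemma lint_tilt_le (hC : FV.CylStat m T G h ν P) {Y : Set E}
    (hY : ∀ y ∈ Y, T.starProjection y ∈ ball (0 : E) 1) {e : ℝ} (he : exc T ν P 0 2 ≤ e) :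
    ∫⁻ y in Y, ENNReal.ofReal (FV.tilt T (P y)) ∂ν ≤ ENNReal.ofReal e := by
  calc ∫⁻ y in Y, ENNReal.ofReal (FV.tilt T (P y)) ∂ν
      ≤ ∫⁻ y in cylSet T 0 2, ENNReal.ofReal (FV.tilt T (P y)) ∂ν :=
        lintegral_mono' (Measure.restrict_mono (fun y hy => by
          have := hY y hy
          exact ball_subset_ball (by norm_num) this) le_rfl) le_rfl
    _ = ENNReal.ofReal (exc T ν P 0 2) := by
        rw [exc, ofReal_integral_eq_lintegral_ofReal (integrable_tilt' hC).integrableOn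
          (ae_restrict_of_ae (tilt_nonneg_ae hC))]
    _ ≤ ENNReal.ofReal e := ENNReal.ofReal_le_ofReal he

/-- the coefficient class pays -/
lemma coef_cls (hC : FV.CylStat m T G h ν P) {Y : Set E} {c Cp b e : ℝ} (hc : 0 < c)
    (hCp : 0 ≤ Cp) (hb : 0 ≤ b)
    (hY : ∀ y ∈ Y, T.starProjection y ∈ ball (0 : E) 1 ∧ c * FV.tilt T (P y) ≤ b)
    (he : exc T ν P 0 2 ≤ e) :
    ∫⁻ y in Y, ENNReal.ofReal (Cp * FV.tilt T (P y) ^ 2) ∂ν ≤
      ENNReal.ofReal (Cp / c * b * e) := by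
  have h1 : ∫⁻ y in Y, ENNReal.ofReal (Cp * FV.tilt T (P y) ^ 2) ∂ν ≤
      ∫⁻ y in Y, ENNReal.ofReal (Cp / c * b) * ENNReal.ofReal (FV.tilt T (P y)) ∂ν := by
    refine setLIntegral_mono_ae (((aem_tilt hC).ennreal_ofReal.const_mul _).restrict) ?_
    filter_upwards [tilt_nonneg_ae hC] with y hy0 hyY
    rw [← ENNReal.ofReal_mul (by positivity)]
    apply ENNReal.ofReal_le_ofReal
    have h2 : FV.tilt T (P y) ≤ b / c := by
      rw [le_div_iff₀ hc, mul_comm]; exact (hY y hyY).2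
    calc Cp * FV.tilt T (P y) ^ 2 = Cp * FV.tilt T (P y) * FV.tilt T (P y) := by ring
      _ ≤ Cp * (b / c) * FV.tilt T (P y) := by gcongr
      _ = Cp / c * b * FV.tilt T (P y) := by ring
  refine h1.trans ?_
  rw [lintegral_const_mul'' _ ((aem_tilt hC).ennreal_ofReal.restrict),
    ENNReal.ofReal_mul (p := Cp / c * b) (by positivity)]
  gcongr
  exact lint_tilt_le hC (fun y hy => (hY y hy).1) he

/-- **one collapse class at one level**, from the estimate on small balls -/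
lemma net_cls (hC : FV.CylStat m T G h ν P) {Z : Set E} {Cp r b : ℝ} (hCp : 0 ≤ Cp)
    (hr : 0 < r) (hr1 : r ≤ 1) (hb : 0 ≤ b)
    (hZ : ∀ y ∈ Z, T.starProjection y ∈ ball (0 : E) 1)
    (hcls : ∀ y ∈ Z, ∫⁻ w in {w | w ∈ Z ∧ T.starProjection w ∈ ball (T.starProjection y) r},
      ENNReal.ofReal (FV.tilt T (P w)) ∂ν ≤ ENNReal.ofReal b) :
    ∫⁻ y in Z, ENNReal.ofReal (Cp * FV.tilt T (P y) ^ 2) ∂ν ≤
      ENNReal.ofReal (Cp * m * (3 / r) ^ Module.finrank ℝ E * b) := by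
  classical
  have h0 : ∫⁻ y in Z, ENNReal.ofReal (Cp * FV.tilt T (P y) ^ 2) ∂ν ≤
      ENNReal.ofReal (Cp * m) * ∫⁻ y in Z, ENNReal.ofReal (FV.tilt T (P y)) ∂ν := by
    rw [← lintegral_const_mul'' _ ((aem_tilt hC).ennreal_ofReal.restrict)]
    refine setLIntegral_mono_ae (((aem_tilt hC).ennreal_ofReal.const_mul _).restrict) ?_
    filter_upwards [tilt_nonneg_ae hC, tilt_le_ae hC] with y hy0 hym _
    rw [← ENNReal.ofReal_mul (by positivity)]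
    apply ENNReal.ofReal_le_ofReal
    calc Cp * FV.tilt T (P y) ^ 2 = Cp * FV.tilt T (P y) * FV.tilt T (P y) := by ring
      _ ≤ Cp * m * FV.tilt T (P y) := by gcongr
  refine h0.trans ?_
  have hbd : Bornology.IsBounded (T.starProjection '' Z) :=
    (isBounded_ball (x := (0 : E)) (r := 1)).subset (by
      rintro _ ⟨y, hy, rfl⟩; exact hZ y hy)
  obtain ⟨net, hnetP, hsep, hcov⟩ := BES.exists_net (T.starProjection '' Z) hbd hr
  have hcard : (net.card : ℝ) ≤ (3 / r) ^ Module.finrank ℝ E := by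
    have h1 := BES.card_le_of_sep net (0 : E) (t := r) (R := 1 / r) hr (by positivity)
      (fun c hcn => by
        obtain ⟨y, hy, hyc⟩ := hnetP hcn
        have := hZ y hy
        rw [hyc, mem_ball] at this
        rw [one_div, inv_mul_cancel₀ hr.ne']
        exact this.le) hsep
    refine h1.trans ?_
    have h2 : 2 * (1 / r) + 1 ≤ 3 / r := by
      have h3 : 1 ≤ 1 / r := by rw [le_div_iff₀ hr]; linarith
      calc 2 * (1 / r) + 1 ≤ 2 * (1 / r) + 1 / r := by linarith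
        _ = 3 / r := by ring
    gcongr
  have hcover : ∫⁻ y in Z, ENNReal.ofReal (FV.tilt T (P y)) ∂ν ≤
      ∑ p ∈ net, ∫⁻ w in {w | w ∈ Z ∧ T.starProjection w ∈ ball p r},
        ENNReal.ofReal (FV.tilt T (P w)) ∂ν := by
    have h1 : Z ⊆ ⋃ p : net, {w | w ∈ Z ∧ T.starProjection w ∈ ball (p : E) r} := by
      intro y hy
      obtain ⟨p, hp, hyp⟩ := mem_iUnion₂.1 (hcov (mem_image_of_mem _ hy))
      exact mem_iUnion.2 ⟨⟨p, hp⟩, hy, hyp⟩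
    calc ∫⁻ y in Z, ENNReal.ofReal (FV.tilt T (P y)) ∂ν
        ≤ ∫⁻ y in ⋃ p : net, {w | w ∈ Z ∧ T.starProjection w ∈ ball (p : E) r},
            ENNReal.ofReal (FV.tilt T (P y)) ∂ν :=
          lintegral_mono' (Measure.restrict_mono h1 le_rfl) le_rfl
      _ ≤ ∑' p : net, ∫⁻ y in {w | w ∈ Z ∧ T.starProjection w ∈ ball (p : E) r},
            ENNReal.ofReal (FV.tilt T (P y)) ∂ν := lintegral_iUnion_le _ _
      _ = _ := by
          rw [tsum_fintype]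
          exact Finset.sum_coe_sort net fun p =>
            ∫⁻ w in {w | w ∈ Z ∧ T.starProjection w ∈ ball p r},
              ENNReal.ofReal (FV.tilt T (P w)) ∂ν
  have hsum : ∑ p ∈ net, ∫⁻ w in {w | w ∈ Z ∧ T.starProjection w ∈ ball p r},
        ENNReal.ofReal (FV.tilt T (P w)) ∂ν ≤ ENNReal.ofReal ((3 / r) ^ Module.finrank ℝ E * b) := by
    calc _ ≤ ∑ p ∈ net, ENNReal.ofReal b := by
          refine Finset.sum_le_sum fun p hp => ?_
          obtain ⟨y, hy, hyp⟩ := hnetP hp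
          rw [← hyp]
          exact hcls y hy
      _ = net.card * ENNReal.ofReal b := by rw [Finset.sum_const, nsmul_eq_mul]
      _ = ENNReal.ofReal (net.card * b) := by
          rw [← ENNReal.ofReal_natCast, ← ENNReal.ofReal_mul (by positivity)]
      _ ≤ _ := ENNReal.ofReal_le_ofReal (by gcongr)
  calc ENNReal.ofReal (Cp * m) * ∫⁻ y in Z, ENNReal.ofReal (FV.tilt T (P y)) ∂ν
      ≤ ENNReal.ofReal (Cp * m) * ENNReal.ofReal ((3 / r) ^ Module.finrank ℝ E * b) := by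
        gcongr
        exact hcover.trans hsum
    _ = _ := by
        rw [← ENNReal.ofReal_mul (by positivity)]
        congr 1; ring

/-- the conclusion of `BoxClass` for one varifold -/
def ClassAt (m Q : ℕ) (T : Submodule ℝ E) (ν : Measure E) (P : E → E →L[ℝ] E)
    (C9 Cc Ca k₀ : ℕ) (c C : ℝ) : Prop :=
  ∀ (T₁ : ℝ) (k l : ℕ) (S : Set E), 0 < T₁ → T₁ ≤ 1 / 16 → k₀ ≤ k →
    (∀ x ∈ S, x ∈ T ∧ ‖x‖ ≤ 1 ∧ 0 < AA m Q T ν P x T₁ ∧ ⌊vv m Q T ν P x T₁⌋₊ = k ∧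
      ∃ ra, T₁ / 2 ^ (l + 1) < ra ∧ ra ≤ T₁ / 2 ^ l ∧ Coll m Q T ν P Ca x T₁ ra) →
    ∀ p ∈ S, ∫⁻ y in {y | T.starProjection y ∈ S ∩ ball p (c * T₁) ∧
        ((k : ℝ) ^ C9)⁻¹ ≤ FV.tilt T (P y)}, ENNReal.ofReal (FV.tilt T (P y)) ∂ν
      ≤ ENNReal.ofReal (C * ((k : ℝ) ^ Cc)⁻¹ * (T₁ ^ ((m : ℤ) - 2) * AA m Q T ν P p T₁))

/-- **The top classes.** -/
theorem top_cls (hC : FV.CylStat m T G h ν P) {t₀ : ℝ} (ht0 : 0 < t₀) (ht1 : t₀ ≤ 1 / 16)
    {c cc Cp Ccl Ct e : ℝ} {C9 Cc Ca k₀ L₀ : ℕ} (hc : 0 < c) (hc1 : c ≤ 1) (hcc : 0 < cc)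
    (hcc1 : cc ≤ 1) (hCp : 0 ≤ Cp) (hCcl : 0 ≤ Ccl) (hCt : 0 ≤ Ct) (he : 0 ≤ e)
    (h1L : 1 ≤ L₀) (hk : k₀ ≤ L₀) (hCc : 3 ≤ Cc)
    (hclass : ClassAt m Q T ν P C9 Cc Ca k₀ cc Ccl)
    (hAA : ∀ x ∈ T, ‖x‖ ≤ 1 → t₀ ^ ((m : ℤ) - 2) * AA m Q T ν P x t₀ ≤ Ct * e)
    (hexc : exc T ν P 0 2 ≤ e) {f : E → ℝ} (hf : ∀ x, f x ≤ 1) {Y : Set E}
    (hY : ∀ y ∈ Y, T.starProjection y ∈ ball (0 : E) 1 ∧
      0 < AA m Q T ν P (T.starProjection y) t₀ ∧
      (L₀ : ℝ) ≤ vv m Q T ν P (T.starProjection y) t₀ ∧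
      (c * FV.tilt T (P y) ≤ (vv m Q T ν P (T.starProjection y) t₀ ^ C9)⁻¹ ∨
        ∃ ra, Coll m Q T ν P Ca (T.starProjection y) t₀ ra)) :
    ∫⁻ y in Y, ENNReal.ofReal (Cp * FV.tilt T (P y) ^ 2) *
        ENNReal.ofReal (f (T.starProjection y)) ∂ν ≤
      ENNReal.ofReal ((Cp / c * ((L₀ : ℝ) ^ C9)⁻¹ +
        4 * (Cp * m * (3 / cc) ^ Module.finrank ℝ E * (Ccl * Ct)) *
          (t₀⁻¹) ^ Module.finrank ℝ E * ((L₀ : ℝ) ^ (Cc - 2))⁻¹) * e) := by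
  classical
  haveI := hC.fin
  have hL0 : (0 : ℝ) < L₀ := by exact_mod_cast (by omega : 0 < L₀)
  -- drop the weight
  have hdrop : ∫⁻ y in Y, ENNReal.ofReal (Cp * FV.tilt T (P y) ^ 2) *
      ENNReal.ofReal (f (T.starProjection y)) ∂ν ≤
      ∫⁻ y in Y, ENNReal.ofReal (Cp * FV.tilt T (P y) ^ 2) ∂ν := by
    refine lintegral_mono fun y => ?_
    calc _ ≤ ENNReal.ofReal (Cp * FV.tilt T (P y) ^ 2) * ENNReal.ofReal 1 := by
          gcongr; exact hf _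
      _ = _ := by rw [ENNReal.ofReal_one, mul_one]
  refine hdrop.trans ?_
  -- the classes
  set Y0 : Set E := {y | y ∈ Y ∧ c * FV.tilt T (P y) ≤
    ((⌊vv m Q T ν P (T.starProjection y) t₀⌋₊ : ℝ) ^ C9)⁻¹} with hY0
  set Z : ℕ × ℕ → Set E := fun a => {y | y ∈ Y ∧ 0 ≤ FV.tilt T (P y) ∧
    ¬ c * FV.tilt T (P y) ≤ ((⌊vv m Q T ν P (T.starProjection y) t₀⌋₊ : ℝ) ^ C9)⁻¹ ∧
    ⌊vv m Q T ν P (T.starProjection y) t₀⌋₊ = a.1 ∧
    (L₀ ≤ a.1 ∧ a.2 < a.1 + 1) ∧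
    ∃ ra, t₀ / 2 ^ (a.2 + 1) < ra ∧ ra ≤ t₀ / 2 ^ a.2 ∧
      Coll m Q T ν P Ca (T.starProjection y) t₀ ra} with hZ
  set Nn : Set E := {y | ¬ 0 ≤ FV.tilt T (P y)} with hNn
  have hNn0 : ν Nn = 0 := by
    have := tilt_nonneg_ae hC
    rwa [ae_iff] at this
  have hsub : Y ⊆ (Y0 ∪ Nn) ∪ ⋃ a, Z a := by
    intro y hy
    obtain ⟨y1, y2, y3, y4⟩ := hY y hy
    by_cases h0 : 0 ≤ FV.tilt T (P y)
    · by_cases hcoef : c * FV.tilt T (P y) ≤
          ((⌊vv m Q T ν P (T.starProjection y) t₀⌋₊ : ℝ) ^ C9)⁻¹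
      · exact Or.inl (Or.inl ⟨hy, hcoef⟩)
      · have hk1 : L₀ ≤ ⌊vv m Q T ν P (T.starProjection y) t₀⌋₊ := Nat.le_floor y3
        have hkp : (0 : ℝ) < ⌊vv m Q T ν P (T.starProjection y) t₀⌋₊ :=
          hL0.trans_le (by exact_mod_cast hk1)
        have hne : ¬ c * FV.tilt T (P y) ≤
            (vv m Q T ν P (T.starProjection y) t₀ ^ C9)⁻¹ := fun h => hcoef (h.trans (by
          gcongr
          exact Nat.floor_le (hL0.le.trans y3)))
        obtain ⟨ra, hra⟩ := y4.resolve_left hne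
        obtain ⟨l, hl1, hl2⟩ := exists_dyadic hra.pos hra.le
        have hl3 := dyadic_le y2 ht0 hra.sq hra.pos hl2
        refine Or.inr (mem_iUnion.2 ⟨(⌊vv m Q T ν P (T.starProjection y) t₀⌋₊, l), hy, h0, hcoef,
          rfl, ⟨Nat.le_floor y3, hl3⟩, ra, hl1, hl2, hra⟩)
    · exact Or.inl (Or.inr h0)
  have hI0 : ∫⁻ y in Y0, ENNReal.ofReal (Cp * FV.tilt T (P y) ^ 2) ∂ν ≤
      ENNReal.ofReal (Cp / c * ((L₀ : ℝ) ^ C9)⁻¹ * e) := by
    refine coef_cls hC hc hCp (by positivity) (fun y hy => ?_) hexc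
    obtain ⟨y1, y2, y3, y4⟩ := hY y hy.1
    refine ⟨y1, hy.2.trans ?_⟩
    gcongr
    exact_mod_cast Nat.le_floor y3
  have hIZ : ∀ a, ∫⁻ y in Z a, ENNReal.ofReal (Cp * FV.tilt T (P y) ^ 2) ∂ν ≤
      (if L₀ ≤ a.1 ∧ a.2 < a.1 + 1 then ENNReal.ofReal
        ((Cp * m * (3 / cc) ^ Module.finrank ℝ E * (Ccl * Ct)) *
          (t₀⁻¹) ^ Module.finrank ℝ E * e * ((a.1 : ℝ) ^ Cc)⁻¹) else 0) := by
    intro a
    by_cases ha : L₀ ≤ a.1 ∧ a.2 < a.1 + 1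
    · rw [if_pos ha]
      have hkp : (0 : ℝ) < a.1 := hL0.trans_le (by exact_mod_cast ha.1)
      have h1 := net_cls (ν := ν) (Z := Z a) (Cp := Cp) (r := cc * t₀)
        (b := Ccl * ((a.1 : ℝ) ^ Cc)⁻¹ * (Ct * e)) hC hCp (by positivity)
        (by nlinarith) (by positivity) (fun y hy => (hY y hy.1).1) ?_
      · refine h1.trans (le_of_eq ?_)
        congr 1
        rw [show (3 / (cc * t₀)) = (3 / cc) * t₀⁻¹ by field_simp, mul_pow]
        ring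
      · intro y hy
        have h2 := hclass t₀ a.1 a.2 (T.starProjection '' Z a) ht0 ht1 (hk.trans ha.1) ?_
          (T.starProjection y) (mem_image_of_mem _ hy)
        · refine le_trans (lintegral_mono' (Measure.restrict_mono ?_ le_rfl) le_rfl) (h2.trans ?_)
          · rintro w ⟨hw1, hw2⟩
            refine ⟨⟨mem_image_of_mem _ hw1, hw2⟩, ?_⟩
            have hw3 := (not_le.1 hw1.2.2.1).le
            rw [hw1.2.2.2.1] at hw3
            calc ((a.1 : ℝ) ^ C9)⁻¹ ≤ c * FV.tilt T (P w) := hw3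
              _ ≤ 1 * FV.tilt T (P w) := mul_le_mul_of_nonneg_right hc1 hw1.2.1
              _ = _ := one_mul _
          · apply ENNReal.ofReal_le_ofReal
            refine mul_le_mul_of_nonneg_left ?_ (by positivity)
            exact hAA _ (Submodule.starProjection_apply_mem _ _) (by
              have := (hY y hy.1).1
              rw [mem_ball_zero_iff] at this
              exact this.le)
        · rintro _ ⟨w, hw, rfl⟩
          obtain ⟨w1, w2, w3, w4⟩ := hY w hw.1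
          refine ⟨Submodule.starProjection_apply_mem _ _, ?_, w2, hw.2.2.2.1, hw.2.2.2.2.2⟩
          rw [mem_ball_zero_iff] at w1
          exact w1.le
    · rw [if_neg ha]
      have : Z a = ∅ := by
        refine eq_empty_of_forall_notMem fun y hy => ha hy.2.2.2.2.1
      rw [this]; simp
  calc ∫⁻ y in Y, ENNReal.ofReal (Cp * FV.tilt T (P y) ^ 2) ∂ν
      ≤ ∫⁻ y in (Y0 ∪ Nn) ∪ ⋃ a, Z a, ENNReal.ofReal (Cp * FV.tilt T (P y) ^ 2) ∂ν :=
        lintegral_mono' (Measure.restrict_mono hsub le_rfl) le_rfl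
    _ ≤ ∫⁻ y in Y0 ∪ Nn, ENNReal.ofReal (Cp * FV.tilt T (P y) ^ 2) ∂ν +
        ∫⁻ y in ⋃ a, Z a, ENNReal.ofReal (Cp * FV.tilt T (P y) ^ 2) ∂ν := lintegral_union_le _ _ _
    _ ≤ (∫⁻ y in Y0, ENNReal.ofReal (Cp * FV.tilt T (P y) ^ 2) ∂ν +
        ∫⁻ y in Nn, ENNReal.ofReal (Cp * FV.tilt T (P y) ^ 2) ∂ν) +
        ∑' a, ∫⁻ y in Z a, ENNReal.ofReal (Cp * FV.tilt T (P y) ^ 2) ∂ν := by
        gcongr
        · exact lintegral_union_le _ _ _
        · exact lintegral_iUnion_le _ _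
    _ ≤ (ENNReal.ofReal (Cp / c * ((L₀ : ℝ) ^ C9)⁻¹ * e) + 0) +
        ENNReal.ofReal (4 * ((Cp * m * (3 / cc) ^ Module.finrank ℝ E * (Ccl * Ct)) *
          (t₀⁻¹) ^ Module.finrank ℝ E * e) * ((L₀ : ℝ) ^ (Cc - 2))⁻¹) := by
        gcongr
        · rw [Measure.restrict_eq_zero.2 hNn0]; simp
        · refine (ENNReal.tsum_le_tsum hIZ).trans ?_
          exact tsum_top (by omega) hCc (by positivity)
    _ = _ := by
        rw [add_zero, ← ENNReal.ofReal_add (by positivity) (by positivity)]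
        congr 1
        ring

end Vale.Agent.P214.GEN
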