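import Vale.Agent.P214.GEN.ExhG
import Vale.Agent.P214.POSG.Main
import Vale.Agent.P214.EX.Cont

/-!
# P214, general rate: positivity of the fluctuation tested with the exhausted function

`quasi_const`: the limit of the exhaustion is quasi-constant around the steep points.
`pos_exh`: the positivity bound (POSG) for `rhoLim ρ`.
`alternative_lim`: the alternative at a centre, for the limit, without positivity of the measure.
-/

open Set Filter Topology MeasureTheory Metric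
open scoped RealInnerProductSpace ENNReal

set_option linter.all false

namespace Vale.Agent.P214.GEN

open Vale.Agent.P214.Skel Vale.Agent.P214.EX Vale.Agent.P214.R2 Vale.Agent.P214.POSG

variable {E : Type*} [NormedAddCommGroup E] [InnerProductSpace ℝ E] [FiniteDimensional ℝ E]
  [MeasurableSpace E] [BorelSpace E]
variable {m Q : ℕ} {T : Submodule ℝ E} {G : Set E} {h : ℝ} {ν : Measure E} {P : E → E →L[ℝ] E}
  {k k' K : ℝ → ℝ}

omit [InnerProductSpace ℝ E] [FiniteDimensional ℝ E] [MeasurableSpace E] [BorelSpace E] in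
/-- three steps of a log-Lipschitz function -/
lemma LogLip.le_mul3 [NormedSpace ℝ E] {Ω : Set E} {τ : ℝ} {ρ : E → ℝ} (hl : LogLip Ω τ ρ)
    (hτ : 0 < τ) (h0 : ∀ x, 0 ≤ ρ x) {S : Set E} (hS : Convex ℝ S) (hSΩ : S ⊆ Ω) {x y : E}
    (hx : x ∈ S) (hy : y ∈ S) (hxy : dist x y ≤ 12 * τ) : ρ x ≤ 27 / 8 * ρ y := by
  have key : ∀ u v : E, u ∈ S → v ∈ S → dist u v ≤ 4 * τ → ρ u ≤ 3 / 2 * ρ v := by
    intro u v hu hv huv
    have h1 := hl u (hSΩ hu) v (hSΩ hv) huv
    have h2 : dist u v / τ ≤ 4 := by rwa [div_le_iff₀ hτ]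
    have h3 : 1 / 8 * (dist u v / τ) * ρ v ≤ 1 / 2 * ρ v := by
      refine mul_le_mul_of_nonneg_right ?_ (h0 v)
      linarith
    have h4 := le_abs_self (ρ u - ρ v)
    linarith
  set z₁ : E := (2 / 3 : ℝ) • x + (1 / 3 : ℝ) • y with hz₁
  set z₂ : E := (1 / 3 : ℝ) • x + (2 / 3 : ℝ) • y with hz₂
  have m1 : z₁ ∈ S := hS hx hy (by norm_num) (by norm_num) (by norm_num)
  have m2 : z₂ ∈ S := hS hx hy (by norm_num) (by norm_num) (by norm_num)
  have e1 : x - z₁ = (1 / 3 : ℝ) • (x - y) := by rw [hz₁]; module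
  have e2 : z₁ - z₂ = (1 / 3 : ℝ) • (x - y) := by rw [hz₁, hz₂]; module
  have e3 : z₂ - y = (1 / 3 : ℝ) • (x - y) := by rw [hz₂]; module
  have hd : ‖(1 / 3 : ℝ) • (x - y)‖ ≤ 4 * τ := by
    rw [norm_smul, Real.norm_of_nonneg (by norm_num), ← dist_eq_norm]
    linarith
  have k1 := key x z₁ hx m1 (by rw [dist_eq_norm, e1]; exact hd)
  have k2 := key z₁ z₂ m1 m2 (by rw [dist_eq_norm, e2]; exact hd)
  have k3 := key z₂ y m2 hy (by rw [dist_eq_norm, e3]; exact hd)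
  linarith

section

variable {Kl c₀ κ : ℝ} {M : ℕ} {adm : ℕ → Set E} {t₀ δ τ τ₁ : ℝ} {φ : E → ℝ} {ρ N : ℕ → E → ℝ}
  {η : E → ℝ}

/-- levels below the steep scale do not reach the steep ball -/
lemma farFrom_steep (hC : FV.CylStat m T G h ν P) (ht0 : 0 < t₀)
    (hadm : ∀ i, ∀ p ∈ adm i, ∀ s, t₀ / 2 ^ i ≤ s → s ≤ 1 / 8 → exc T ν P p s ≤ τ₁ * s ^ m)
    (hτ1 : 0 ≤ τ₁) (hτ : τ₁ * 8 ^ m < τ) {x : E} {s : ℝ} (hs : 0 < s) (hs64 : s ≤ 1 / 64)
    (hexc : τ * s ^ m ≤ exc T ν P x s) {I : ℕ} (hI : t₀ / 2 ^ I ≤ s) {z : E}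
    (hz : dist z x ≤ 5 * s) :
    FarFrom t₀ (fun i => i + 1) (Cen η (Dcen T) adm t₀ (lamA T ν) (lamB m Q T ν P) (nuB T ν P))
      I z := by
  intro i hi q hq p hp
  by_contra hcon
  push Not at hcon
  have h1 : t₀ / 2 ^ i ≤ t₀ / 2 ^ I := by
    apply div_le_div_of_nonneg_left ht0.le (by positivity)
    exact pow_le_pow_right₀ (by norm_num) hi
  have h2 : dist p x < 7 * s := by
    have := dist_triangle p z x
    linarith
  have h3 := hadm i p hp.2.1 (8 * s) (by linarith) (by linarith)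
  have h4 : exc T ν P x s ≤ exc T ν P p (8 * s) := by
    refine exc_mono hC ?_
    rw [dist_comm]; linarith
  have h5 : τ₁ * (8 * s) ^ m = τ₁ * 8 ^ m * s ^ m := by rw [mul_pow]; ring
  have h6 : τ₁ * 8 ^ m * s ^ m < τ * s ^ m := by
    have := pow_pos hs m
    gcongr
  linarith

/-- **The limit is quasi-constant around the steep points.** -/
lemma quasi_const (hC : FV.CylStat m T G h ν P) (hφ : BaseTest T 0 1 φ) (hδ : 0 < δ)
    (ht0 : 0 < t₀)
    (hT : Total η c₀ κ M (Dcen T) (closedBall (0 : E) (5 / 4)) adm t₀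
      (psiStart φ δ) (lamA T ν) (lamB m Q T ν P) (nuB T ν P) ρ N)
    (hadm : ∀ i, ∀ p ∈ adm i, ∀ s, t₀ / 2 ^ i ≤ s → s ≤ 1 / 8 → exc T ν P p s ≤ τ₁ * s ^ m)
    (hτ1 : 0 ≤ τ₁) (hτ : τ₁ * 8 ^ m < τ) {x : E} {s : ℝ} (hs : 0 < s) (hs64 : s ≤ 1 / 64)
    (hst0 : s < t₀) (hexc : τ * s ^ m ≤ exc T ν P x s) {y y' : E} (hy : dist y x ≤ 5 * s)
    (hy1 : dist y' x ≤ s) :
    rhoLim ρ y + δ ≤ 27 / 8 * (rhoLim ρ y' + δ) := by
  have hy' : dist y' x ≤ 5 * s := by linarith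
  have hψ0 := fun i x => (hT.good i).nonneg x
  by_cases hcase : ‖x‖ + 5 * s ≤ 5 / 4
  · -- the first level below `s`
    have hex : ∃ I : ℕ, t₀ / 2 ^ I ≤ s := by
      have h1 : Tendsto (fun i : ℕ => t₀ / 2 ^ i) atTop (𝓝 0) := by
        have h2 := (tendsto_pow_atTop_nhds_zero_of_lt_one (r := (1 / 2 : ℝ)) (by norm_num)
          (by norm_num)).const_mul t₀
        rw [mul_zero] at h2
        refine h2.congr fun i => ?_
        rw [div_pow, one_pow, mul_one_div]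
      obtain ⟨I, hI⟩ := ((tendsto_order.1 h1).2 s hs).exists
      exact ⟨I, hI.le⟩
    classical
    set I := Nat.find hex with hIdef
    have hI : t₀ / 2 ^ I ≤ s := Nat.find_spec hex
    have hI2 : s / 2 < t₀ / 2 ^ I := by
      rcases Nat.eq_zero_or_pos I with h0 | hpos
      · rw [h0, pow_zero, div_one]; linarith
      · have h1 := Nat.find_min hex (m := I - 1) (by omega)
        push Not at h1
        have h2 : t₀ / 2 ^ I = t₀ / 2 ^ (I - 1) / 2 := by
          rw [div_div, ← pow_succ]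
          congr 2; omega
        rw [h2]; linarith
    have hfar : ∀ z : E, dist z x ≤ 5 * s → rhoLim ρ z = ρ I z := fun z hz =>
      rhoLim_stop (farFrom_steep hC ht0 hadm hτ1 hτ hs hs64 hexc hI hz) hT.good hT.step
    rw [hfar y hy, hfar y' hy']
    have h1 : ρ I y ≤ 27 / 8 * ρ I y' := by
      refine LogLip.le_mul3 (hT.good I).loglip (by positivity) (hT.good I).nonneg
        (S := closedBall x (5 * s)) (convex_closedBall x (5 * s)) ?_ hy hy' ?_
      · refine closedBall_subset_closedBall' ?_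
        rw [dist_zero_right]; linarith
      · have := dist_triangle_right y y' x
        linarith
    linarith
  · push Not at hcase
    have hone : ∀ z : E, dist z x ≤ 5 * s → rhoLim ρ z ≤ δ / 2 := by
      intro z hz
      have h1 : 1 ≤ ‖z‖ := by
        have h2 := norm_sub_norm_le x z
        rw [← dist_eq_norm, dist_comm] at h2
        linarith
      refine (rhoLim_le_phi hT.good z).trans ?_
      unfold psiStart
      rw [hφ.supp z (by rwa [sub_zero])]
      have := eta1_le_one z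
      nlinarith
    have h1 := hone y hy
    have h2 := rhoLim_nonneg hT.good y'
    linarith

end

/-- **Positivity for the exhausted function.** -/
theorem pos_exh (E : Type*) [NormedAddCommGroup E] [InnerProductSpace ℝ E]
    [FiniteDimensional ℝ E] [MeasurableSpace E] [BorelSpace E] (m Q : ℕ) (hm : 1 ≤ m) :
    ∃ τ₀ c C : ℝ, 0 < τ₀ ∧ 0 < c ∧ 0 < C ∧ ∀ τ : ℝ, 0 < τ → τ ≤ τ₀ → ∃ ε : ℝ, 0 < ε ∧
    ∀ (T : Submodule ℝ E) (h : ℝ) (ν : Measure E) (P : E → E →L[ℝ] E),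
      IntCyl m Q T 0 2 h ε ν P → exc T ν P 0 2 ≤ ε →
      (∀ᵐ y ∂ν, T.starProjection y ∈ Gd m T ν P 0 2 τ → FV.tilt T (P y) ≤ C * τ) ∧
      ∀ (η φ : E → ℝ) (c₀ κ δ t₀ τ₁ : ℝ) (M : ℕ) (adm : ℕ → Set E) (ρ N : ℕ → E → ℝ),
      BaseTest T 0 1 φ → 0 < δ → δ ≤ 1 → 0 < t₀ →
      Total η c₀ κ M (Dcen T) (closedBall (0 : E) (5 / 4)) adm t₀
        (psiStart φ δ) (lamA T ν) (lamB m Q T ν P) (nuB T ν P) ρ N →
      (∀ i, ∀ p ∈ adm i, ∀ s, t₀ / 2 ^ i ≤ s → s ≤ 1 / 8 → exc T ν P p s ≤ τ₁ * s ^ m) →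
      0 ≤ τ₁ → τ₁ * 8 ^ m < τ → exc T ν P 0 2 < τ * t₀ ^ m →
      ENNReal.ofReal (Ffl m Q T ν P (rhoLim ρ)) ≤
        ENNReal.ofReal (1 / 2 * ∫ y in T.starProjection ⁻¹' Gd m T ν P 0 2 τ,
          rhoLim ρ (T.starProjection y) * FV.tilt T (P y) ^ 2 ∂ν) +
        ENNReal.ofReal (C / τ) * ∫⁻ y in cylSet T 0 2, gcut (c * τ) (FV.tilt T (P y)) *
          (Stn m T ν P 0 2 τ).indicator (fun x => ENNReal.ofReal (rhoLim ρ x))
            (T.starProjection y) ∂ν +
        ENNReal.ofReal (C / τ * (δ * exc T ν P 0 2)) := by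
  obtain ⟨τ₀, c, C, hτ₀, hc, hC0, H⟩ := pos_pt E m Q hm
  refine ⟨τ₀, c, C * (27 / 8), hτ₀, hc, by positivity, fun τ hτ hττ => ?_⟩
  obtain ⟨ε, hε, Hε⟩ := H τ hτ hττ
  refine ⟨ε, hε, fun T h ν P hI hexc => ?_⟩
  obtain ⟨H1, H2⟩ := Hε T h ν P hI hexc
  refine ⟨?_, ?_⟩
  · filter_upwards [H1] with y hy hyg
    refine (hy hyg).trans ?_
    have : 0 ≤ C * τ := by positivity
    nlinarith
  intro η φ c₀ κ δ t₀ τ₁ M adm ρ N hφ hδ hδ1 ht0 hT hadm hτ1 hτ8 het
  have hC := hI.cyl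
  haveI := hC.fin
  have hψ1 := fun x => psiStart_le_one (x := x) hφ hδ hδ1
  have hquasi : ∀ x s, Steep m T ν P 0 2 τ x s → ‖x‖ ≤ 3 / 2 → ∀ y y', ‖y - x‖ ≤ 5 * s →
      ‖y' - x‖ ≤ s → (fun z => rhoLim ρ z + δ) y ≤ 27 / 8 * (fun z => rhoLim ρ z + δ) y' := by
    intro x s hst hx y y' hy hy'
    have hs := hst.pos
    have hs64 : s ≤ 1 / 64 := by have := hst.le; linarith
    have hlt : s < t₀ := by
      by_contra hcon
      push Not at hcon
      have h1 : τ * t₀ ^ m ≤ τ * s ^ m := by gcongr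
      have h2 : exc T ν P x s ≤ exc T ν P 0 2 := by
        refine exc_mono hC ?_
        rw [dist_zero_right]; linarith
      rw [hst.eq] at h2
      linarith
    refine quasi_const hC hφ hδ ht0 hT hadm hτ1 hτ8 hs hs64 hlt hst.eq.ge ?_ ?_
    · rwa [dist_eq_norm]
    · rwa [dist_eq_norm]
  have h1 := H2 (rhoLim ρ) (fun z => rhoLim ρ z + δ) (3 / 2) (27 / 8) 1
    (measurable_rhoLim hT.good hT.step) (fun x => rhoLim_nonneg hT.good x)
    (fun x => (rhoLim_le_phi hT.good x).trans (hψ1 x)) (fun x => by linarith) le_rfl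
    (fun x hx => le_antisymm ((rhoLim_le_phi hT.good x).trans
      (psiStart_zero hφ hx).le) (rhoLim_nonneg hT.good x)) hquasi (by norm_num)
  refine h1.trans ?_
  rw [add_assoc]
  refine add_le_add le_rfl ?_
  -- splitting of the collar term
  have e1 : ∀ y, gcut (c * τ) (FV.tilt T (P y)) *
      (Stn m T ν P 0 2 τ).indicator (fun x => ENNReal.ofReal (rhoLim ρ x + δ))
        (T.starProjection y) ≤
      gcut (c * τ) (FV.tilt T (P y)) * (Stn m T ν P 0 2 τ).indicator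
        (fun x => ENNReal.ofReal (rhoLim ρ x)) (T.starProjection y) +
      ENNReal.ofReal δ * ENNReal.ofReal (FV.tilt T (P y)) := by
    intro y
    have h2 : gcut (c * τ) (FV.tilt T (P y)) ≤ ENNReal.ofReal (FV.tilt T (P y)) := by
      unfold gcut
      split_ifs
      · exact le_rfl
      · exact zero_le
    by_cases hy : T.starProjection y ∈ Stn m T ν P 0 2 τ
    · rw [indicator_of_mem hy, indicator_of_mem hy,
        ENNReal.ofReal_add (rhoLim_nonneg hT.good _) hδ.le, mul_add]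
      refine add_le_add le_rfl ?_
      rw [mul_comm (ENNReal.ofReal δ)]
      gcongr
    · rw [indicator_of_notMem hy, mul_zero]
      exact zero_le
  have e2 : ∫⁻ y in cylSet T 0 2, gcut (c * τ) (FV.tilt T (P y)) *
      (Stn m T ν P 0 2 τ).indicator (fun x => ENNReal.ofReal (rhoLim ρ x + δ))
        (T.starProjection y) ∂ν ≤
      ∫⁻ y in cylSet T 0 2, gcut (c * τ) (FV.tilt T (P y)) * (Stn m T ν P 0 2 τ).indicator
        (fun x => ENNReal.ofReal (rhoLim ρ x)) (T.starProjection y) ∂ν +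
      ENNReal.ofReal (δ * exc T ν P 0 2) := by
    refine (lintegral_mono e1).trans (le_of_eq ?_)
    rw [lintegral_add_right' _ ((aemeas_tilt' hC).restrict.const_mul _)]
    congr 1
    rw [lintegral_const_mul'' _ (aemeas_tilt' hC).restrict]
    unfold exc
    rw [ENNReal.ofReal_mul hδ.le, ofReal_integral_eq_lintegral_ofReal
      (integrable_tilt' hC).integrableOn (ae_restrict_of_ae (tilt_nonneg_ae hC))]
  calc ENNReal.ofReal (C * (27 / 8) / τ) * _
      ≤ ENNReal.ofReal (C * (27 / 8) / τ) * (_ + _) := mul_le_mul' le_rfl e2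
    _ = _ := by
        rw [mul_add, ← ENNReal.ofReal_mul (by positivity)]

section alt

variable {η : E → ℝ} {Kη c₀ κ : ℝ} {M : ℕ} {D Ω : Set E} {adm : ℕ → Set E} {t₀ : ℝ} {φ : E → ℝ}
  {lam₁ lam₂ μ : Measure E} {ρ N : ℕ → E → ℝ}

/-- **The alternative at a point, for the limit**, without positivity of the measure. -/
theorem alternative_lim [IsFiniteMeasure lam₁] [IsFiniteMeasure lam₂] [IsFiniteMeasure μ]
    (h : Total η c₀ κ M D Ω adm t₀ φ lam₁ lam₂ μ ρ N) (hη : IsKernel η Kη c₀) (ht : 0 < t₀)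
    (hκ0 : 0 < κ) (hκ1 : κ ≤ 1) {x : E} (hx : x ∈ D) {B : ℝ} (hB : 8 ≤ c₀ / 4 * κ * B) :
    (c₀ / 4 * κ * B) ^ 2 / 64 * rhoLim ρ x ≤ negLim N x ∨
      ∀ J : ℕ, (∀ i < J, x ∈ adm i) →
        ∫ r in (2 * (t₀ / 2 ^ J))..(2 * t₀), Xneg η lam₁ lam₂ μ x r / r
          ≤ Real.log 2 * (16 * B + 2) := by
  by_cases hcase : ∀ J : ℕ, (∀ i < J, x ∈ adm i) →
      ∫ r in (2 * (t₀ / 2 ^ J))..(2 * t₀), Xneg η lam₁ lam₂ μ x r / r
        ≤ Real.log 2 * (16 * B + 2)
  · exact Or.inr hcase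
  · left
    push Not at hcase
    obtain ⟨J, hadm, hJ⟩ := hcase
    have h1 := (h.alternative_fin hη ht hκ0 hκ1 hx hadm hB).resolve_right (not_le.2 hJ)
    have h2 := rhoLim_le h.good x J
    have h3 := sum_N_le_negLim wt_le_one h.good h.step x (Finset.range J)
    refine le_trans ?_ (h1.trans h3)
    exact mul_le_mul_of_nonneg_left h2 (by positivity)

end alt

end Vale.Agent.P214.GEN
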