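import Vale.Agent.P214.GEN.Alt
import Vale.Agent.P214.GEN.Charge
import Vale.Agent.P214.GEN.TopCls
import Vale.Agent.P214.GEN.Class
import Vale.Agent.P214.POSG.Box

/-!
# P214, general rate: the assembly

`BoxPath E m Q → RateUnit E m Q → RateFlat E m Q`.
-/

open Set Filter Topology MeasureTheory Metric
open scoped RealInnerProductSpace ENNReal

set_option linter.all false

namespace Vale.Agent.P214.GEN

open Vale.Agent.P214.Skel Vale.Agent.P214.EX Vale.Agent.P214.R2 Vale.Agent.P214.NGP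

variable {E : Type*} [NormedAddCommGroup E] [InnerProductSpace ℝ E] [FiniteDimensional ℝ E]
  [MeasurableSpace E] [BorelSpace E]
variable {m Q : ℕ} {T : Submodule ℝ E} {G : Set E} {h : ℝ} {ν : Measure E} {P : E → E →L[ℝ] E}

/-- the fluctuation of the test function from the fluctuation of the start function -/
lemma ffl_start (hC : FV.CylStat m T G h ν P) {φ : E → ℝ} (hφ : BaseTest T 0 1 φ) (δ : ℝ) :
    Ffl m Q T ν P φ = 2 * Ffl m Q T ν P (psiStart φ δ) - δ * Ffl m Q T ν P eta1 := by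
  have hφc := BaseTest.continuous one_pos hφ
  have hφb : ∀ x, |φ x| ≤ 1 := fun x => by
    rw [abs_of_nonneg (hφ.nonneg x)]; exact hφ.le_one x
  have hηb : ∀ x : E, |eta1 x| ≤ 1 := fun x => by
    rw [abs_of_nonneg (eta1_nonneg x)]; exact eta1_le_one x
  have i1 := integrable_fl hC hφc hφb
  have i2 := integrable_fl hC (continuous_eta1 (E := E)) hηb
  have j1 := integrableOn_plane (z := (0 : E)) (R := 1) hC.dimT hφc hφb
    (fun x hx => hφ.supp x (by rw [← dist_eq_norm]; exact hx))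
  have j2 := integrableOn_plane (z := (0 : E)) (R := 3 / 2) hC.dimT (continuous_eta1 (E := E)) hηb
    (fun x hx => eta1_eq_zero (by rw [← dist_zero_right]; exact hx))
  have e1 : ∫ y, psiStart φ δ (T.starProjection y) * (1 - FV.tilt T (P y) / 2) ∂ν
      = 1 / 2 * (∫ y, φ (T.starProjection y) * (1 - FV.tilt T (P y) / 2) ∂ν
        + δ * ∫ y, eta1 (T.starProjection y) * (1 - FV.tilt T (P y) / 2) ∂ν) := by
    rw [← integral_const_mul, ← integral_add i1 (i2.const_mul δ), ← integral_const_mul]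
    refine integral_congr_ae (Eventually.of_forall fun y => ?_)
    show (φ (T.starProjection y) + δ * eta1 (T.starProjection y)) / 2 *
      (1 - FV.tilt T (P y) / 2) = _
    ring
  have e2 : ∫ x in (T : Set E), psiStart φ δ x ∂(μH[m] : Measure E)
      = 1 / 2 * (∫ x in (T : Set E), φ x ∂(μH[m] : Measure E)
        + δ * ∫ x in (T : Set E), eta1 x ∂(μH[m] : Measure E)) := by
    rw [← integral_const_mul, ← integral_add j1 (j2.const_mul δ), ← integral_const_mul]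
    refine integral_congr_ae (Eventually.of_forall fun y => ?_)
    show (φ y + δ * eta1 y) / 2 = _
    ring
  unfold Ffl
  rw [e1, e2]
  ring

lemma classEst_mono {C9 Cc Ca k₀ k₁ : ℕ} {c C : ℝ} (h : ClassEst m Q T ν P C9 Cc Ca k₀ c C)
    (hk : k₀ ≤ k₁) : ClassEst m Q T ν P C9 Cc Ca k₁ c C :=
  fun T₁ k l S h1 h2 h3 h4 p hp => h T₁ k l S h1 h2 (hk.trans h3) h4 p hp

/-- the choice of the threshold -/
lemma exists_k₀ (E : Type*) [NormedAddCommGroup E] [NormedSpace ℝ E] (c A' : ℝ) (Cd kc : ℕ)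
    (hA' : 0 ≤ A') : ∃ k₀ : ℕ, 1 ≤ k₀ ∧ kc ≤ k₀ ∧
      COMP.cst E c * ENNReal.ofReal (4 * A' * Cd ^ 4 * (Cd + 4 : ℕ) ^ 2 * (2 / k₀)) ≤
        ENNReal.ofReal (1 / 2) := by
  set X : ℝ := |(2 * (2 / c) + 1) ^ Module.finrank ℝ E| * 2 *
    (4 * A' * Cd ^ 4 * (Cd + 4 : ℕ) ^ 2 * 2) with hX
  have hX0 : 0 ≤ X := by positivity
  refine ⟨max (max 1 kc) ⌈2 * X⌉₊, le_trans (le_max_left _ _) (le_max_left _ _),
    le_trans (le_max_right _ _) (le_max_left _ _), ?_⟩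
  set k₀ : ℕ := max (max 1 kc) ⌈2 * X⌉₊ with hk
  have hk1 : (1 : ℝ) ≤ k₀ := by
    exact_mod_cast le_trans (le_max_left 1 kc) (le_max_left _ _)
  have hk2 : 2 * X ≤ k₀ := (Nat.le_ceil _).trans (by exact_mod_cast le_max_right _ _)
  have hk0 : (0 : ℝ) < k₀ := by linarith
  calc COMP.cst E c * ENNReal.ofReal (4 * A' * Cd ^ 4 * (Cd + 4 : ℕ) ^ 2 * (2 / k₀))
      ≤ ENNReal.ofReal (|(2 * (2 / c) + 1) ^ Module.finrank ℝ E|) * 2 *
        ENNReal.ofReal (4 * A' * Cd ^ 4 * (Cd + 4 : ℕ) ^ 2 * (2 / k₀)) := by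
        unfold COMP.cst
        gcongr
        exact le_abs_self _
    _ = ENNReal.ofReal (X / k₀) := by
        rw [← ENNReal.ofReal_ofNat 2, ← ENNReal.ofReal_mul (by positivity),
          ← ENNReal.ofReal_mul (by positivity)]
        congr 1
        rw [hX]
        ring
    _ ≤ _ := by
        apply ENNReal.ofReal_le_ofReal
        rw [div_le_iff₀ hk0]
        linarith

/-- a half of a number at least one is below its floor -/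
lemma half_le_floor {x : ℝ} (hx : 1 ≤ x) : x / 2 ≤ (⌊x⌋₊ : ℝ) := by
  have h1 : (1 : ℝ) ≤ ⌊x⌋₊ := by exact_mod_cast Nat.le_floor (by simpa using hx)
  have h2 := Nat.lt_floor_add_one x
  linarith

/-- the final arithmetic of the assembly -/
lemma asm_num {A n C9 Cc : ℕ} {Cp cd cc Ccl Ct Ce L L₀ δ t₀ e x F F₁ Fη mm : ℝ} (hL : 1 ≤ L)
    (hL₀ : L / 4 ≤ L₀) (h9 : A ≤ C9) (hc : A * n + A + 2 ≤ Cc) (hCp : 0 < Cp) (hcd : 0 < cd)
    (hcc : 0 < cc) (hCcl : 0 < Ccl) (hCt : 0 < Ct) (hCe : 0 < Ce) (he : 0 < e) (hx : x ≤ e)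
    (hmm : 0 ≤ mm) (hδ : δ = (2 * L ^ A)⁻¹) (ht : t₀ = δ / 16) (hF : F = 2 * F₁ - δ * Fη)
    (hη : |Fη| ≤ Ce * x)
    (hmain : F₁ ≤ Cp * δ * x + (Cp / cd * (L₀ ^ C9)⁻¹ +
      4 * (Cp * mm * (3 / cc) ^ n * (Ccl * Ct)) * (t₀⁻¹) ^ n * (L₀ ^ (Cc - 2))⁻¹) * e) :
    F ≤ (2 * (Cp + (Cp / cd * 4 ^ C9 + 4 * (Cp * mm * (3 / cc) ^ n * (Ccl * Ct)) *
      (32 ^ n * 4 ^ (Cc - 2)))) + Ce) * (L ^ A)⁻¹ * e := by
  have hLpos : 0 < L := by linarith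
  have hLA : 1 ≤ L ^ A := one_le_pow₀ hL
  have hδ0 : 0 < δ := by rw [hδ]; positivity
  have hδ3 : δ ≤ (L ^ A)⁻¹ := by
    rw [hδ]
    gcongr
    linarith
  obtain ⟨hn1, hn2⟩ := final_num (A := A) (C9 := C9) (Cc := Cc) (n := n) h9 hc hL hL₀
  rw [← hδ, ← ht] at hn2
  have hT1 : Cp / cd * (L₀ ^ C9)⁻¹ ≤ Cp / cd * 4 ^ C9 * (L ^ A)⁻¹ := by
    rw [mul_assoc]
    gcongr
  have hT2 : 4 * (Cp * mm * (3 / cc) ^ n * (Ccl * Ct)) * (t₀⁻¹) ^ n * (L₀ ^ (Cc - 2))⁻¹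
      ≤ 4 * (Cp * mm * (3 / cc) ^ n * (Ccl * Ct)) * (32 ^ n * 4 ^ (Cc - 2)) * (L ^ A)⁻¹ := by
    rw [mul_assoc (4 * (Cp * mm * (3 / cc) ^ n * (Ccl * Ct))),
      mul_assoc (4 * (Cp * mm * (3 / cc) ^ n * (Ccl * Ct)))]
    exact mul_le_mul_of_nonneg_left hn2 (by positivity)
  have he1 : -(δ * Fη) ≤ δ * (Ce * e) := by
    have h1 : -Fη ≤ Ce * e := (neg_le_abs _).trans (hη.trans (by gcongr))
    nlinarith
  have he2 : Cp * δ * x ≤ Cp * (L ^ A)⁻¹ * e := by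
    calc Cp * δ * x ≤ Cp * δ * e := by gcongr
      _ ≤ _ := by gcongr
  have he3 : δ * (Ce * e) ≤ (L ^ A)⁻¹ * (Ce * e) := by gcongr
  have he4 : (Cp / cd * (L₀ ^ C9)⁻¹ +
      4 * (Cp * mm * (3 / cc) ^ n * (Ccl * Ct)) * (t₀⁻¹) ^ n * (L₀ ^ (Cc - 2))⁻¹) * e
      ≤ (Cp / cd * 4 ^ C9 * (L ^ A)⁻¹ + 4 * (Cp * mm * (3 / cc) ^ n * (Ccl * Ct)) *
        (32 ^ n * 4 ^ (Cc - 2)) * (L ^ A)⁻¹) * e :=
    mul_le_mul_of_nonneg_right (add_le_add hT1 hT2) he.le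
  rw [hF]
  calc 2 * F₁ - δ * Fη
      ≤ 2 * (Cp * (L ^ A)⁻¹ * e + (Cp / cd * 4 ^ C9 * (L ^ A)⁻¹ +
        4 * (Cp * mm * (3 / cc) ^ n * (Ccl * Ct)) * (32 ^ n * 4 ^ (Cc - 2)) * (L ^ A)⁻¹) * e)
        + (L ^ A)⁻¹ * (Ce * e) := by linarith
    _ = _ := by ring

/-- the assembly for one varifold -/
lemma asm_pt (hC : FV.CylStat m T G h ν P) {A C9 Cc Ca Cd k₀ : ℕ}
    {Cp cd cc Ccl Ct Ce A' e L δ t₀ c₀ κ η₁ : ℝ} {M : ℕ} {φ : E → ℝ} {ρ N : ℕ → E → ℝ}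
    (hL1 : 1 ≤ L) (hLk : (k₀ : ℝ) ≤ L / 2) (h9 : A + 11 ≤ C9)
    (hc : A * Module.finrank ℝ E + A + 13 ≤ Cc) (hCp : 0 < Cp) (hcd : 0 < cd) (hcd1 : cd ≤ 1)
    (hcc : 0 < cc) (hcc1 : cc ≤ 1) (hCcl : 0 < Ccl) (hCt : 0 < Ct) (hCe : 0 < Ce) (he : 0 < e)
    (hexc : exc T ν P 0 2 ≤ e) (hδ : δ = (2 * L ^ A)⁻¹) (ht : t₀ = δ / 16) (hCd : 1 ≤ Cd)
    (hk₀ : 1 ≤ k₀) (hφ : BaseTest T 0 1 φ)
    (hTot : Tot m Q T ν P c₀ κ M η₁ t₀ δ φ ρ N)
    (hA1 : 2 * Cp / cd ≤ A') (hA2 : Cp * m * Ccl ≤ A')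
    (hk₀A : COMP.cst E (min cc (1 / 2)) *
      ENNReal.ofReal (4 * A' * Cd ^ 4 * (Cd + 4 : ℕ) ^ 2 * (2 / k₀)) ≤ ENNReal.ofReal (1 / 2))
    (hcl : ClassEst m Q T ν P C9 Cc Ca k₀ cc Ccl)
    (htop : ∀ x ∈ T, ‖x‖ ≤ 1 → t₀ ^ ((m : ℤ) - 2) * AA m Q T ν P x t₀ ≤ Ct * e)
    (hLt : Ct * e ≤ Real.exp (-(L / 2)) * t₀ ^ m)
    (heta : |Ffl m Q T ν P eta1| ≤ Ce * exc T ν P 0 2)
    (halt : ∀ᵐ y ∂ν, ‖T.starProjection y‖ < 1 → 0 < FV.tilt T (P y) →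
      Cp * FV.tilt T (P y) * rhoLim ρ (T.starProjection y)
        ≤ 1 / 2 * negLim N (T.starProjection y) ∨
      AltPt m Q T ν P t₀ ρ N Cd C9 Ca k₀ cd y)
    (hpos : ENNReal.ofReal (Ffl m Q T ν P (rhoLim ρ)) ≤
      ENNReal.ofReal (Cp * δ * exc T ν P 0 2) +
      ∫⁻ y in {y | T.starProjection y ∈ ball (0 : E) 1}, ENNReal.ofReal (Cp * FV.tilt T (P y) ^ 2) *
        ENNReal.ofReal (rhoLim ρ (T.starProjection y)) ∂ν) :
    Ffl m Q T ν P φ ≤ (2 * (Cp + (Cp / cd * 4 ^ C9 + 4 * (Cp * m * (3 / cc) ^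
      (Module.finrank ℝ E) * (Ccl * Ct)) * (32 ^ (Module.finrank ℝ E) * 4 ^ (Cc - 2)))) + Ce) *
        (L ^ A)⁻¹ * e := by
  haveI := hC.fin
  have hLpos : 0 < L := by linarith
  have hLA : 1 ≤ L ^ A := one_le_pow₀ hL1
  have hδ0 : 0 < δ := by rw [hδ]; positivity
  have hδ2 : δ ≤ 1 / 2 := by
    rw [hδ, inv_le_comm₀ (by positivity) (by norm_num)]
    linarith
  have ht₀0 : 0 < t₀ := by rw [ht]; positivity
  have ht₀32 : t₀ ≤ 1 / 32 := by linarith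
  have hexc0 := exc_nonneg hC (P := P) (0 : E) 2
  set L₀ : ℕ := ⌊L / 2⌋₊ with hL₀
  have hk₀L : k₀ ≤ L₀ := Nat.le_floor hLk
  have hk₀1 : (1 : ℝ) ≤ k₀ := by exact_mod_cast hk₀
  have hL₀4 : L / 4 ≤ L₀ := by
    have := half_le_floor (x := L / 2) (by linarith)
    linarith
  have hfle : ∀ x, rhoLim ρ x ≤ 1 := fun x =>
    (rhoLim_le_phi hTot.good x).trans (psiStart_le_one hφ hδ0 (by linarith) x)
  have hY : ∀ y ∈ TopSet m Q T ν P t₀ C9 Ca k₀ cd, T.starProjection y ∈ ball (0 : E) 1 ∧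
      0 < AA m Q T ν P (T.starProjection y) t₀ ∧
      (L₀ : ℝ) ≤ vv m Q T ν P (T.starProjection y) t₀ ∧
      (cd * FV.tilt T (P y) ≤ (vv m Q T ν P (T.starProjection y) t₀ ^ C9)⁻¹ ∨
        ∃ ra, Coll m Q T ν P Ca (T.starProjection y) t₀ ra) := by
    intro y hy
    obtain ⟨h1, h2, h3⟩ := hy
    have hA0 : 0 < AA m Q T ν P (T.starProjection y) t₀ :=
      AA_pos_of_vv hC ht₀0 (hk₀1.trans h2)
    refine ⟨by rwa [mem_ball_zero_iff], hA0, ?_, h3⟩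
    exact (Nat.floor_le (by positivity)).trans (le_vv_top ht₀0 hA0
      (htop _ (Submodule.starProjection_apply_mem _ _) h1.le) hLt)
  have htopS := top_cls (Q := Q) hC ht₀0 (by linarith) hcd hcd1 hcc hcc1 hCp.le hCcl.le hCt.le
    he.le (hk₀.trans hk₀L) hk₀L (by omega) hcl htop hexc hfle hY
  have hmain := charge hC hφ hδ0 (by linarith) ht₀0 (by linarith) hTot (A' := A') hcd hcd1 hcc
    hCp.le hCcl.le hCd hk₀ (by omega) (by omega) hcl hA1 hA2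
    hk₀A halt (εA := Cp * δ * exc T ν P 0 2) (by positivity) (by positivity) hpos htopS
  exact asm_num hL1 hL₀4 (by omega) (by omega) hCp hcd hcc hCcl hCt hCe he hexc
    (Nat.cast_nonneg m) hδ ht (ffl_start hC hφ δ) heta hmain

/-- **The rate at unit scale from the path box.** -/
theorem rateUnit_of_path (hm : 1 ≤ m) (hPath : BoxPath E m Q) : RateUnit E m Q := by
  intro A
  -- the exhaustion
  obtain ⟨Kl, c₀, κ, M, hη, hM, hκ0, hκ1, hMκ, HX⟩ :=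
    exists_total_cyl (E := E) kernW win_quarter_pos
  have hc₀ : 0 < c₀ := hη.pos
  -- the admissibility parameter
  obtain ⟨η₀p, hη₀p, HP⟩ := hPath Kl c₀ κ M hη hM hκ0 hκ1 hMκ
  obtain ⟨η₀q, hη₀q, HQ⟩ := POSG.boxPos E m Q hm
  have hη₁ : 0 < min η₀p η₀q := lt_min hη₀p hη₀q
  obtain ⟨Cp, εp, hCp, hεp, HQ⟩ := HQ _ hη₁ (min_le_right _ _)
  -- the budget
  have hck : 0 < c₀ / 4 * κ := by positivity
  have hKn : 0 ≤ 4 * Cp * Module.finrank ℝ E := by positivity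
  obtain ⟨B₀, hB₀⟩ : ∃ B₀ : ℝ,
      c₀ / 4 * κ * B₀ = 8 + 16 * (1 + 4 * Cp * Module.finrank ℝ E) :=
    ⟨(8 + 16 * (1 + 4 * Cp * Module.finrank ℝ E)) / (c₀ / 4 * κ), by field_simp⟩
  have hB₀0 : 0 < B₀ := by
    by_contra hcon
    push Not at hcon
    have := mul_nonpos_of_nonneg_of_nonpos hck.le hcon
    linarith
  have hB8 : 8 ≤ c₀ / 4 * κ * B₀ := by linarith
  have hKb : 4 * Cp * Module.finrank ℝ E ≤ (c₀ / 4 * κ * B₀) ^ 2 / 64 := by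
    rw [hB₀]
    nlinarith
  have hlog2 : 0 < Real.log 2 := Real.log_pos (by norm_num)
  have hB : 0 < Real.log 2 * (16 * B₀ + 2) := by positivity
  -- the other boxes
  obtain ⟨cd, εd, hcd, hcd1, hεd, HD⟩ := boxDen (E := E) m Q
  obtain ⟨Ca, kc, cc, Ccl, εc, hcc, hcc1, hCcl, hεc, HC⟩ :=
    boxClass (E := E) m Q (A + 11) (A * Module.finrank ℝ E + A + 13)
  obtain ⟨Cd, hCd, HP⟩ := HP _ hη₁ (min_le_left _ _) _ (A + 11) Ca hB
  have hA'0 : 0 ≤ max (2 * Cp / cd) (Cp * m * Ccl) := le_trans (by positivity) (le_max_left _ _)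
  obtain ⟨k₀, hk₀, hkc, hk₀A⟩ := exists_k₀ E (min cc (1 / 2)) _ Cd kc hA'0
  obtain ⟨εb, hεb, HP⟩ := HP k₀
  obtain ⟨Ct, εt, hCt, hεt, HT⟩ := top_AA E m Q hm
  obtain ⟨Ce, εe, hCe, hεe, HE⟩ := ffl_eta1 E m Q hm
  -- the smallness
  obtain ⟨ε₁, hε₁0, hle_p, hle_b, hle_d, hle_c, hle_t, hle_e⟩ : ∃ ε₁ : ℝ, 0 < ε₁ ∧ ε₁ ≤ εp ∧
      ε₁ ≤ εb ∧ ε₁ ≤ εd ∧ ε₁ ≤ εc ∧ ε₁ ≤ εt ∧ ε₁ ≤ εe :=
    ⟨min (min (min εp εb) (min εd εc)) (min εt εe), by positivity,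
      (min_le_left _ _).trans ((min_le_left _ _).trans (min_le_left _ _)),
      (min_le_left _ _).trans ((min_le_left _ _).trans (min_le_right _ _)),
      (min_le_left _ _).trans ((min_le_right _ _).trans (min_le_left _ _)),
      (min_le_left _ _).trans ((min_le_right _ _).trans (min_le_right _ _)),
      (min_le_right _ _).trans (min_le_left _ _), (min_le_right _ _).trans (min_le_right _ _)⟩
  obtain ⟨ε₂, hε₂, hε₂1, H₂⟩ := exists_eps_of_eventually (ev_params A m hCt hε₁0 (k₀ : ℝ))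
  refine ⟨2 * (Cp + (Cp / cd * 4 ^ (A + 11) + 4 * (Cp * m * (3 / cc) ^
      (Module.finrank ℝ E) * (Ccl * Ct)) * (32 ^ (Module.finrank ℝ E) *
        4 ^ (A * Module.finrank ℝ E + A + 13 - 2)))) + Ce, min ε₁ ε₂, by positivity,
    lt_min hε₁0 hε₂, ?_⟩
  intro e T h ν P φ hI he hee hexc hφ
  have hC := hI.cyl
  haveI := hC.fin
  have hI₁ : IntCyl m Q T 0 2 h ε₁ ν P := intCyl_mono_delta hI (min_le_left _ _)
  have hexc₁ : exc T ν P 0 2 ≤ ε₁ := hexc.trans (hee.trans (min_le_left _ _))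
  obtain ⟨hL1, hLk, hLe, hLt⟩ := H₂ e he (hee.trans (min_le_right _ _))
  have hexp : Real.exp (-Real.log e⁻¹) = e := by
    rw [Real.log_inv, neg_neg, Real.exp_log he]
  rw [hexp] at hLe hLt
  generalize Real.log e⁻¹ = L at hL1 hLk hLe hLt ⊢
  have hLpos : 0 < L := by linarith
  have hLA : 1 ≤ L ^ A := one_le_pow₀ hL1
  obtain ⟨δ, hδ⟩ : ∃ δ : ℝ, δ = (2 * L ^ A)⁻¹ := ⟨_, rfl⟩
  obtain ⟨t₀, ht₀⟩ : ∃ t₀ : ℝ, t₀ = δ / 16 := ⟨_, rfl⟩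
  rw [← hδ, ← ht₀] at hLe hLt
  have hδ0 : 0 < δ := by rw [hδ]; positivity
  have hδ2 : δ ≤ 1 / 2 := by
    rw [hδ, inv_le_comm₀ (by positivity) (by norm_num)]
    linarith
  have ht₀0 : 0 < t₀ := by rw [ht₀]; positivity
  have ht₀32 : t₀ ≤ 1 / 32 := by linarith
  have htδ : t₀ ≤ δ / 8 := by linarith
  have hsm : exc T ν P 0 2 ≤ ε₁ * t₀ ^ m := hexc.trans hLe
  have hlt : ∀ ε', ε₁ ≤ ε' → exc T ν P 0 2 ≤ ε' * t₀ ^ m := fun ε' h' => by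
    refine hsm.trans ?_
    gcongr
  -- the exhaustion
  obtain ⟨ρ, N, hT⟩ := HX m Q T _ h ν P φ δ t₀ (adm m T ν P (min η₀p η₀q) t₀) hC hφ hδ0 hδ2
    ht₀0 htδ
  have hTot : Tot m Q T ν P c₀ κ M (min η₀p η₀q) t₀ δ φ ρ N := hT
  -- the boxes
  have hpos := HQ c₀ κ M T h ν P φ δ t₀ ρ N (intCyl_mono_delta hI₁ hle_p) hφ hδ0 hδ2 ht₀0 htδ
    (hlt _ hle_p) hTot
  have hden := HD T h ν P (intCyl_mono_delta hI₁ hle_d) (hexc₁.trans hle_d)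
  have hcl : ClassEst m Q T ν P (A + 11) (A * Module.finrank ℝ E + A + 13) Ca k₀ cc Ccl :=
    classEst_mono (HC T h ν P (intCyl_mono_delta hI₁ hle_c) (hexc₁.trans hle_c)) hkc
  have htop := HT T h ν P (intCyl_mono_delta hI₁ hle_t) e t₀ ht₀0 ht₀32 hexc
    (hLe.trans (by gcongr))
  have heta := HE T h ν P (intCyl_mono_delta hI₁ hle_e) (hexc₁.trans hle_e)
  -- the alternative
  have halt : ∀ᵐ y ∂ν, ‖T.starProjection y‖ < 1 → 0 < FV.tilt T (P y) →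
      Cp * FV.tilt T (P y) * rhoLim ρ (T.starProjection y)
        ≤ 1 / 2 * negLim N (T.starProjection y) ∨
      AltPt m Q T ν P t₀ ρ N Cd (A + 11) Ca k₀ cd y := by
    filter_upwards [alt_point hC hη hκ0 hκ1 ht₀0 hTot hCp.le hB8 hKb, hden] with y hy hd hyn hyt
    have hyb : T.starProjection y ∈ ball (0 : E) 1 := by rwa [mem_ball_zero_iff]
    rcases hy hyb with h1 | h1
    · exact Or.inl h1
    · exact Or.inr (HP T h ν P φ δ t₀ ρ N (intCyl_mono_delta hI₁ hle_b) hφ hδ0 hδ2 ht₀0 htδ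
        (hlt _ hle_b) hTot _ (Submodule.starProjection_apply_mem _ _) hyn.le
        (cd * FV.tilt T (P y)) (by positivity) (hd hyb) h1)
  exact asm_pt hC hL1 hLk le_rfl le_rfl hCp hcd hcd1 hcc hcc1 hCcl hCt hCe he hexc hδ ht₀ hCd
    hk₀ hφ hTot (le_max_left _ _) (le_max_right _ _) hk₀A hcl htop hLt heta halt hpos

/-- **The flat rate from the path box.** -/
theorem rateFlat_of_path (hm : 1 ≤ m) (hPath : BoxPath E m Q) : RateFlat E m Q :=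
  rateFlat_of_rateUnit (rateUnit_of_path hm hPath)

end Vale.Agent.P214.GEN
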