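import Vale.Agent.P214.GEN.ExhG
import Vale.Agent.P214.COMP.Window
import Vale.Agent.P214.TH.Bump

/-!
# P214, general rate: the interface of the assembly (all `m`, all `Q`)

Unit scale: base ball `ball 0 2`.  Pointwise form: positivity `C * tilt y ^ 2`, classes of points
`y` of the varifold, all levels `i : ℕ` of the exhaustion, `T_i = t₀ / 2 ^ i`, kernel profile
`TH.win`.

* `AA x t = max (a x t) (g x t / 2)`, `vv x t = log (t ^ 2 / AA x t)`;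
* `adm η₁ t₀ i`: admissible centres of level `i`: excess at most `η₁ s ^ m` for `T_i ≤ s ≤ 1/8`;
* `Ev`: the gap set of the window `[i, i + Cd k)`, `k = ⌊vv x T_i⌋₊`, carries the energy
  `k⁻³ T_i ^ (m-2) AA x T_i` in `closedBall x (2 T_i)`;
* `Coll`: collapse: there is a scale `ra`, `AA x T₁ ≤ ra ^ 2`, below which `AA x` is at most
  `v ^ (-Ca) * AA x T₁` (down to `r ^ 2 = v ^ (-Ca) * AA x T₁`).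

Boxes: `BoxPos`, `BoxDen`, `BoxPath`, `BoxClass`.  Output: `RateUnit`, hence `RateFlat`.
-/

open Set Filter Topology MeasureTheory Metric
open scoped RealInnerProductSpace ENNReal

namespace Vale.Agent.P214.GEN

open Vale.Agent.P214.Skel Vale.Agent.P214.EX Vale.Agent.P214.R2

variable {E : Type*} [NormedAddCommGroup E] [InnerProductSpace ℝ E] [FiniteDimensional ℝ E]
  [MeasurableSpace E] [BorelSpace E]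

section defs

variable (m Q : ℕ) (T : Submodule ℝ E) (ν : Measure E) (P : E → E →L[ℝ] E)

/-- `A(x, t) = max (a, g / 2)` for the profile `TH.win` -/
noncomputable def AA (x : E) (t : ℝ) : ℝ :=
  max (ODE.aK m T x TH.win ν (Q * cK m T TH.win) t) (ODE.tiltK m T x TH.win P ν t / 2)

/-- `v(x, t) = log (t² / A(x, t))` -/
noncomputable def vv (x : E) (t : ℝ) : ℝ := Real.log (t ^ 2 / AA m Q T ν P x t)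

/-- admissible centres of level `i` -/
def adm (η₁ t₀ : ℝ) (i : ℕ) : Set E :=
  {x | ∀ s, t₀ / 2 ^ i ≤ s → s ≤ 1 / 8 → exc T ν P x s ≤ η₁ * s ^ m}

/-- the output of the exhaustion -/
def Tot (c₀ κ : ℝ) (M : ℕ) (η₁ t₀ δ : ℝ) (φ : E → ℝ) (ρ N : ℕ → E → ℝ) : Prop :=
  Total (etaK TH.win) c₀ κ M (Dcen T) (closedBall (0 : E) (5 / 4)) (adm m T ν P η₁ t₀) t₀
    (psiStart φ δ) (lamA T ν) (lamB m Q T ν P) (nuB T ν P) ρ N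

/-- an event at level `i`: `k = ⌊v(x, T_i)⌋₊` -/
def Ev (t₀ : ℝ) (ρ N : ℕ → E → ℝ) (Cd : ℕ) (x : E) (i : ℕ) : Prop :=
  ENNReal.ofReal ((((⌊vv m Q T ν P x (t₀ / 2 ^ i)⌋₊ : ℕ) : ℝ) ^ 3)⁻¹ *
      ((t₀ / 2 ^ i) ^ ((m : ℤ) - 2) * AA m Q T ν P x (t₀ / 2 ^ i))) ≤
    nuB T ν P (closedBall x (2 * (t₀ / 2 ^ i)) ∩
      COMP.Gap ρ N i (Cd * ⌊vv m Q T ν P x (t₀ / 2 ^ i)⌋₊)
        (4 * ((Cd * ⌊vv m Q T ν P x (t₀ / 2 ^ i)⌋₊ : ℕ) : ℝ) ^ 4)⁻¹)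

/-- collapse at `(x, T₁)` with the scale `ra` -/
structure Coll (Ca : ℕ) (x : E) (T₁ ra : ℝ) : Prop where
  pos : 0 < ra
  le : ra ≤ T₁
  sq : AA m Q T ν P x T₁ ≤ ra ^ 2
  small : ∀ r, 0 < r → (vv m Q T ν P x T₁ ^ Ca)⁻¹ * AA m Q T ν P x T₁ ≤ r ^ 2 → r ≤ ra →
    AA m Q T ν P x r ≤ (vv m Q T ν P x T₁ ^ Ca)⁻¹ * AA m Q T ν P x T₁

/-- the total negativity at `x` over the admissible levels is at most `B` -/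
def Bud (η₁ t₀ B : ℝ) (x : E) : Prop := ∀ J : ℕ, (∀ i < J, x ∈ adm m T ν P η₁ t₀ i) →
  ∫ r in (2 * (t₀ / 2 ^ J))..(2 * t₀), Xf m Q T ν P TH.win x r / r ≤ B

end defs

variable (E)

/-- **Positivity** of the final function. -/
def BoxPos (m Q : ℕ) : Prop := ∃ η₀ : ℝ, 0 < η₀ ∧ ∀ η₁ : ℝ, 0 < η₁ → η₁ ≤ η₀ →
  ∃ C ε : ℝ, 0 < C ∧ 0 < ε ∧
  ∀ (c₀ κ : ℝ) (M : ℕ) (T : Submodule ℝ E) (h : ℝ) (ν : Measure E) (P : E → E →L[ℝ] E)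
    (φ : E → ℝ) (δ t₀ : ℝ) (ρ N : ℕ → E → ℝ),
    IntCyl m Q T 0 2 h ε ν P → BaseTest T 0 1 φ → 0 < δ → δ ≤ 1 / 2 → 0 < t₀ → t₀ ≤ δ / 8 →
    exc T ν P 0 2 ≤ ε * t₀ ^ m → Tot m Q T ν P c₀ κ M η₁ t₀ δ φ ρ N →
    ENNReal.ofReal (Ffl m Q T ν P (rhoLim ρ)) ≤ ENNReal.ofReal (C * δ * exc T ν P 0 2) +
      ∫⁻ y in {y | T.starProjection y ∈ ball (0 : E) 1}, ENNReal.ofReal (C * FV.tilt T (P y) ^ 2) *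
        ENNReal.ofReal (rhoLim ρ (T.starProjection y)) ∂ν

/-- **Density**: the tilt is bounded by the lower density of the projected energy. -/
def BoxDen (m Q : ℕ) : Prop := ∃ c ε : ℝ, 0 < c ∧ c ≤ 1 ∧ 0 < ε ∧
  ∀ (T : Submodule ℝ E) (h : ℝ) (ν : Measure E) (P : E → E →L[ℝ] E),
    IntCyl m Q T 0 2 h ε ν P → exc T ν P 0 2 ≤ ε →
    ∀ᵐ y ∂ν, T.starProjection y ∈ ball (0 : E) 1 → ∃ t₁ : ℝ, 0 < t₁ ∧ ∀ t, 0 < t → t ≤ t₁ →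
      c * FV.tilt T (P y) * t ^ m ≤ exc T ν P (T.starProjection y) t

/-- **Path**: at a base point with bounded negativity there is an event (or the top level `i = 0`)
with `k₀ ≤ v` at which either the coefficient `ω` is small or there is a collapse. -/
def BoxPath (m Q : ℕ) : Prop := ∀ (Kl c₀ κ : ℝ) (M : ℕ), IsKernel (etaK TH.win : E → ℝ) Kl c₀ →
  1 ≤ M → 0 < κ → κ ≤ 1 → 8 * M * κ ≤ 1 → ∃ η₀ : ℝ, 0 < η₀ ∧ ∀ η₁ : ℝ, 0 < η₁ → η₁ ≤ η₀ →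
  ∀ (B : ℝ) (C9 Ca : ℕ), 0 < B → ∃ Cd : ℕ, 1 ≤ Cd ∧ ∀ k₀ : ℕ, ∃ ε : ℝ, 0 < ε ∧
  ∀ (T : Submodule ℝ E) (h : ℝ) (ν : Measure E) (P : E → E →L[ℝ] E)
    (φ : E → ℝ) (δ t₀ : ℝ) (ρ N : ℕ → E → ℝ),
    IntCyl m Q T 0 2 h ε ν P → BaseTest T 0 1 φ → 0 < δ → δ ≤ 1 / 2 → 0 < t₀ → t₀ ≤ δ / 8 →
    exc T ν P 0 2 ≤ ε * t₀ ^ m → Tot m Q T ν P c₀ κ M η₁ t₀ δ φ ρ N →
    ∀ x ∈ T, ‖x‖ ≤ 1 → ∀ ω : ℝ, 0 < ω →
    (∃ t₁ : ℝ, 0 < t₁ ∧ ∀ t, 0 < t → t ≤ t₁ → ω * t ^ m ≤ exc T ν P x t) →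
    Bud m Q T ν P η₁ t₀ B x →
    ∃ i : ℕ, (i = 0 ∨ Ev m Q T ν P t₀ ρ N Cd x i) ∧
      (k₀ : ℝ) ≤ vv m Q T ν P x (t₀ / 2 ^ i) ∧
      (ω ≤ (vv m Q T ν P x (t₀ / 2 ^ i) ^ C9)⁻¹ ∨
        ∃ ra, Coll m Q T ν P Ca x (t₀ / 2 ^ i) ra)

/-- **Class energy**: the energy of the points of tilt at least `k ^ (-C9)` over a set of base
points with collapse at the same scale `ra ∼ 2 ^ (-l) T₁` and with `⌊v⌋ = k`. -/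
def BoxClass (m Q : ℕ) : Prop := ∀ C9 Cc : ℕ, ∃ (Ca k₀ : ℕ) (c C ε : ℝ),
    0 < c ∧ c ≤ 1 ∧ 0 < C ∧ 0 < ε ∧
  ∀ (T : Submodule ℝ E) (h : ℝ) (ν : Measure E) (P : E → E →L[ℝ] E),
    IntCyl m Q T 0 2 h ε ν P → exc T ν P 0 2 ≤ ε →
    ∀ (T₁ : ℝ) (k l : ℕ) (S : Set E), 0 < T₁ → T₁ ≤ 1 / 16 → k₀ ≤ k →
    (∀ x ∈ S, x ∈ T ∧ ‖x‖ ≤ 1 ∧ 0 < AA m Q T ν P x T₁ ∧ ⌊vv m Q T ν P x T₁⌋₊ = k ∧
      ∃ ra, T₁ / 2 ^ (l + 1) < ra ∧ ra ≤ T₁ / 2 ^ l ∧ Coll m Q T ν P Ca x T₁ ra) →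
    ∀ p ∈ S, ∫⁻ y in {y | T.starProjection y ∈ S ∩ ball p (c * T₁) ∧
        ((k : ℝ) ^ C9)⁻¹ ≤ FV.tilt T (P y)}, ENNReal.ofReal (FV.tilt T (P y)) ∂ν
      ≤ ENNReal.ofReal (C * ((k : ℝ) ^ Cc)⁻¹ * (T₁ ^ ((m : ℤ) - 2) * AA m Q T ν P p T₁))

/-- the output of the assembly -/
def RateUnit (m Q : ℕ) : Prop := ∀ A : ℕ, ∃ C ε : ℝ, 0 < C ∧ 0 < ε ∧
  ∀ (e : ℝ) (T : Submodule ℝ E) (h : ℝ) (ν : Measure E) (P : E → E →L[ℝ] E) (φ : E → ℝ),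
  IntCyl m Q T 0 2 h ε ν P → 0 < e → e ≤ ε → exc T ν P 0 2 ≤ e → BaseTest T 0 1 φ →
    Ffl m Q T ν P φ ≤ C * ((Real.log e⁻¹) ^ A)⁻¹ * e

end Vale.Agent.P214.GEN
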