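import Vale.Agent.P214.GEN.Vcmp
import Vale.Agent.P214.GEN.Props

/-!
# P214, general rate: comparison of `AA` with the excess (form of the interface)
-/

open Set Filter Topology MeasureTheory Metric
open scoped RealInnerProductSpace ENNReal

set_option linter.all false

namespace Vale.Agent.P214.GEN

open Vale.Agent.P214.Skel Vale.Agent.P214.EX Vale.Agent.P214.R2 Vale.Agent.P214.CAPF

variable {E : Type*} [NormedAddCommGroup E] [InnerProductSpace ℝ E] [FiniteDimensional ℝ E]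
  [MeasurableSpace E] [BorelSpace E]
variable {m Q : ℕ} {T : Submodule ℝ E} {G : Set E} {h : ℝ} {ν : Measure E} {P : E → E →L[ℝ] E}
  {x : E} {t : ℝ}

lemma zpow_mul_eq (ht : 0 < t) (e : ℝ) : t ^ (2 - (m : ℤ)) * e = t ^ 2 * (e / t ^ m) := by
  have : t ^ (2 - (m : ℤ)) = t ^ 2 * (t ^ m)⁻¹ := by
    rw [← zpow_natCast t m, ← zpow_neg, ← zpow_natCast t 2, ← zpow_add₀ ht.ne']
    congr 1
  rw [this]
  field_simp

private lemma AA_eq (x : E) (t : ℝ) : AA m Q T ν P x t =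
    NG.Am (fun t => ODE.aK m T x TH.win ν (Q * cK m T TH.win) t)
      (fun t => ODE.tiltK m T x TH.win P ν t) t := rfl

lemma AA_U (x : E) (s u : ℝ) : AA m Q T ν P x (s * Real.exp u) =
    NG.Am (aU m T x TH.win ν (Q * cK m T TH.win) s) (gU m T x TH.win P ν s) u := rfl

/-- **Comparison of `A` with the excess.** -/
theorem vcmp (E : Type*) [NormedAddCommGroup E] [InnerProductSpace ℝ E] [FiniteDimensional ℝ E]
    [MeasurableSpace E] [BorelSpace E] (m Q : ℕ) (hm : 1 ≤ m) :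
    ∃ dV c C : ℝ, 0 < dV ∧ 0 < c ∧ 0 < C ∧ ∀ (T : Submodule ℝ E) (h : ℝ) (ν : Measure E)
      (P : E → E →L[ℝ] E), IntCyl m Q T 0 2 h dV ν P → exc T ν P 0 2 ≤ dV →
      ∀ x ∈ T, ∀ t : ℝ, 0 < t →
      c * (t ^ 2 * (exc T ν P x (t / 2) / t ^ m)) ≤ AA m Q T ν P x t ∧
      (0 < exc T ν P x (t / 2) → 0 < AA m Q T ν P x t) ∧
      ODE.tiltK m T x TH.win P ν t ≤ C * (t ^ 2 * (exc T ν P x t / t ^ m)) ∧
      c * (t ^ 2 * (exc T ν P x (t / 2) / t ^ m)) ≤ ODE.tiltK m T x TH.win P ν t ∧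
      (‖x‖ ≤ 3 / 2 → t ≤ 1 / 32 → (∀ s, t ≤ s → s ≤ 1 / 8 → exc T ν P x s ≤ dV * s ^ m) →
        AA m Q T ν P x t ≤ C * (t ^ 2 * (exc T ν P x (2 * t) / t ^ m)) ∧
        |ODE.aK m T x TH.win ν (Q * cK m T TH.win) t| ≤
          C * (t ^ 2 * (exc T ν P x (2 * t) / t ^ m))) := by
  have hk := NGP.kernW
  have h14e : TH.win (1 / 4) = 1 := TH.win_one le_rfl
  have h14 : 0 < TH.win (1 / 4) := by rw [h14e]; exact one_pos
  have h0e : TH.win 0 = 1 := TH.win_one (by norm_num)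
  obtain ⟨δ, C, hδ, hC0, H⟩ := aK_bound (E := E) hk h14 m Q hm
  refine ⟨δ, 1 / 2, C + 1, hδ, by norm_num, by positivity, ?_⟩
  intro T h ν P hI hexc x hx t ht
  have hC := hI.cyl
  have e0 := exc_nonneg' hC x (t / 2)
  have e1 := exc_nonneg' hC x t
  have e2 := exc_nonneg' hC x (2 * t)
  have h1 := le_Am hC hk h14 hx ht (Q * cK m T TH.win)
  have h2 := tiltK_le hC hk h14 hx ht
  have h3 := le_tiltK hC hk h14 hx ht
  rw [h14e, zpow_mul_eq ht] at h1 h3
  rw [h0e, zpow_mul_eq ht] at h2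
  have p0 : 0 ≤ t ^ 2 * (exc T ν P x (t / 2) / t ^ m) := by positivity
  have p1 : 0 ≤ t ^ 2 * (exc T ν P x t / t ^ m) := by positivity
  have p2 : 0 ≤ t ^ 2 * (exc T ν P x (2 * t) / t ^ m) := by positivity
  refine ⟨?_, ?_, ?_, ?_, ?_⟩
  · exact h1
  · intro hpos
    have : 0 < 1 / 2 * (t ^ 2 * (exc T ν P x (t / 2) / t ^ m)) := by positivity
    exact this.trans_le h1
  · nlinarith
  · linarith
  · intro hx2 ht32 hsm
    have h4 := H T 0 2 h ν P hI (by
        have : (1:ℝ) ≤ 2 ^ m := one_le_pow₀ (by norm_num)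
        nlinarith) x hx (by rw [sub_zero]; linarith) t ht (by linarith)
      (fun s' h5 h6 => hsm s' h5 (by linarith))
    rw [zpow_mul_eq ht] at h4
    constructor
    · refine h4.2.trans ?_
      nlinarith
    · refine h4.1.trans ?_
      nlinarith

end Vale.Agent.P214.GEN
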