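import Vale.Agent.P214.GEN.PosExh
import Vale.Agent.P214.R2.Iv
import Vale.Agent.P214.CAPF.Inst

/-!
# P214, general rate: comparison of the ODE quantities with the excess

For a centre `x ∈ T` and `D = t ^ (-m) exc x t`:
`c t² D(t/2) ≤ g(t) ≤ C t² D(t)`, `|a(t)| ≤ C t² D(2t)`, `c t² D(t/2) ≤ A(t) ≤ C t² D(2t)`,
and `Yp ≤ 2 Xneg`.
-/

open Set Filter Topology MeasureTheory Metric
open scoped RealInnerProductSpace ENNReal

set_option linter.all false

namespace Vale.Agent.P214.GEN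

open Vale.Agent.P214.Skel Vale.Agent.P214.EX Vale.Agent.P214.R2 Vale.Agent.P214.CAPF

variable {E : Type*} [NormedAddCommGroup E] [InnerProductSpace ℝ E] [FiniteDimensional ℝ E]
  [MeasurableSpace E] [BorelSpace E]
variable {m Q : ℕ} {T : Submodule ℝ E} {G : Set E} {h : ℝ} {ν : Measure E} {P : E → E →L[ℝ] E}
  {k k' K : ℝ → ℝ} {x : E} {t : ℝ}

lemma exc_nonneg' (hC : FV.CylStat m T G h ν P) (x : E) (t : ℝ) : 0 ≤ exc T ν P x t :=
  R2.exc_nonneg hC x t

/-- `g(t) ≤ K 0 · t ^ (2 - m) · exc x t` -/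
lemma tiltK_le (hC : FV.CylStat m T G h ν P) (hk : ODE.Kern k k' K) (h14 : 0 < K (1 / 4))
    (hx : x ∈ T) (ht : 0 < t) :
    ODE.tiltK m T x K P ν t ≤ K 0 * (t ^ (2 - (m : ℤ)) * exc T ν P x t) := by
  have hpl := ODE.CylStat.plane hC
  have hb : ∀ᵐ y ∂ν, |ODE.tilt T P y| ≤ 2 * (Module.finrank ℝ E : ℝ) := hpl.abs_tilt_le
  have i1 := NGP.integrable_K (z := x) hC hk ht (ODE.aesm_tilt (T := T) hpl.meas) hb
  have hmain : ∫ y, K (ODE.bsq T x y / t ^ 2) * ODE.tilt T P y ∂ν ≤ K 0 * exc T ν P x t := by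
    unfold exc
    rw [← integral_const_mul, ← integral_indicator (R2.measurableSet_cylSet T x t)]
    refine integral_mono_ae i1 (((R2.integrable_tilt' hC).const_mul _).indicator
      (R2.measurableSet_cylSet T x t)) ?_
    filter_upwards [ODE.CylStat.tilt_nonneg hC] with y hy
    have hK0 : K (ODE.bsq T x y / t ^ 2) ≤ K 0 :=
      NGP.Kern.K_antitone hk (div_nonneg (ODE.bsq_nonneg T x y) (sq_nonneg t))
    by_cases hmem : y ∈ cylSet T x t
    · rw [indicator_of_mem hmem, TH.tilt_agree]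
      exact mul_le_mul_of_nonneg_right hK0 hy
    · rw [indicator_of_notMem hmem]
      have h3 : t ≤ ‖ODE.bx T x y‖ := by
        rw [ODE.bx_eq, Submodule.starProjection_eq_self_iff.2 hx]
        by_contra hcon
        exact hmem (by rw [cylSet, mem_setOf_eq, mem_ball, dist_eq_norm]; exact not_le.1 hcon)
      have h4 : K (ODE.bsq T x y / t ^ 2) = 0 := by
        refine hk.pK.zero _ ?_
        rw [one_le_div (by positivity)]
        unfold ODE.bsq
        gcongr
      rw [h4, zero_mul]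
  have hp : 0 < t ^ (2 - (m : ℤ)) := zpow_pos ht _
  calc ODE.tiltK m T x K P ν t = t ^ (2 - (m : ℤ)) * ∫ y, K (ODE.bsq T x y / t ^ 2) *
        ODE.tilt T P y ∂ν := rfl
    _ ≤ t ^ (2 - (m : ℤ)) * (K 0 * exc T ν P x t) := mul_le_mul_of_nonneg_left hmain hp.le
    _ = _ := by ring

/-- `K (1/4) · t ^ (2 - m) · exc x (t/2) ≤ g(t)` -/
lemma le_tiltK (hC : FV.CylStat m T G h ν P) (hk : ODE.Kern k k' K) (h14 : 0 < K (1 / 4))
    (hx : x ∈ T) (ht : 0 < t) :
    K (1 / 4) * (t ^ (2 - (m : ℤ)) * exc T ν P x (t / 2)) ≤ ODE.tiltK m T x K P ν t := by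
  have hpl := ODE.CylStat.plane hC
  have hb : ∀ᵐ y ∂ν, |ODE.tilt T P y| ≤ 2 * (Module.finrank ℝ E : ℝ) := hpl.abs_tilt_le
  have i1 := NGP.integrable_K (z := x) hC hk ht (ODE.aesm_tilt (T := T) hpl.meas) hb
  have hanti : Antitone K := antitone_of_deriv_nonpos
    (fun s => (hk.pK.der s).differentiableAt) (fun s => by
      rw [(hk.pK.der s).deriv]; have := hk.nonneg s; linarith)
  have hKnn : ∀ s, 0 ≤ K s := by
    intro s
    rcases le_total 1 s with h1 | h1
    · rw [hk.pK.zero s h1]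
    · have := hanti h1
      rw [hk.pK.zero 1 le_rfl] at this
      exact this
  have hmain : K (1 / 4) * exc T ν P x (t / 2) ≤
      ∫ y, K (ODE.bsq T x y / t ^ 2) * ODE.tilt T P y ∂ν := by
    unfold exc
    rw [← integral_const_mul, ← integral_indicator (R2.measurableSet_cylSet T x (t / 2))]
    refine integral_mono_ae (((R2.integrable_tilt' hC).const_mul _).indicator
      (R2.measurableSet_cylSet T x (t / 2))) i1 ?_
    filter_upwards [ODE.CylStat.tilt_nonneg hC] with y hy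
    by_cases hmem : y ∈ cylSet T x (t / 2)
    · rw [indicator_of_mem hmem, TH.tilt_agree]
      refine mul_le_mul_of_nonneg_right ?_ hy
      refine hanti ?_
      have h3 : ‖ODE.bx T x y‖ < t / 2 := by
        rw [ODE.bx_eq, Submodule.starProjection_eq_self_iff.2 hx, ← dist_eq_norm]
        exact hmem
      rw [div_le_iff₀ (by positivity)]
      unfold ODE.bsq
      have h5 : ‖ODE.bx T x y‖ ^ 2 ≤ (t / 2) ^ 2 := by gcongr
      calc ‖ODE.bx T x y‖ ^ 2 ≤ (t / 2) ^ 2 := h5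
        _ = 1 / 4 * t ^ 2 := by ring
    · rw [indicator_of_notMem hmem]
      exact mul_nonneg (hKnn _) hy
  have hp : 0 < t ^ (2 - (m : ℤ)) := zpow_pos ht _
  calc K (1 / 4) * (t ^ (2 - (m : ℤ)) * exc T ν P x (t / 2))
      = t ^ (2 - (m : ℤ)) * (K (1 / 4) * exc T ν P x (t / 2)) := by ring
    _ ≤ t ^ (2 - (m : ℤ)) * ∫ y, K (ODE.bsq T x y / t ^ 2) * ODE.tilt T P y ∂ν :=
        mul_le_mul_of_nonneg_left hmain hp.le
    _ = _ := rfl

/-- the fluctuation tested with a kernel -/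
lemma Ffl_ker (hC : FV.CylStat m T G h ν P) (hk : ODE.Kern k k' K) (hx : x ∈ T) (ht : 0 < t) :
    Ffl m Q T ν P (ker (etaK K) x t) = t ^ ((m : ℤ) - 2) / K 0 *
        ((ODE.aK m T x K ν (Q * cK m T K) t - ODE.tiltK m T x K P ν t) / 2) := by
  haveI := hC.fin
  unfold Ffl ODE.aK ODE.massK ODE.tiltK
  rw [plane_integral hx ht]
  obtain ⟨C, hC0, hCb⟩ := hk.pK.exists_bound
  have hbd : ∀ y, |K (ODE.bsq T x y / t ^ 2)| ≤ C := fun y =>
    (hCb _ (div_nonneg (ODE.bsq_nonneg T x y) (sq_nonneg t))).1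
  have hcont : Continuous fun y => K (ODE.bsq T x y / t ^ 2) :=
    hk.pK.continuous.comp ((ODE.continuous_bsq T x).div_const _)
  have i1 : Integrable (fun y => K (ODE.bsq T x y / t ^ 2)) ν :=
    Integrable.of_bound hcont.aestronglyMeasurable C
      (Eventually.of_forall fun y => by rw [Real.norm_eq_abs]; exact hbd y)
  have i2 : Integrable (fun y => K (ODE.bsq T x y / t ^ 2) * ODE.tilt T P y) ν := by
    refine (TH.integrable_tilt hC).bdd_mul (c := C) hcont.aestronglyMeasurable ?_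
    exact Eventually.of_forall fun y => by rw [Real.norm_eq_abs]; exact hbd y
  have h1 : ∫ y, ker (etaK K) x t (T.starProjection y) * (1 - FV.tilt T (P y) / 2) ∂ν
      = (K 0)⁻¹ * ((∫ y, K (ODE.bsq T x y / t ^ 2) ∂ν)
        - 2⁻¹ * ∫ y, K (ODE.bsq T x y / t ^ 2) * ODE.tilt T P y ∂ν) := by
    rw [← integral_const_mul 2⁻¹, ← integral_sub i1 (i2.const_mul _), ← integral_const_mul]
    refine integral_congr_ae (Eventually.of_forall fun y => ?_)
    simp only
    rw [ker_star hx ht, TH.tilt_agree]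
    ring
  rw [h1]
  set I1 := ∫ y, K (ODE.bsq T x y / t ^ 2) ∂ν
  set I2 := ∫ y, K (ODE.bsq T x y / t ^ 2) * ODE.tilt T P y ∂ν
  have h2 : t ^ ((m : ℤ) - 2) * t ^ (2 - (m : ℤ)) = 1 := by
    rw [← zpow_add₀ ht.ne']
    simp
  have h3 : t ^ ((m : ℤ) - 2) * t ^ 2 * t ^ (-(m : ℤ)) = 1 := by
    rw [← zpow_natCast t 2, ← zpow_add₀ ht.ne', ← zpow_add₀ ht.ne']
    simp
  have h4 : t ^ ((m : ℤ) - 2) * t ^ 2 = t ^ m := by
    rw [← zpow_natCast t 2, ← zpow_add₀ ht.ne', ← zpow_natCast t m]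
    congr 1
    push_cast
    ring
  have h5 : t ^ ((m : ℤ) - 2) / K 0 *
      ((2 * t ^ 2 * (t ^ (-(m : ℤ)) * I1 - Q * cK m T K) - t ^ (2 - (m : ℤ)) * I2) / 2)
      = (K 0)⁻¹ * ((t ^ ((m : ℤ) - 2) * t ^ 2 * t ^ (-(m : ℤ))) * I1
        - (t ^ ((m : ℤ) - 2) * t ^ 2) * (Q * cK m T K)
        - 2⁻¹ * ((t ^ ((m : ℤ) - 2) * t ^ (2 - (m : ℤ))) * I2)) := by
    ring
  rw [h5, h2, h3, h4]
  ring

/-- **Bound of `a`** at a centre above which the excess is small. -/
theorem aK_bound (hk : ODE.Kern k k' K) (h14 : 0 < K (1 / 4)) (m Q : ℕ) (hm : 1 ≤ m) :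
    ∃ δ C : ℝ, 0 < δ ∧ 0 < C ∧ ∀ (T : Submodule ℝ E) (z : E) (R h : ℝ) (ν : Measure E)
      (P : E → E →L[ℝ] E), IntCyl m Q T z R h δ ν P → exc T ν P z R ≤ δ * R ^ m →
      ∀ x ∈ T, ‖x - z‖ ≤ 3 / 4 * R → ∀ t : ℝ, 0 < t → t ≤ R / 64 →
      (∀ s', t ≤ s' → s' ≤ R / 16 → exc T ν P x s' ≤ δ * s' ^ m) →
      |ODE.aK m T x K ν (Q * cK m T K) t| ≤ C * (t ^ (2 - (m : ℤ)) * exc T ν P x (2 * t)) ∧
      NG.Am (fun t => ODE.aK m T x K ν (Q * cK m T K) t) (fun t => ODE.tiltK m T x K P ν t) t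
        ≤ C * (t ^ (2 - (m : ℤ)) * exc T ν P x (2 * t)) := by
  obtain ⟨δ, C, hδ, hC0, H⟩ := ffl_iv E m Q hm
  have hanti : Antitone K := NGP.Kern.K_antitone hk
  have hK0 : 0 < K 0 := lt_of_lt_of_le h14 (hanti (by norm_num))
  obtain ⟨Kl, hη⟩ := R2.isKernel_etaK (E := E) hk h14
  refine ⟨δ, 2 * K 0 * C + K 0, hδ, by positivity, ?_⟩
  intro T z R h ν P hI hexc x hx hxz t ht htR hsm
  have hC := hI.cyl
  have h1 := H T z R h ν P hI hexc x hx hxz t ht htR hsm (ker (etaK K) x t) 1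
    (R2.measurable_ker hk x t)
    (fun y => by rw [abs_of_nonneg (ker_nonneg hη x t y)]; exact ker_le_one hη x t y)
    (fun y hy => by
      unfold EX.ker R2.etaK
      rw [hk.pK.zero, zero_div]
      rw [norm_smul, norm_inv, Real.norm_of_nonneg ht.le, mul_pow, inv_pow, inv_mul_eq_div,
        le_div_iff₀ (by positivity), one_mul]
      exact pow_le_pow_left₀ ht.le hy 2)
  rw [Ffl_ker hC hk hx ht] at h1
  set a := ODE.aK m T x K ν (Q * cK m T K) t with ha
  set g := ODE.tiltK m T x K P ν t with hg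
  have hp : 0 < t ^ ((m : ℤ) - 2) := zpow_pos ht _
  have hp' : 0 < t ^ (2 - (m : ℤ)) := zpow_pos ht _
  have hpp : t ^ (2 - (m : ℤ)) * t ^ ((m : ℤ) - 2) = 1 := by
    rw [← zpow_add₀ ht.ne']; simp
  have h5 : |a - g| ≤ 2 * K 0 * C * (t ^ (2 - (m : ℤ)) * exc T ν P x (2 * t)) := by
    have e2 : t ^ ((m : ℤ) - 2) / K 0 * ((a - g) / 2) = t ^ ((m : ℤ) - 2) * ((a - g) / (2 * K 0)) := by
      field_simp
    rw [e2, abs_mul, abs_of_pos hp, abs_div, abs_of_pos (show (0:ℝ) < 2 * K 0 by positivity)] at h1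
    have h6 : t ^ (2 - (m : ℤ)) * (t ^ ((m : ℤ) - 2) * (|a - g| / (2 * K 0)))
        ≤ t ^ (2 - (m : ℤ)) * (C * 1 * exc T ν P x (2 * t)) :=
      mul_le_mul_of_nonneg_left h1 hp'.le
    rw [← mul_assoc, hpp, one_mul, div_le_iff₀ (by positivity)] at h6
    linarith
  have h7 := tiltK_le hC hk h14 hx ht
  have h8 : exc T ν P x t ≤ exc T ν P x (2 * t) :=
    R2.exc_mono' hC (by linarith)
  have h9 : g ≤ K 0 * (t ^ (2 - (m : ℤ)) * exc T ν P x (2 * t)) := by
    refine h7.trans ?_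
    gcongr
  have h10 : 0 ≤ g := NGP.CylStat.tiltK_nonneg (z := x) hC hk ht
  have h11 : |a| ≤ (2 * K 0 * C + K 0) * (t ^ (2 - (m : ℤ)) * exc T ν P x (2 * t)) := by
    have h6 : |a| ≤ |a - g| + |g| := by
      have := abs_add_le (a - g) g
      simpa using this
    rw [abs_of_nonneg h10] at h6
    calc |a| ≤ |a - g| + g := h6
      _ ≤ _ := by rw [add_mul]; exact add_le_add h5 h9
  refine ⟨h11, ?_⟩
  unfold NG.Am
  refine max_le ((le_abs_self _).trans h11) ?_
  have h12 : 0 ≤ 2 * K 0 * C * (t ^ (2 - (m : ℤ)) * exc T ν P x (2 * t)) :=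
    (abs_nonneg _).trans h5
  show g / 2 ≤ _
  rw [add_mul]
  linarith

/-- lower bound of `A` -/
lemma le_Am (hC : FV.CylStat m T G h ν P) (hk : ODE.Kern k k' K) (h14 : 0 < K (1 / 4))
    (hx : x ∈ T) (ht : 0 < t) (cQ : ℝ) :
    K (1 / 4) / 2 * (t ^ (2 - (m : ℤ)) * exc T ν P x (t / 2)) ≤
      NG.Am (fun t => ODE.aK m T x K ν cQ t) (fun t => ODE.tiltK m T x K P ν t) t := by
  have h1 := le_tiltK hC hk h14 hx ht
  unfold NG.Am
  refine le_trans ?_ (le_max_right _ _)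
  show _ ≤ ODE.tiltK m T x K P ν t / 2
  linarith

/-- `t ^ (2 - m) · e ≤ D t²` iff `e ≤ D t ^ m` -/
lemma zpow_mul_le_iff (ht : 0 < t) {e D : ℝ} :
    t ^ (2 - (m : ℤ)) * e ≤ D * t ^ 2 ↔ e ≤ D * t ^ m := by
  have hp : 0 < t ^ (2 - (m : ℤ)) := zpow_pos ht _
  have e1 : D * t ^ 2 = t ^ (2 - (m : ℤ)) * (D * t ^ m) := by
    have : t ^ (2 - (m : ℤ)) * t ^ m = t ^ 2 := by
      rw [← zpow_natCast t m, ← zpow_add₀ ht.ne', ← zpow_natCast t 2]
      congr 1
      push_cast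
      ring
    calc D * t ^ 2 = D * (t ^ (2 - (m : ℤ)) * t ^ m) := by rw [this]
      _ = _ := by ring
  rw [e1]
  exact mul_le_mul_iff_right₀ hp

/-- the functions of the logarithmic scale -/
lemma Am_U (cQ s u : ℝ) :
    NG.Am (aU m T x K ν cQ s) (gU m T x K P ν s) u =
      NG.Am (fun t => ODE.aK m T x K ν cQ t) (fun t => ODE.tiltK m T x K P ν t)
        (s * Real.exp u) := rfl

/-! ### the budget -/

/-- `Y ≤ 2 X₋` -/
theorem Yr_le_Xf (hC : FV.CylStat m T G h ν P) (hk : ODE.Kern k k' K) (h14 : 0 < K (1 / 4))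
    (hx : x ∈ T) {r : ℝ} (hr : 0 < r) (hxr : ‖x‖ + r ≤ 2) :
    NG.Yr (ODE.aK m T x K ν (Q * cK m T K) r) (ODE.tiltK m T x K P ν r)
      ≤ 2 * Xf m Q T ν P K x r := by
  rw [R2.Xf_eq hC hk h14 hx hr hxr]
  unfold NG.Yr
  set a := ODE.aK m T x K ν (Q * cK m T K) r
  set g := ODE.tiltK m T x K P ν r
  have e1 : (g - a) / (2 * g) = (g - a) / g / 2 := by rw [div_div, mul_comm 2 g]
  rw [e1]
  set q := (g - a) / g
  rcases le_total 0 q with h0 | h0
  · rw [max_eq_right h0, max_eq_right (by linarith : 0 ≤ q / 2)]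
    rcases le_total 1 (q / 2) with h1 | h1
    · rw [min_eq_left h1]
      exact (min_le_left _ _).trans (by norm_num)
    · rw [min_eq_right h1]
      exact (min_le_right _ _).trans (by linarith)
  · rw [max_eq_left h0, max_eq_left (by linarith : q / 2 ≤ 0)]
    norm_num

/-- **The budget along a path**: `∫_0^U Yp ≤ 2 ∫_{s₀}^{t₁} Xf / r` for `s₀ ≤ s`, `s e^U ≤ t₁`. -/
theorem int_Yp_le (hC : FV.CylStat m T G h ν P) (hk : ODE.Kern k k' K) (h14 : 0 < K (1 / 4))
    (hx : x ∈ T) {s s₀ t₁ U : ℝ} (hs0 : 0 < s₀) (hs : s₀ ≤ s) (hU : 0 ≤ U)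
    (ht1 : s * Real.exp U ≤ t₁) (hxt : ‖x‖ + t₁ ≤ 2) :
    ∫ u in (0:ℝ)..U, NG.Yp (aU m T x K ν (Q * cK m T K) s) (gU m T x K P ν s) u
      ≤ 2 * ∫ r in s₀..t₁, Xf m Q T ν P K x r / r := by
  haveI := hC.fin
  haveI := isFinite_nuB hC
  haveI := isFinite_lamB (Q := Q) hC
  haveI : IsFiniteMeasure (lamA T ν) := by
    unfold lamA
    infer_instance
  obtain ⟨Kl, hη⟩ := R2.isKernel_etaK (E := E) hk h14
  have hspos : 0 < s := hs0.trans_le hs
  have hse : s ≤ s * Real.exp U := by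
    have := Real.one_le_exp hU
    nlinarith
  have hint : ∀ a b : ℝ, 0 < a → a ≤ b →
      IntervalIntegrable (fun r => Xf m Q T ν P K x r / r) volume a b :=
    fun a b ha hab => intervalIntegrable_Xneg' hη x ha (ha.trans_le hab)
  have hXnn : ∀ r, 0 ≤ Xf m Q T ν P K x r := fun r => Xneg_nonneg x r
  have iX0 := hint s₀ s hs0 hs
  have iX1 := hint s (s * Real.exp U) hspos hse
  have iX2 := hint (s * Real.exp U) t₁ (by positivity) ht1
  have h0 : 0 ≤ ∫ r in s₀..s, Xf m Q T ν P K x r / r :=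
    intervalIntegral.integral_nonneg hs fun r hr => div_nonneg (hXnn r) (hs0.le.trans hr.1)
  have h2 : 0 ≤ ∫ r in (s * Real.exp U)..t₁, Xf m Q T ν P K x r / r :=
    intervalIntegral.integral_nonneg ht1 fun r hr =>
      div_nonneg (hXnn r) ((by positivity : (0:ℝ) ≤ s * Real.exp U).trans hr.1)
  have hadd1 := intervalIntegral.integral_add_adjacent_intervals iX0 iX1
  have hadd2 := intervalIntegral.integral_add_adjacent_intervals (iX0.trans iX1) iX2
  have h1 : 0 ≤ ∫ r in s..(s * Real.exp U), Xf m Q T ν P K x r / r :=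
    intervalIntegral.integral_nonneg hse fun r hr => div_nonneg (hXnn r) (hspos.le.trans hr.1)
  -- substitution
  have hder : ∀ u ∈ Ioc (0:ℝ) U,
      HasDerivWithinAt (fun u : ℝ => s * Real.exp u) (s * Real.exp u) (Ioc (0:ℝ) U) u := fun u _ =>
    ((Real.hasDerivAt_exp u).const_mul s).hasDerivWithinAt
  have hinj : InjOn (fun u : ℝ => s * Real.exp u) (Ioc (0:ℝ) U) := by
    intro u _ v _ huv
    have : Real.exp u = Real.exp v := mul_left_cancel₀ hspos.ne' huv
    exact Real.exp_injective this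
  have himg : (fun u : ℝ => s * Real.exp u) '' Ioc (0:ℝ) U = Ioc s (s * Real.exp U) := by
    ext r
    constructor
    · rintro ⟨u, hu, rfl⟩
      constructor
      · have := Real.one_lt_exp_iff.2 hu.1
        show s < s * Real.exp u
        nlinarith
      · show s * Real.exp u ≤ s * Real.exp U
        gcongr
        exact hu.2
    · rintro ⟨h3, h4⟩
      have hr0 : 0 < r := hspos.trans h3
      refine ⟨Real.log (r / s), ⟨Real.log_pos ((one_lt_div hspos).2 h3), ?_⟩, ?_⟩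
      · rw [Real.log_le_iff_le_exp (by positivity), div_le_iff₀ hspos, mul_comm]
        exact h4
      · show s * Real.exp (Real.log (r / s)) = r
        rw [Real.exp_log (by positivity)]
        field_simp
  have e1 : ∀ u : ℝ, |s * Real.exp u| • (Xf m Q T ν P K x (s * Real.exp u) / (s * Real.exp u))
      = Xf m Q T ν P K x (s * Real.exp u) := by
    intro u
    have h5 : 0 < s * Real.exp u := by positivity
    rw [abs_of_pos h5, smul_eq_mul]
    field_simp
  have hint2 : IntegrableOn (fun u : ℝ => Xf m Q T ν P K x (s * Real.exp u)) (Ioc (0:ℝ) U) := by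
    have h6 := (integrableOn_image_iff_integrableOn_abs_deriv_smul measurableSet_Ioc hder hinj
      (fun r => Xf m Q T ν P K x r / r)).1 (by
        rw [himg]
        exact (intervalIntegrable_iff_integrableOn_Ioc_of_le hse).1 iX1)
    simpa only [e1] using h6
  have hsub : ∫ u in (0:ℝ)..U, Xf m Q T ν P K x (s * Real.exp u)
      = ∫ r in s..(s * Real.exp U), Xf m Q T ν P K x r / r := by
    rw [intervalIntegral.integral_of_le hU, intervalIntegral.integral_of_le hse, ← himg,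
      integral_image_eq_integral_abs_deriv_smul measurableSet_Ioc hder hinj]
    simp only [e1]
  by_cases hi : IntervalIntegrable
      (NG.Yp (aU m T x K ν (Q * cK m T K) s) (gU m T x K P ν s)) volume 0 U
  · have h3 : ∫ u in (0:ℝ)..U, NG.Yp (aU m T x K ν (Q * cK m T K) s) (gU m T x K P ν s) u
        ≤ ∫ u in (0:ℝ)..U, 2 * Xf m Q T ν P K x (s * Real.exp u) := by
      refine intervalIntegral.integral_mono_on hU hi
        (((intervalIntegrable_iff_integrableOn_Ioc_of_le hU).2 hint2).const_mul 2) fun u hu => ?_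
      have h5 : s * Real.exp u ≤ s * Real.exp U := by gcongr; exact hu.2
      exact Yr_le_Xf (Q := Q) hC hk h14 hx (by positivity) (by linarith)
    rw [intervalIntegral.integral_const_mul, hsub] at h3
    linarith
  · rw [intervalIntegral.integral_undef hi]
    linarith

end Vale.Agent.P214.GEN
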