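import Vale.Agent.P214.R2.Exh

/-!
# P214, general rate: the exhaustion over a cylinder with an arbitrary set of admissible centres
at each level (`EX.Total` for the fluctuation functional and the tilt measure)
-/

open Set Filter Topology MeasureTheory Metric
open scoped RealInnerProductSpace ENNReal

set_option linter.all false

namespace Vale.Agent.P214.GEN

open Vale.Agent.P214.Skel Vale.Agent.P214.EX Vale.Agent.P214.R2

variable {E : Type*} [NormedAddCommGroup E] [InnerProductSpace ℝ E] [FiniteDimensional ℝ E]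
  [MeasurableSpace E] [BorelSpace E]
variable {m Q : ℕ} {T : Submodule ℝ E} {G : Set E} {h : ℝ} {ν : Measure E} {P : E → E →L[ℝ] E}
  {k k' K : ℝ → ℝ}

/-- the set of centres -/
def Dcen (T : Submodule ℝ E) : Set E := {x | x ∈ T ∧ ‖x‖ ≤ 9 / 8}

lemma psiStart_nonneg {φ : E → ℝ} (hφ : BaseTest T 0 1 φ) {δ : ℝ} (hδ : 0 < δ) (x : E) :
    0 ≤ psiStart φ δ x := by
  unfold psiStart
  have h1 := hφ.nonneg x
  have h2 := mul_nonneg hδ.le (eta1_nonneg x)
  linarith

lemma psiStart_le_one {φ : E → ℝ} (hφ : BaseTest T 0 1 φ) {δ : ℝ} (hδ : 0 < δ) (hδ2 : δ ≤ 1)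
    (x : E) : psiStart φ δ x ≤ 1 := by
  unfold psiStart
  have h1 := hφ.le_one x
  have h2 : δ * eta1 x ≤ 1 := by
    have := eta1_le_one x
    nlinarith [eta1_nonneg x]
  linarith

lemma psiStart_zero {φ : E → ℝ} (hφ : BaseTest T 0 1 φ) {δ : ℝ} {x : E} (hx : 3 / 2 ≤ ‖x‖) :
    psiStart φ δ x = 0 := by
  unfold psiStart
  rw [hφ.supp x (by rw [sub_zero]; linarith), eta1_eq_zero hx]
  ring

lemma psiStart_lower {φ : E → ℝ} (hφ : BaseTest T 0 1 φ) {δ : ℝ} {x : E} (hx : ‖x‖ ≤ 5 / 4) :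
    φ x / 2 + δ / 2 ≤ psiStart φ δ x := by
  unfold psiStart
  rw [eta1_eq_one hx]
  linarith

lemma continuous_psiStart {φ : E → ℝ} (hφ : BaseTest T 0 1 φ) (δ : ℝ) :
    Continuous (psiStart φ δ) := by
  unfold psiStart
  exact ((BaseTest.continuous one_pos hφ).add (continuous_const.mul continuous_eta1)).div_const _

lemma logLip_psiStart {φ : E → ℝ} (hφ : BaseTest T 0 1 φ) {δ t₀ : ℝ} (hδ : 0 < δ) (ht0 : 0 < t₀)
    (ht0δ : t₀ ≤ δ / 8) : LogLip (closedBall (0 : E) (5 / 4)) t₀ (psiStart φ δ) := by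
  intro x hx y hy hxy
  rw [mem_closedBall_zero_iff] at hx hy
  unfold psiStart
  rw [eta1_eq_one hx, eta1_eq_one hy]
  have h1 : |φ x - φ y| ≤ dist x y := by
    have := hφ.lip x y
    rw [inv_one, one_mul, ← dist_eq_norm] at this
    exact this
  have h2 : |(φ x + δ * 1) / 2 - (φ y + δ * 1) / 2| = |φ x - φ y| / 2 := by
    rw [show (φ x + δ * 1) / 2 - (φ y + δ * 1) / 2 = (φ x - φ y) / 2 by ring, abs_div,
      abs_of_pos (by norm_num : (0 : ℝ) < 2)]
  rw [h2]
  have h3 : δ / 2 ≤ (φ y + δ * 1) / 2 := by linarith [hφ.nonneg y]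
  have h4 : 0 ≤ dist x y / t₀ := div_nonneg dist_nonneg ht0.le
  have h5 : dist x y / 2 ≤ 1 / 8 * (dist x y / t₀) * (δ / 2) := by
    rw [show 1 / 8 * (dist x y / t₀) * (δ / 2) = dist x y / 2 * (δ / (8 * t₀)) by
      field_simp; try ring]
    have h6 : 1 ≤ δ / (8 * t₀) := by
      rw [le_div_iff₀ (by positivity)]
      linarith
    have h7 : 0 ≤ dist x y / 2 := by positivity
    nlinarith
  calc |φ x - φ y| / 2 ≤ dist x y / 2 := by linarith
    _ ≤ 1 / 8 * (dist x y / t₀) * (δ / 2) := h5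
    _ ≤ 1 / 8 * (dist x y / t₀) * ((φ y + δ * 1) / 2) := by
        refine mul_le_mul_of_nonneg_left h3 ?_
        positivity

/-- **The exhaustion over a cylinder, general form.**  The constants `c₀`, `M`, `κ` depend only on
`E` and the kernel. -/
theorem exists_total_cyl (hk : ODE.Kern k k' K) (h14 : 0 < K (1 / 4)) :
    ∃ (Kl c₀ κ : ℝ) (M : ℕ), IsKernel (E := E) (etaK K) Kl c₀ ∧ 1 ≤ M ∧ 0 < κ ∧ κ ≤ 1 ∧
      8 * M * κ ≤ 1 ∧
      ∀ (m Q : ℕ) (T : Submodule ℝ E) (G : Set E) (h : ℝ) (ν : Measure E)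
      (P : E → E →L[ℝ] E) (φ : E → ℝ) (δ t₀ : ℝ) (adm : ℕ → Set E),
      FV.CylStat m T G h ν P → BaseTest T 0 1 φ → 0 < δ → δ ≤ 1 / 2 → 0 < t₀ → t₀ ≤ δ / 8 →
      ∃ ρ N : ℕ → E → ℝ, Total (etaK K) c₀ κ M (Dcen T) (closedBall (0 : E) (5 / 4)) adm t₀
        (psiStart φ δ) (lamA T ν) (lamB m Q T ν P) (nuB T ν P) ρ N := by
  obtain ⟨Kl, hη⟩ := isKernel_etaK (E := E) hk h14
  obtain ⟨M, hM, hpack⟩ := exists_packing (E := E)
  have hM' : (1 : ℝ) ≤ M := by exact_mod_cast hM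
  have hKl := hη.one_le
  refine ⟨Kl, K (1 / 4) / K 0, 1 / (128 * M * Kl), M, hη, hM, by positivity, ?_, ?_, ?_⟩
  · rw [div_le_one (by positivity)]
    nlinarith
  · rw [mul_one_div, div_le_one (by positivity)]
    nlinarith
  intro m Q T G h ν P φ δ t₀ adm hC hφ hδ hδ2 ht0 ht0δ
  haveI := hC.fin
  haveI := isFinite_nuB hC
  haveI := isFinite_lamB (Q := Q) hC
  have hDb : Bornology.IsBounded (Dcen T) := by
    refine (isBounded_closedBall (x := (0 : E)) (r := 9 / 8)).subset ?_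
    rintro x ⟨-, hx⟩
    rwa [mem_closedBall_zero_iff]
  have hDΩ : ∀ p ∈ Dcen T, closedBall p (2 * t₀) ⊆ closedBall (0 : E) (5 / 4) := by
    rintro p ⟨-, hp⟩
    refine closedBall_subset_closedBall' ?_
    rw [dist_zero_right]
    linarith
  exact exists_total (lam₁ := lamA T ν) (lam₂ := lamB m Q T ν P) (ν := nuB T ν P) hη hM hpack
    hDb hDΩ ht0 adm (continuous_psiStart hφ δ) (fun x => psiStart_nonneg hφ hδ x)
    (fun x => psiStart_le_one hφ hδ (by linarith) x) (logLip_psiStart hφ hδ ht0 ht0δ)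

section use

variable {Kl c₀ κ : ℝ} {M : ℕ} {adm : ℕ → Set E} {t₀ δ : ℝ} {φ : E → ℝ} {ρ N : ℕ → E → ℝ}

lemma rho_off (hT : Total (etaK K) c₀ κ M (Dcen T) (closedBall (0 : E) (5 / 4)) adm t₀
    (psiStart φ δ) (lamA T ν) (lamB m Q T ν P) (nuB T ν P) ρ N) (i : ℕ) {x : E}
    (hx : 5 / 4 < ‖x‖) : ρ i x = psiStart φ δ x := by
  have hmem : x ∉ closedBall (0 : E) (5 / 4) := by
    rw [mem_closedBall_zero_iff]; exact not_le.2 hx
  induction i with
  | zero => rw [hT.zero]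
  | succ i ih => rw [((hT.step i).off x hmem).1, ih]

lemma N_off (hT : Total (etaK K) c₀ κ M (Dcen T) (closedBall (0 : E) (5 / 4)) adm t₀
    (psiStart φ δ) (lamA T ν) (lamB m Q T ν P) (nuB T ν P) ρ N) (i : ℕ) {x : E}
    (hx : 5 / 4 < ‖x‖) : N i x = 0 :=
  ((hT.step i).off x (by rw [mem_closedBall_zero_iff]; exact not_le.2 hx)).2

/-- **The limit inequality in terms of the fluctuation.** -/
theorem ffl_le_lim (hC : FV.CylStat m T G h ν P) (hφ : BaseTest T 0 1 φ) (hδ : 0 < δ)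
    (hδ2 : δ ≤ 1) (hT : Total (etaK K) c₀ κ M (Dcen T) (closedBall (0 : E) (5 / 4)) adm t₀
      (psiStart φ δ) (lamA T ν) (lamB m Q T ν P) (nuB T ν P) ρ N) :
    Ffl m Q T ν P (psiStart φ δ)
      + ∫ y, negLim N (T.starProjection y) * FV.tilt T (P y) ∂ν ≤ Ffl m Q T ν P (rhoLim ρ) := by
  haveI := hC.fin
  have h1 := hT.ineq
  have hψ0 := fun x => psiStart_nonneg (x := x) hφ hδ
  have hψ1 := fun x => psiStart_le_one (x := x) hφ hδ hδ2
  have hneg0 : ∀ x : E, 2 ≤ ‖x‖ → negLim N x = 0 := by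
    intro x hx
    unfold negLim
    rw [tsum_congr fun i => N_off hT i (x := x) (by linarith), tsum_zero]
  have hlim0 : ∀ x : E, 2 ≤ ‖x‖ → rhoLim ρ x = 0 := by
    intro x hx
    refine le_antisymm ?_ (rhoLim_nonneg hT.good x)
    have := rhoLim_le_phi hT.good x
    rwa [psiStart_zero hφ (by linarith)] at this
  rw [Lam_eq_Ffl hC (continuous_psiStart hφ δ).measurable (C := 1)
      (fun x => by rw [abs_of_nonneg (hψ0 x)]; exact hψ1 x)
      (fun x hx => psiStart_zero hφ (by linarith)),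
    Lam_eq_Ffl hC (measurable_rhoLim hT.good hT.step) (C := 1)
      (fun x => by rw [abs_of_nonneg (rhoLim_nonneg hT.good x)]
                   exact (rhoLim_le_phi hT.good x).trans (hψ1 x)) hlim0,
    integral_nuB hC (measurable_negLim wt_le_one hT.good hT.step) hneg0] at h1
  exact h1

/-- the same after finitely many levels -/
theorem ffl_le_fin (hC : FV.CylStat m T G h ν P) (hφ : BaseTest T 0 1 φ) (hδ : 0 < δ)
    (hδ2 : δ ≤ 1) (hT : Total (etaK K) c₀ κ M (Dcen T) (closedBall (0 : E) (5 / 4)) adm t₀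
      (psiStart φ δ) (lamA T ν) (lamB m Q T ν P) (nuB T ν P) ρ N) (J : ℕ) :
    Ffl m Q T ν P (psiStart φ δ) + ∑ i ∈ Finset.range J,
      ∫ y, N i (T.starProjection y) * FV.tilt T (P y) ∂ν ≤ Ffl m Q T ν P (ρ J) := by
  haveI := hC.fin
  haveI := isFinite_nuB hC
  haveI := isFinite_lamB (Q := Q) hC
  have h1 := exhaustion_sum hT.step J
  have hψ0 := fun x => psiStart_nonneg (x := x) hφ hδ
  have hψ1 := fun x => psiStart_le_one (x := x) hφ hδ hδ2
  rw [hT.zero, Lam_eq_Ffl hC (continuous_psiStart hφ δ).measurable (C := 1)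
      (fun x => by rw [abs_of_nonneg (hψ0 x)]; exact hψ1 x)
      (fun x hx => psiStart_zero hφ (by linarith)),
    Lam_eq_Ffl hC (hT.good J).cont.measurable (C := 1)
      (fun x => by rw [abs_of_nonneg ((hT.good J).nonneg x)]
                   exact ((hT.good J).le x).trans (hψ1 x))
      (fun x hx => by rw [rho_off hT J (by linarith), psiStart_zero hφ (by linarith)]),
    Finset.sum_congr rfl fun i _ => integral_nuB hC (hT.step i).cont.measurable
      fun x hx => N_off hT i (by linarith)] at h1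
  exact h1

end use

end Vale.Agent.P214.GEN
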