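import Vale.Agent.P214.GEN.Props
import Vale.Agent.P214.QP.IntV

/-!
# P214, general rate: the density box (`BoxDen`)

At almost every point `y` of the varifold the tilt is bounded by the lower density of the projected
energy at `p y`: differentiation of `tilt · ν` with respect to `ν` (Besicovitch) and the lower
density of the varifold.
-/

open Set Filter Topology MeasureTheory Metric
open scoped RealInnerProductSpace ENNReal

set_option linter.all false

namespace Vale.Agent.P214.GEN

open Vale.Agent.P214.Skel Vale.Agent.P214.EX Vale.Agent.P214.R2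

variable {E : Type*} [NormedAddCommGroup E] [InnerProductSpace ℝ E] [FiniteDimensional ℝ E]
  [MeasurableSpace E] [BorelSpace E]

/-- differentiation of an integrable function along closed balls -/
lemma ae_ball_average {ν : Measure E} [IsFiniteMeasure ν] {f : E → ℝ} (hf : Integrable f ν) :
    ∀ᵐ y ∂ν, Tendsto (fun r : ℝ => ⨍ z in closedBall y r, f z ∂ν) (𝓝[>] 0) (𝓝 (f y)) := by
  filter_upwards [(Besicovitch.vitaliFamily ν).ae_tendsto_average hf.locallyIntegrable] with y hy
  exact hy.comp (Besicovitch.tendsto_filterAt ν y)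

/-- **Density** with any lower mass bound. -/
lemma den_of_low {m : ℕ} {T : Submodule ℝ E} {G : Set E} {h : ℝ} {ν : Measure E}
    {P : E → E →L[ℝ] E} (hC : FV.CylStat m T G h ν P) {a : ℝ} (ha : 0 < a) :
    ∀ᵐ y ∂ν, (∃ s₀ : ℝ, 0 < s₀ ∧ ∀ s, 0 < s → s ≤ s₀ → a * s ^ m ≤ ν.real (closedBall y s)) →
      ∃ t₁ : ℝ, 0 < t₁ ∧ ∀ t, 0 < t → t ≤ t₁ →
        (a / 2 ^ (m + 1)) * FV.tilt T (P y) * t ^ m ≤ exc T ν P (T.starProjection y) t := by
  haveI := hC.fin
  filter_upwards [ae_ball_average (integrable_tilt' hC), tilt_nonneg_ae hC] with y hy hy0 hlow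
  obtain ⟨s₀, hs₀, hlow⟩ := hlow
  rcases eq_or_lt_of_le hy0 with h0 | h0
  · refine ⟨1, one_pos, fun t ht _ => ?_⟩
    rw [← h0]
    simp only [mul_zero, zero_mul]
    exact exc_nonneg hC _ _
  · have h1 : ∀ᶠ r : ℝ in 𝓝[>] 0, FV.tilt T (P y) / 2 < ⨍ z in closedBall y r,
        FV.tilt T (P z) ∂ν := hy.eventually_const_lt (by linarith)
    obtain ⟨u, hu, hu2⟩ := mem_nhdsGT_iff_exists_Ioc_subset.1 h1
    have hu0 : (0 : ℝ) < u := hu
    refine ⟨min u s₀, lt_min hu0 hs₀, fun t ht htle => ?_⟩
    have ht2 : 0 < t / 2 := by linarith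
    have h2 : FV.tilt T (P y) / 2 < ⨍ z in closedBall y (t / 2), FV.tilt T (P z) ∂ν :=
      hu2 ⟨ht2, by linarith [htle.trans (min_le_left _ _)]⟩
    have h3 := hlow (t / 2) ht2 (by linarith [htle.trans (min_le_right u s₀)])
    have hpos : 0 < ν.real (closedBall y (t / 2)) := lt_of_lt_of_le (by positivity) h3
    rw [setAverage_eq, smul_eq_mul, inv_mul_eq_div, lt_div_iff₀ hpos] at h2
    have h4 : ∫ z in closedBall y (t / 2), FV.tilt T (P z) ∂ν
        ≤ exc T ν P (T.starProjection y) t := by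
      unfold exc
      refine setIntegral_mono_set (integrable_tilt' hC).integrableOn
        (ae_restrict_of_ae (tilt_nonneg_ae hC)) (HasSubset.Subset.eventuallyLE ?_)
      intro w hw
      rw [mem_closedBall, dist_eq_norm] at hw
      show T.starProjection w ∈ ball (T.starProjection y) t
      rw [mem_ball, dist_eq_norm, ← map_sub]
      calc ‖T.starProjection (w - y)‖ ≤ ‖T.starProjection‖ * ‖w - y‖ :=
            T.starProjection.le_opNorm _
        _ ≤ 1 * ‖w - y‖ := by gcongr; exact T.starProjection_norm_le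
        _ < t := by linarith
    refine le_trans ?_ (h2.le.trans h4)
    calc (a / 2 ^ (m + 1)) * FV.tilt T (P y) * t ^ m
        = FV.tilt T (P y) / 2 * (a * (t / 2) ^ m) := by
          rw [div_pow, pow_succ]; field_simp
      _ ≤ _ := by gcongr

/-- **Density box.** -/
theorem boxDen (m Q : ℕ) : BoxDen E m Q := by
  have hcg := cg_pos m
  refine ⟨min 1 (cg m / 2 ^ (m + 1)), 1, lt_min one_pos (by positivity), min_le_left _ _,
    one_pos, ?_⟩
  intro T h ν P hI _
  haveI := hI.cyl.fin
  filter_upwards [den_of_low hI.cyl hcg, ν.support_mem_ae, tilt_nonneg_ae hI.cyl] with y hy hys hy0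
    hy1
  obtain ⟨t₁, ht₁, H⟩ := hy ⟨1 / 2, by norm_num, fun s hs hs2 => by
    refine QP.low_intCyl hI hys hs ?_
    rw [mem_ball, dist_eq_norm] at hy1
    linarith⟩
  refine ⟨t₁, ht₁, fun t ht htle => le_trans ?_ (H t ht htle)⟩
  gcongr
  exact min_le_right _ _

end Vale.Agent.P214.GEN
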