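import Vale.Agent.P214.GEN.AsmNum
import Vale.Agent.P214.GEN.PosExh
import Vale.Agent.P214.GEN.Den

/-!
# P214, general rate: the alternative at a point of the varifold
-/

open Set Filter Topology MeasureTheory Metric
open scoped RealInnerProductSpace ENNReal

set_option linter.all false

namespace Vale.Agent.P214.GEN

open Vale.Agent.P214.Skel Vale.Agent.P214.EX
open Vale.Agent.P214.R2 (etaK cK Xf psiStart lamA lamB nuB)

variable {E : Type*} [NormedAddCommGroup E] [InnerProductSpace ℝ E] [FiniteDimensional ℝ E]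
  [MeasurableSpace E] [BorelSpace E]
variable {m Q : ℕ} {T : Submodule ℝ E} {G : Set E} {h : ℝ} {ν : Measure E} {P : E → E →L[ℝ] E}

/-- the alternative for the coefficient `C tilt²` -/
theorem alt_point {Kl c₀ κ η₁ t₀ δ : ℝ} {M : ℕ} {φ : E → ℝ} {ρ N : ℕ → E → ℝ}
    (hC : FV.CylStat m T G h ν P) (hη : IsKernel (etaK TH.win : E → ℝ) Kl c₀)
    (hκ0 : 0 < κ) (hκ1 : κ ≤ 1) (ht0 : 0 < t₀)
    (hT : Tot m Q T ν P c₀ κ M η₁ t₀ δ φ ρ N) {Cp B₀ : ℝ} (hCp : 0 ≤ Cp)
    (hB : 8 ≤ c₀ / 4 * κ * B₀)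
    (hKb : 4 * Cp * Module.finrank ℝ E ≤ (c₀ / 4 * κ * B₀) ^ 2 / 64) :
    ∀ᵐ y ∂ν, T.starProjection y ∈ ball (0 : E) 1 →
      (Cp * FV.tilt T (P y) * rhoLim ρ (T.starProjection y)
        ≤ 1 / 2 * negLim N (T.starProjection y)) ∨
      Bud m Q T ν P η₁ t₀ (Real.log 2 * (16 * B₀ + 2)) (T.starProjection y) := by
  haveI := hC.fin
  haveI := R2.isFinite_nuB hC
  haveI := R2.isFinite_lamB (Q := Q) hC
  haveI : IsFiniteMeasure (lamA T ν) := by
    unfold R2.lamA
    infer_instance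
  have hpl := ODE.CylStat.plane hC
  filter_upwards [hpl.abs_tilt_le (T := T)] with y hy hmem
  have hy' : FV.tilt T (P y) ≤ 2 * Module.finrank ℝ E := by
    have e1 : ODE.tilt T P y = FV.tilt T (P y) := (TH.tilt_agree T P y).symm
    rw [← e1]
    exact (le_abs_self _).trans hy
  have hx : T.starProjection y ∈ Dcen T := by
    refine ⟨T.starProjection_apply_mem y, ?_⟩
    rw [mem_ball_zero_iff] at hmem
    linarith
  have hr0 : 0 ≤ rhoLim ρ (T.starProjection y) := rhoLim_nonneg hT.good _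
  rcases alternative_lim hT hη ht0 hκ0 hκ1 hx hB with h1 | h1
  · left
    have h2 : Cp * FV.tilt T (P y) ≤ 1 / 2 * (4 * Cp * Module.finrank ℝ E) := by
      nlinarith
    calc Cp * FV.tilt T (P y) * rhoLim ρ (T.starProjection y)
        ≤ 1 / 2 * (4 * Cp * Module.finrank ℝ E) * rhoLim ρ (T.starProjection y) := by gcongr
      _ ≤ 1 / 2 * ((c₀ / 4 * κ * B₀) ^ 2 / 64) * rhoLim ρ (T.starProjection y) := by gcongr
      _ ≤ 1 / 2 * negLim N (T.starProjection y) := by
          rw [mul_assoc]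
          gcongr
  · right
    exact h1

end Vale.Agent.P214.GEN
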