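import Vale.Agent.P214.GEN.Top

/-!
# P214, general rate: the parameters of the assembly

`L = log (1/e)`, `δ = (2 L^A)⁻¹`, `t₀ = δ / 16`.
-/

open Set Filter Topology MeasureTheory Metric
open scoped RealInnerProductSpace ENNReal

set_option linter.all false

namespace Vale.Agent.P214.GEN

lemma ev_pow_exp (A m : ℕ) (c : ℝ) {ε : ℝ} (hε : 0 < ε) (b : ℝ) (hb : 0 < b) :
    ∀ᶠ L : ℝ in atTop, c * (32 * L ^ A) ^ m * Real.exp (-(b * L)) ≤ ε := by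
  have h1 : Tendsto (fun L : ℝ => b * L) atTop atTop := tendsto_id.const_mul_atTop hb
  have h2 := ((Real.tendsto_pow_mul_exp_neg_atTop_nhds_zero (A * m)).comp h1).const_mul
    (c * 32 ^ m / b ^ (A * m))
  rw [mul_zero] at h2
  have h3 := (tendsto_order.1 h2).2 ε hε
  filter_upwards [h3] with L hL
  refine le_of_eq_of_le ?_ hL.le
  simp only [Function.comp]
  rw [mul_pow 32, mul_pow b, ← pow_mul]
  field_simp

/-- all smallness conditions for large `L` -/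
lemma ev_params (A m : ℕ) {Ct ε : ℝ} (hCt : 0 < Ct) (hε : 0 < ε) (k : ℝ) :
    ∀ᶠ L : ℝ in atTop, 1 ≤ L ∧ k ≤ L / 2 ∧
      Real.exp (-L) ≤ ε * ((2 * L ^ A)⁻¹ / 16) ^ m ∧
      Ct * Real.exp (-L) ≤ Real.exp (-(L / 2)) * ((2 * L ^ A)⁻¹ / 16) ^ m := by
  filter_upwards [eventually_ge_atTop (1 : ℝ), eventually_ge_atTop (2 * k),
    ev_pow_exp A m 1 hε 1 one_pos, ev_pow_exp A m Ct one_pos (1 / 2) (by norm_num)]
    with L h1 h2 h3 h4
  have hL : 0 < L := by linarith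
  have hLA : 0 < L ^ A := pow_pos hL A
  have e1 : (2 * L ^ A)⁻¹ / 16 = (32 * L ^ A)⁻¹ := by
    rw [div_eq_mul_inv, ← mul_inv]; ring
  have hp : 0 < (32 * L ^ A) ^ m := by positivity
  refine ⟨h1, by linarith, ?_, ?_⟩
  · rw [e1, inv_pow, ← div_eq_mul_inv, le_div_iff₀ hp]
    rw [one_mul, one_mul] at h3
    linarith [h3, mul_comm (Real.exp (-L)) ((32 * L ^ A) ^ m)]
  · rw [e1, inv_pow, ← div_eq_mul_inv, le_div_iff₀ hp]
    have e2 : Real.exp (-L) = Real.exp (-(L / 2)) * Real.exp (-(1 / 2 * L)) := by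
      rw [← Real.exp_add]; congr 1; ring
    rw [e2]
    have h5 : Ct * (Real.exp (-(L / 2)) * Real.exp (-(1 / 2 * L))) * (32 * L ^ A) ^ m
        = Real.exp (-(L / 2)) * (Ct * (32 * L ^ A) ^ m * Real.exp (-(1 / 2 * L))) := by ring
    rw [h5]
    have h6 := Real.exp_pos (-(L / 2))
    nlinarith

variable {E : Type*} [NormedAddCommGroup E] [InnerProductSpace ℝ E] [FiniteDimensional ℝ E]
  [MeasurableSpace E] [BorelSpace E]
variable {m Q : ℕ} {T : Submodule ℝ E} {ν : Measure E} {P : E → E →L[ℝ] E} {x : E}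

/-- lower bound of `v` at the top scale -/
lemma le_vv_top {t e Ct L : ℝ} (ht : 0 < t) (hA : 0 < AA m Q T ν P x t)
    (h1 : t ^ ((m : ℤ) - 2) * AA m Q T ν P x t ≤ Ct * e)
    (h2 : Ct * e ≤ Real.exp (-(L / 2)) * t ^ m) : L / 2 ≤ vv m Q T ν P x t := by
  have h3 := h1.trans h2
  have h4 : AA m Q T ν P x t ≤ Real.exp (-(L / 2)) * t ^ 2 := by
    have hz : 0 < t ^ ((m : ℤ) - 2) := zpow_pos ht _
    have e1 : t ^ m = t ^ ((m : ℤ) - 2) * t ^ 2 := by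
      rw [← zpow_natCast t 2, ← zpow_add₀ ht.ne', ← zpow_natCast t m]
      congr 1; push_cast; ring
    rw [e1, ← mul_assoc, mul_comm (Real.exp _), mul_assoc] at h3
    exact le_of_mul_le_mul_left h3 hz
  unfold vv
  rw [Real.le_log_iff_exp_le (by positivity), le_div_iff₀ hA]
  calc Real.exp (L / 2) * AA m Q T ν P x t
      ≤ Real.exp (L / 2) * (Real.exp (-(L / 2)) * t ^ 2) := by gcongr
    _ = t ^ 2 := by rw [← mul_assoc, ← Real.exp_add, add_neg_cancel, Real.exp_zero, one_mul]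

/-- the final arithmetic -/
lemma final_num {A C9 Cc n : ℕ} (h9 : A ≤ C9) (hc : A * n + A + 2 ≤ Cc) {L L0 : ℝ} (hL : 1 ≤ L)
    (hL0 : L / 4 ≤ L0) :
    (L0 ^ C9)⁻¹ ≤ 4 ^ C9 * (L ^ A)⁻¹ ∧
    ((((2 * L ^ A)⁻¹ / 16)⁻¹) ^ n) * (L0 ^ (Cc - 2))⁻¹ ≤ 32 ^ n * 4 ^ (Cc - 2) * (L ^ A)⁻¹ := by
  have hL' : 0 < L := by linarith
  have hL4 : 0 < L / 4 := by linarith
  have e1 : (2 * L ^ A)⁻¹ / 16 = (32 * L ^ A)⁻¹ := by
    rw [div_eq_mul_inv, ← mul_inv]; ring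
  constructor
  · have h1 : (L0 ^ C9)⁻¹ ≤ ((L / 4) ^ C9)⁻¹ := by gcongr
    refine h1.trans ?_
    rw [div_pow, inv_div]
    rw [div_eq_mul_inv]
    gcongr
  · have h0 : (L0 ^ (Cc - 2))⁻¹ ≤ ((L / 4) ^ (Cc - 2))⁻¹ := by gcongr
    rw [e1, inv_inv]
    refine (mul_le_mul_of_nonneg_left h0 (by positivity)).trans ?_
    rw [div_pow, inv_div, mul_pow, ← pow_mul]
    have h1 : L ^ (A * n) * L ^ A ≤ L ^ (Cc - 2) := by
      rw [← pow_add]
      exact pow_le_pow_right₀ hL (by omega)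
    have h2 : L ^ (A * n) / L ^ (Cc - 2) ≤ (L ^ A)⁻¹ := by
      rw [div_le_iff₀ (by positivity), inv_mul_eq_div, le_div_iff₀ (by positivity)]
      exact h1
    calc 32 ^ n * L ^ (A * n) * (4 ^ (Cc - 2) / L ^ (Cc - 2))
        = 32 ^ n * 4 ^ (Cc - 2) * (L ^ (A * n) / L ^ (Cc - 2)) := by ring
      _ ≤ _ := by gcongr

end Vale.Agent.P214.GEN
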