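import Vale.Agent.P214.GEN.Props

/-!
# P214, general rate: cover and charge (1): the energy of one class in one ball

`exc_half_le`: `exc x (t/2) ≤ 2 t^{m-2} A(x,t)`; `coef_ball`: a class with small tilt;
`coll_ball`: a class with collapse (from the conclusion of `BoxClass`).
-/

open Set Filter Topology MeasureTheory Metric
open scoped RealInnerProductSpace ENNReal

set_option linter.all false

namespace Vale.Agent.P214.GEN

open Vale.Agent.P214.Skel Vale.Agent.P214.EX Vale.Agent.P214.R2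

variable {E : Type*} [NormedAddCommGroup E] [InnerProductSpace ℝ E] [FiniteDimensional ℝ E]
  [MeasurableSpace E] [BorelSpace E]
variable {m Q : ℕ} {T : Submodule ℝ E} {G : Set E} {h : ℝ} {ν : Measure E} {P : E → E →L[ℝ] E}

omit [MeasurableSpace E] [BorelSpace E] in
lemma bsq_eq {x : E} (hx : x ∈ T) (y : E) : ODE.bsq T x y = dist (T.starProjection y) x ^ 2 := by
  have h1 : T.starProjection x = x := Submodule.starProjection_eq_self_iff.2 hx
  unfold ODE.bsq ODE.bx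
  rw [map_sub, h1, dist_eq_norm]

/-- `exc x (t/2) ≤ 2 t^{m-2} A(x,t)` -/
lemma exc_half_le (hC : FV.CylStat m T G h ν P) {x : E} (hx : x ∈ T) {t : ℝ} (ht : 0 < t) :
    exc T ν P x (t / 2) ≤ 2 * (t ^ ((m : ℤ) - 2) * AA m Q T ν P x t) := by
  have hA : ODE.tiltK m T x TH.win P ν t / 2 ≤ AA m Q T ν P x t := le_max_right _ _
  have hz : 0 < t ^ ((m : ℤ) - 2) := zpow_pos ht _
  have h1 : exc T ν P x (t / 2) ≤ t ^ ((m : ℤ) - 2) * ODE.tiltK m T x TH.win P ν t := by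
    unfold ODE.tiltK
    rw [← mul_assoc, ← zpow_add₀ ht.ne',
      show (m : ℤ) - 2 + (2 - (m : ℤ)) = 0 by ring, zpow_zero, one_mul]
    have hmeas : MeasurableSet (cylSet T x (t / 2)) :=
      (measurable_starProjection T) isOpen_ball.measurableSet
    unfold exc
    rw [← integral_indicator hmeas]
    have hnn := tilt_nonneg_ae hC
    refine integral_mono_ae ((integrable_tilt' hC).indicator hmeas) ?_ ?_
    · have h2 : Integrable (fun y => FV.tilt T (P y) * TH.win (ODE.bsq T x y / t ^ 2)) ν := by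
        refine (integrable_tilt' hC).mul_bdd (c := 1) ?_ ?_
        · exact (TH.contDiff_win_two.continuous.comp
            ((ODE.continuous_bsq T x).div_const _)).aestronglyMeasurable
        · refine Eventually.of_forall fun y => ?_
          rw [Real.norm_of_nonneg (TH.win_nonneg _)]
          exact TH.win_le_one _
      refine h2.congr (Eventually.of_forall fun y => ?_)
      show FV.tilt T (P y) * _ = _ * ODE.tilt T P y
      rw [← TH.tilt_agree, mul_comm]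
    · filter_upwards [hnn] with y hy
      show (cylSet T x (t / 2)).indicator (fun y => FV.tilt T (P y)) y
        ≤ TH.win (ODE.bsq T x y / t ^ 2) * ODE.tilt T P y
      rw [← TH.tilt_agree]
      by_cases hmem : y ∈ cylSet T x (t / 2)
      · rw [indicator_of_mem hmem, TH.win_one, one_mul]
        have h3 : dist (T.starProjection y) x < t / 2 := hmem
        rw [bsq_eq hx, div_le_iff₀ (by positivity)]
        have h4 := dist_nonneg (x := T.starProjection y) (y := x)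
        nlinarith
      · rw [indicator_of_notMem hmem]
        exact mul_nonneg (TH.win_nonneg _) hy
  calc exc T ν P x (t / 2) ≤ t ^ ((m : ℤ) - 2) * ODE.tiltK m T x TH.win P ν t := h1
    _ = 2 * (t ^ ((m : ℤ) - 2) * (ODE.tiltK m T x TH.win P ν t / 2)) := by ring
    _ ≤ _ := by gcongr

lemma AA_nonneg (hC : FV.CylStat m T G h ν P) (x : E) {t : ℝ} (ht : 0 < t) :
    0 ≤ AA m Q T ν P x t := by
  refine le_trans ?_ (le_max_right _ _)
  refine div_nonneg (mul_nonneg (zpow_nonneg ht.le _) (integral_nonneg_of_ae ?_)) (by norm_num)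
  filter_upwards [tilt_nonneg_ae hC] with y hy
  rw [TH.tilt_agree] at hy
  exact mul_nonneg (TH.win_nonneg _) hy

/-- `v ≥ 1` gives `A > 0` -/
lemma AA_pos_of_vv (hC : FV.CylStat m T G h ν P) {x : E} {t : ℝ} (ht : 0 < t)
    (hv : 1 ≤ vv m Q T ν P x t) : 0 < AA m Q T ν P x t := by
  rcases (AA_nonneg (Q := Q) hC x ht).eq_or_lt with h0 | h0
  · exfalso
    unfold vv at hv
    rw [← h0, div_zero, Real.log_zero] at hv
    linarith
  · exact h0

lemma AA_eq (hC : FV.CylStat m T G h ν P) {x : E} {t : ℝ} (ht : 0 < t)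
    (hv : 1 ≤ vv m Q T ν P x t) :
    AA m Q T ν P x t = t ^ 2 * Real.exp (-(vv m Q T ν P x t)) := by
  have hA := AA_pos_of_vv hC ht hv
  unfold vv
  rw [Real.exp_neg, Real.exp_log (by positivity)]
  field_simp

lemma exc_eq_lintegral (hC : FV.CylStat m T G h ν P) (x : E) (s : ℝ) :
    ENNReal.ofReal (exc T ν P x s) = ∫⁻ y in cylSet T x s, ENNReal.ofReal (FV.tilt T (P y)) ∂ν := by
  unfold exc
  rw [ofReal_integral_eq_lintegral_ofReal (integrable_tilt' hC).integrableOn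
    (ae_restrict_of_ae (tilt_nonneg_ae hC))]

/-- a set of points with small tilt over a ball -/
lemma coef_ball (hC : FV.CylStat m T G h ν P) {S : Set E} {p : E} (hp : p ∈ T) {t Cp b : ℝ}
    (ht : 0 < t) (hCp : 0 ≤ Cp) (hb : 0 ≤ b) (hS : ∀ y ∈ S, FV.tilt T (P y) ≤ b)
    {B : Set E} (hB : B ⊆ ball p (t / 2)) :
    ∫⁻ y in S ∩ T.starProjection ⁻¹' B, ENNReal.ofReal (Cp * FV.tilt T (P y) ^ 2) ∂ν
      ≤ ENNReal.ofReal (2 * Cp * b * (t ^ ((m : ℤ) - 2) * AA m Q T ν P p t)) := by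
  have hae : AEMeasurable (fun y => ENNReal.ofReal (FV.tilt T (P y))) ν :=
    (aemeas_tilt hC).ennreal_ofReal
  have h1 : ∫⁻ y in S ∩ T.starProjection ⁻¹' B, ENNReal.ofReal (Cp * FV.tilt T (P y) ^ 2) ∂ν
      ≤ ∫⁻ y in S ∩ T.starProjection ⁻¹' B,
        ENNReal.ofReal (Cp * b) * ENNReal.ofReal (FV.tilt T (P y)) ∂ν := by
    refine setLIntegral_mono_ae (hae.const_mul _).restrict ?_
    filter_upwards [tilt_nonneg_ae hC] with y hy hyS
    rw [← ENNReal.ofReal_mul (by positivity)]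
    apply ENNReal.ofReal_le_ofReal
    have := hS y hyS.1
    calc Cp * FV.tilt T (P y) ^ 2 = Cp * (FV.tilt T (P y) * FV.tilt T (P y)) := by ring
      _ ≤ Cp * (b * FV.tilt T (P y)) := by gcongr
      _ = _ := by ring
  have h2 : ∫⁻ y in S ∩ T.starProjection ⁻¹' B,
        ENNReal.ofReal (Cp * b) * ENNReal.ofReal (FV.tilt T (P y)) ∂ν
      ≤ ∫⁻ y in cylSet T p (t / 2),
        ENNReal.ofReal (Cp * b) * ENNReal.ofReal (FV.tilt T (P y)) ∂ν := by
    refine lintegral_mono' (Measure.restrict_mono ?_ le_rfl) le_rfl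
    exact fun y hy => hB hy.2
  refine (h1.trans h2).trans ?_
  rw [lintegral_const_mul' _ _ ENNReal.ofReal_ne_top, ← exc_eq_lintegral hC,
    ← ENNReal.ofReal_mul (by positivity)]
  apply ENNReal.ofReal_le_ofReal
  have h3 := exc_half_le (Q := Q) hC hp ht
  calc Cp * b * exc T ν P p (t / 2)
      ≤ Cp * b * (2 * (t ^ ((m : ℤ) - 2) * AA m Q T ν P p t)) := by gcongr
    _ = _ := by ring

/-- the conclusion of `BoxClass` -/
def ClassEst (m Q : ℕ) (T : Submodule ℝ E) (ν : Measure E) (P : E → E →L[ℝ] E) (C9 Cc Ca k₀ : ℕ)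
    (c C : ℝ) : Prop :=
  ∀ (T₁ : ℝ) (k l : ℕ) (S : Set E), 0 < T₁ → T₁ ≤ 1 / 16 → k₀ ≤ k →
    (∀ x ∈ S, x ∈ T ∧ ‖x‖ ≤ 1 ∧ 0 < AA m Q T ν P x T₁ ∧ ⌊vv m Q T ν P x T₁⌋₊ = k ∧
      ∃ ra, T₁ / 2 ^ (l + 1) < ra ∧ ra ≤ T₁ / 2 ^ l ∧ Coll m Q T ν P Ca x T₁ ra) →
    ∀ p ∈ S, ∫⁻ y in {y | T.starProjection y ∈ S ∩ ball p (c * T₁) ∧
        ((k : ℝ) ^ C9)⁻¹ ≤ FV.tilt T (P y)}, ENNReal.ofReal (FV.tilt T (P y)) ∂ν
      ≤ ENNReal.ofReal (C * ((k : ℝ) ^ Cc)⁻¹ * (T₁ ^ ((m : ℤ) - 2) * AA m Q T ν P p T₁))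

/-- a set of points with large tilt and collapse over a ball -/
lemma coll_ball (hC : FV.CylStat m T G h ν P) {C9 Cc Ca k₀ : ℕ} {c C : ℝ}
    (hcl : ClassEst m Q T ν P C9 Cc Ca k₀ c C) {T₁ : ℝ} {k l : ℕ} {S : Set E} (hT₁ : 0 < T₁)
    (hT₁' : T₁ ≤ 1 / 16) (hk : k₀ ≤ k) (hCc : 0 ≤ C)
    (hS : ∀ x ∈ S, x ∈ T ∧ ‖x‖ ≤ 1 ∧ 0 < AA m Q T ν P x T₁ ∧ ⌊vv m Q T ν P x T₁⌋₊ = k ∧
      ∃ ra, T₁ / 2 ^ (l + 1) < ra ∧ ra ≤ T₁ / 2 ^ l ∧ Coll m Q T ν P Ca x T₁ ra)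
    {Cl : Set E} (hCl : ∀ y ∈ Cl, T.starProjection y ∈ S ∧ ((k : ℝ) ^ C9)⁻¹ ≤ FV.tilt T (P y))
    {p : E} (hp : p ∈ S) {B : Set E} (hB : B ⊆ ball p (c * T₁)) {Cp : ℝ} (hCp : 0 ≤ Cp) :
    ∫⁻ y in Cl ∩ T.starProjection ⁻¹' B, ENNReal.ofReal (Cp * FV.tilt T (P y) ^ 2) ∂ν
      ≤ ENNReal.ofReal (Cp * m * C * ((k : ℝ) ^ Cc)⁻¹ *
        (T₁ ^ ((m : ℤ) - 2) * AA m Q T ν P p T₁)) := by
  have hae : AEMeasurable (fun y => ENNReal.ofReal (FV.tilt T (P y))) ν :=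
    (aemeas_tilt hC).ennreal_ofReal
  have h1 : ∫⁻ y in Cl ∩ T.starProjection ⁻¹' B, ENNReal.ofReal (Cp * FV.tilt T (P y) ^ 2) ∂ν
      ≤ ∫⁻ y in Cl ∩ T.starProjection ⁻¹' B,
        ENNReal.ofReal (Cp * m) * ENNReal.ofReal (FV.tilt T (P y)) ∂ν := by
    refine lintegral_mono_ae (ae_restrict_of_ae ?_)
    filter_upwards [tilt_nonneg_ae hC, tilt_le_ae hC] with y hy hy2
    rw [← ENNReal.ofReal_mul (by positivity)]
    apply ENNReal.ofReal_le_ofReal
    calc Cp * FV.tilt T (P y) ^ 2 = Cp * (FV.tilt T (P y) * FV.tilt T (P y)) := by ring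
      _ ≤ Cp * (m * FV.tilt T (P y)) := by gcongr
      _ = _ := by ring
  have h2 : ∫⁻ y in Cl ∩ T.starProjection ⁻¹' B,
        ENNReal.ofReal (Cp * m) * ENNReal.ofReal (FV.tilt T (P y)) ∂ν
      ≤ ENNReal.ofReal (Cp * m) * ∫⁻ y in {y | T.starProjection y ∈ S ∩ ball p (c * T₁) ∧
        ((k : ℝ) ^ C9)⁻¹ ≤ FV.tilt T (P y)}, ENNReal.ofReal (FV.tilt T (P y)) ∂ν := by
    rw [lintegral_const_mul' _ _ ENNReal.ofReal_ne_top]
    gcongr
    exact fun y hy => ⟨⟨(hCl y hy.1).1, hB hy.2⟩, (hCl y hy.1).2⟩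
  refine (h1.trans h2).trans ?_
  have h3 := hcl T₁ k l S hT₁ hT₁' hk hS p hp
  calc ENNReal.ofReal (Cp * m) * _ ≤ ENNReal.ofReal (Cp * m) *
        ENNReal.ofReal (C * ((k : ℝ) ^ Cc)⁻¹ * (T₁ ^ ((m : ℤ) - 2) * AA m Q T ν P p T₁)) := by
        gcongr
    _ = _ := by
        rw [← ENNReal.ofReal_mul (by positivity)]
        congr 1
        ring

end Vale.Agent.P214.GEN
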