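import Vale.Agent.P214.GEN.ChargeA
import Vale.Agent.P214.COMP.Cyl

/-!
# P214, general rate: cover and charge (2): the classes with an event

`ClsK i k` : points with small tilt and an event at level `i`, `⌊v⌋ = k`;
`ClsL i k l`: points with tilt `≥ k^{-C9}`, an event at level `i` and a collapse at the scale
`∼ 2^{-l} T_i`.  `cls_charge`: the hypothesis of `COMP.comp_cyl` for these classes.
-/

open Set Filter Topology MeasureTheory Metric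
open scoped RealInnerProductSpace ENNReal

set_option linter.all false

namespace Vale.Agent.P214.GEN

open Vale.Agent.P214.Skel Vale.Agent.P214.EX Vale.Agent.P214.R2

variable {E : Type*} [NormedAddCommGroup E] [InnerProductSpace ℝ E] [FiniteDimensional ℝ E]
  [MeasurableSpace E] [BorelSpace E]
variable {m Q : ℕ} {T : Submodule ℝ E} {G : Set E} {h : ℝ} {ν : Measure E} {P : E → E →L[ℝ] E}

/-- the alternative at a point of the varifold -/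
def AltPt (m Q : ℕ) (T : Submodule ℝ E) (ν : Measure E) (P : E → E →L[ℝ] E) (t₀ : ℝ)
    (ρ N : ℕ → E → ℝ) (Cd C9 Ca k₀ : ℕ) (cd : ℝ) (y : E) : Prop :=
  ∃ i : ℕ, (i = 0 ∨ Ev m Q T ν P t₀ ρ N Cd (T.starProjection y) i) ∧
    (k₀ : ℝ) ≤ vv m Q T ν P (T.starProjection y) (t₀ / 2 ^ i) ∧
    (cd * FV.tilt T (P y) ≤ (vv m Q T ν P (T.starProjection y) (t₀ / 2 ^ i) ^ C9)⁻¹ ∨
      ∃ ra, Coll m Q T ν P Ca (T.starProjection y) (t₀ / 2 ^ i) ra)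

/-- points with small tilt and an event at level `i` -/
def ClsK (m Q : ℕ) (T : Submodule ℝ E) (ν : Measure E) (P : E → E →L[ℝ] E) (t₀ : ℝ)
    (ρ N : ℕ → E → ℝ) (Cd C9 : ℕ) (cd : ℝ) (i k : ℕ) : Set E :=
  {y | ‖T.starProjection y‖ < 1 ∧ Ev m Q T ν P t₀ ρ N Cd (T.starProjection y) i ∧
    ⌊vv m Q T ν P (T.starProjection y) (t₀ / 2 ^ i)⌋₊ = k ∧
    FV.tilt T (P y) ≤ ((k : ℝ) ^ C9)⁻¹ / cd}

/-- points with large tilt, a collapse and an event at level `i` -/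
def ClsL (m Q : ℕ) (T : Submodule ℝ E) (ν : Measure E) (P : E → E →L[ℝ] E) (t₀ : ℝ)
    (ρ N : ℕ → E → ℝ) (Cd C9 Ca : ℕ) (i k l : ℕ) : Set E :=
  {y | ‖T.starProjection y‖ < 1 ∧ Ev m Q T ν P t₀ ρ N Cd (T.starProjection y) i ∧
    ⌊vv m Q T ν P (T.starProjection y) (t₀ / 2 ^ i)⌋₊ = k ∧
    ((k : ℝ) ^ C9)⁻¹ ≤ FV.tilt T (P y) ∧
    ∃ ra, t₀ / 2 ^ i / 2 ^ (l + 1) < ra ∧ ra ≤ t₀ / 2 ^ i / 2 ^ l ∧
      Coll m Q T ν P Ca (T.starProjection y) (t₀ / 2 ^ i) ra}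

/-- the class of index `(i, k, l')` -/
def Cls (m Q : ℕ) (T : Submodule ℝ E) (ν : Measure E) (P : E → E →L[ℝ] E) (t₀ : ℝ)
    (ρ N : ℕ → E → ℝ) (Cd C9 Ca k₀ D : ℕ) (cd : ℝ) (a : ℕ × ℕ × ℕ) : Set E :=
  {y | (k₀ ≤ a.2.1 ∧ a.2.2 < D * a.2.1) ∧
    ((a.2.2 = 0 ∧ y ∈ ClsK m Q T ν P t₀ ρ N Cd C9 cd a.1 a.2.1) ∨
      ∃ l, a.2.2 = l + 1 ∧ y ∈ ClsL m Q T ν P t₀ ρ N Cd C9 Ca a.1 a.2.1 l)}

/-- the size of a charge -/
noncomputable def chg (k₀ D : ℕ) (A' : ℝ) (a : ℕ × ℕ × ℕ) : ℝ≥0∞ :=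
  if k₀ ≤ a.2.1 ∧ a.2.2 < D * a.2.1 then ENNReal.ofReal (A' * ((a.2.1 : ℝ) ^ 8)⁻¹) else 0

/-- the threshold of the gap set -/
noncomputable def gth (Cd : ℕ) (a : ℕ × ℕ × ℕ) : ℝ :=
  if 1 ≤ a.2.1 then (4 * ((Cd * a.2.1 : ℕ) : ℝ) ^ 4)⁻¹ else 1

lemma gth_pos {Cd : ℕ} (hCd : 1 ≤ Cd) (a : ℕ × ℕ × ℕ) : 0 < gth Cd a := by
  unfold gth
  split_ifs with h1
  · have : 0 < Cd * a.2.1 := Nat.mul_pos hCd h1
    have : (0 : ℝ) < ((Cd * a.2.1 : ℕ) : ℝ) := by exact_mod_cast this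
    positivity
  · exact one_pos

/-- passing to the gap energy -/
lemma to_gap {B₀ A' X : ℝ} {n k : ℕ} {Nν : ℝ≥0∞} (hB : B₀ ≤ A') (hA' : 0 ≤ A') (hX : 0 ≤ X)
    (hn : 11 ≤ n) (hk : 1 ≤ k) (hN : ENNReal.ofReal (((k : ℝ) ^ 3)⁻¹ * X) ≤ Nν) :
    ENNReal.ofReal (B₀ * ((k : ℝ) ^ n)⁻¹ * X) ≤ ENNReal.ofReal (A' * ((k : ℝ) ^ 8)⁻¹) * Nν := by
  have hk' : (1 : ℝ) ≤ k := by exact_mod_cast hk
  calc ENNReal.ofReal (B₀ * ((k : ℝ) ^ n)⁻¹ * X)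
      ≤ ENNReal.ofReal (A' * ((k : ℝ) ^ 8)⁻¹ * (((k : ℝ) ^ 3)⁻¹ * X)) := by
        apply ENNReal.ofReal_le_ofReal
        have h1 : ((k : ℝ) ^ n)⁻¹ ≤ ((k : ℝ) ^ 11)⁻¹ := by gcongr
        have h2 : ((k : ℝ) ^ 11)⁻¹ = ((k : ℝ) ^ 8)⁻¹ * ((k : ℝ) ^ 3)⁻¹ := by
          rw [← mul_inv, ← pow_add]
        calc B₀ * ((k : ℝ) ^ n)⁻¹ * X ≤ A' * ((k : ℝ) ^ 11)⁻¹ * X := by gcongr
          _ = _ := by rw [h2]; ring
    _ = ENNReal.ofReal (A' * ((k : ℝ) ^ 8)⁻¹) * ENNReal.ofReal (((k : ℝ) ^ 3)⁻¹ * X) :=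
        ENNReal.ofReal_mul (by positivity)
    _ ≤ _ := by gcongr

/-- **The classes satisfy the hypothesis of the compensation.** -/
theorem cls_charge (hC : FV.CylStat m T G h ν P) {t₀ : ℝ} {ρ N : ℕ → E → ℝ}
    {Cd C9 Ca Cc k₀ D : ℕ} {cd c c' C Cp A' : ℝ} (ht₀ : 0 < t₀) (ht₀' : t₀ ≤ 1 / 16)
    (hcd : 0 < cd) (hk₀ : 1 ≤ k₀) (hc' : c' ≤ 1 / 2) (hc'c : c' ≤ c) (hCp : 0 ≤ Cp) (hC0 : 0 ≤ C)
    (hC9 : 11 ≤ C9) (hCc : 11 ≤ Cc) (hcl : ClassEst m Q T ν P C9 Cc Ca k₀ c C)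
    (hA1 : 2 * Cp / cd ≤ A') (hA2 : Cp * m * C ≤ A') (a : ℕ × ℕ × ℕ) {z : E}
    (hz : z ∈ Cls m Q T ν P t₀ ρ N Cd C9 Ca k₀ D cd a) :
    ∫⁻ y in Cls m Q T ν P t₀ ρ N Cd C9 Ca k₀ D cd a ∩ T.starProjection ⁻¹'
        ball (T.starProjection z) (c' * (t₀ / 2 ^ a.1)), ENNReal.ofReal (Cp * FV.tilt T (P y) ^ 2) ∂ν
      ≤ chg k₀ D A' a * nuB T ν P (closedBall (T.starProjection z) (2 * (t₀ / 2 ^ a.1)) ∩
        COMP.Gap ρ N a.1 (Cd * a.2.1) (gth Cd a)) := by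
  obtain ⟨i, k, l'⟩ := a
  simp only at hz ⊢
  obtain ⟨hcond, hz'⟩ := hz
  simp only at hcond hz'
  have hk1 : 1 ≤ k := hk₀.trans hcond.1
  have hTpos : 0 < t₀ / 2 ^ i := by positivity
  have hTle : t₀ / 2 ^ i ≤ 1 / 16 := by
    refine le_trans (div_le_self ht₀.le ?_) ht₀'
    exact one_le_pow₀ (by norm_num)
  have hchg : chg k₀ D A' (i, k, l') = ENNReal.ofReal (A' * ((k : ℝ) ^ 8)⁻¹) := by
    unfold chg; simp only; rw [if_pos hcond]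
  have hgth : gth Cd (i, k, l') = (4 * ((Cd * k : ℕ) : ℝ) ^ 4)⁻¹ := by
    unfold gth; simp only; rw [if_pos hk1]
  rw [hchg, hgth]
  have hA' : 0 ≤ A' := le_trans (by positivity) hA2
  have hX : 0 ≤ (t₀ / 2 ^ i) ^ ((m : ℤ) - 2) *
      AA m Q T ν P (T.starProjection z) (t₀ / 2 ^ i) :=
    mul_nonneg (zpow_nonneg hTpos.le _) (AA_nonneg hC _ hTpos)
  have hpT : T.starProjection z ∈ T := Submodule.starProjection_apply_mem T z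
  rcases hz' with ⟨h0, hzK⟩ | ⟨l, hl, hzL⟩
  · obtain ⟨-, hev, hfl, -⟩ := hzK
    unfold Ev at hev
    rw [hfl] at hev
    have hsub : Cls m Q T ν P t₀ ρ N Cd C9 Ca k₀ D cd (i, k, l') ⊆
        ClsK m Q T ν P t₀ ρ N Cd C9 cd i k := by
      rintro y ⟨-, hy⟩
      rcases hy with ⟨-, hy⟩ | ⟨l, hl, -⟩
      · exact hy
      · simp only at hl; omega
    have h1 := coef_ball (Q := Q) hC (S := ClsK m Q T ν P t₀ ρ N Cd C9 cd i k) (p := T.starProjection z)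
      (b := ((k : ℝ) ^ C9)⁻¹ / cd) hpT hTpos hCp (by positivity) (fun y hy => hy.2.2.2)
      (B := ball (T.starProjection z) (c' * (t₀ / 2 ^ i)))
      (ball_subset_ball (by nlinarith))
    refine (lintegral_mono' (Measure.restrict_mono (inter_subset_inter_left _ hsub) le_rfl)
      le_rfl).trans (h1.trans ?_)
    rw [show 2 * Cp * (((k : ℝ) ^ C9)⁻¹ / cd) = 2 * Cp / cd * ((k : ℝ) ^ C9)⁻¹ by ring]
    exact to_gap hA1 hA' hX hC9 hk1 hev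
  · have hzL' := hzL
    obtain ⟨-, hev, hfl, -⟩ := hzL
    unfold Ev at hev
    rw [hfl] at hev
    have hsub : Cls m Q T ν P t₀ ρ N Cd C9 Ca k₀ D cd (i, k, l') ⊆
        ClsL m Q T ν P t₀ ρ N Cd C9 Ca i k l := by
      rintro y ⟨-, hy⟩
      rcases hy with ⟨h0, -⟩ | ⟨l2, hl2, hy⟩
      · simp only at h0; omega
      · simp only at hl2 hy
        have : l2 = l := by omega
        subst this
        exact hy
    set S : Set E := T.starProjection '' ClsL m Q T ν P t₀ ρ N Cd C9 Ca i k l with hS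
    have hSprop : ∀ x ∈ S, x ∈ T ∧ ‖x‖ ≤ 1 ∧ 0 < AA m Q T ν P x (t₀ / 2 ^ i) ∧
        ⌊vv m Q T ν P x (t₀ / 2 ^ i)⌋₊ = k ∧
        ∃ ra, t₀ / 2 ^ i / 2 ^ (l + 1) < ra ∧ ra ≤ t₀ / 2 ^ i / 2 ^ l ∧
          Coll m Q T ν P Ca x (t₀ / 2 ^ i) ra := by
      rintro _ ⟨y, ⟨hy1, -, hy3, -, hy5⟩, rfl⟩
      refine ⟨Submodule.starProjection_apply_mem T y, hy1.le, ?_, hy3, hy5⟩
      refine AA_pos_of_vv hC hTpos ?_
      have h2 : (k : ℝ) ≤ vv m Q T ν P (T.starProjection y) (t₀ / 2 ^ i) := by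
        have h3 : 0 < ⌊vv m Q T ν P (T.starProjection y) (t₀ / 2 ^ i)⌋₊ := by omega
        rw [← hy3]
        exact Nat.floor_le (Nat.pos_of_floor_pos h3).le
      have : (1 : ℝ) ≤ k := by exact_mod_cast hk1
      linarith
    have h1 := coll_ball (Q := Q) hC hcl hTpos hTle hcond.1 hC0 hSprop
      (Cl := ClsL m Q T ν P t₀ ρ N Cd C9 Ca i k l)
      (fun y hy => ⟨mem_image_of_mem _ hy, hy.2.2.2.1⟩)
      (p := T.starProjection z) (mem_image_of_mem _ hzL')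
      (B := ball (T.starProjection z) (c' * (t₀ / 2 ^ i)))
      (ball_subset_ball (by gcongr)) hCp
    refine (lintegral_mono' (Measure.restrict_mono (inter_subset_inter_left _ hsub) le_rfl)
      le_rfl).trans (h1.trans ?_)
    exact to_gap hA2 hA' hX hCc hk1 hev

/-- **The charges to one level.** -/
theorem chg_sum {k₀ D Cd : ℕ} (hk₀ : 1 ≤ k₀) (hCd : 1 ≤ Cd) (hD : Cd ≤ D) {A' : ℝ} (hA' : 0 ≤ A')
    (j : ℕ) :
    (∑' a : ℕ × ℕ × ℕ, if a.1 ≤ j ∧ j < a.1 + Cd * a.2.1 then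
      chg k₀ D A' a / ENNReal.ofReal (gth Cd a) else 0)
      ≤ ENNReal.ofReal (4 * A' * Cd ^ 4 * D ^ 2 * (2 / k₀)) := by
  have hCd' : (1 : ℝ) ≤ Cd := by exact_mod_cast hCd
  refine le_trans (ENNReal.tsum_le_tsum fun a => ?_)
    (COMP.charge_sum D k₀ hk₀ (A := 4 * A' * Cd ^ 4) (by positivity) j)
  obtain ⟨i, k, l⟩ := a
  simp only
  by_cases h1 : i ≤ j ∧ j < i + Cd * k
  · have h2 : i ≤ j ∧ j < i + D * k := ⟨h1.1, h1.2.trans_le (by gcongr)⟩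
    rw [if_pos h1, if_pos h2]
    unfold chg
    simp only
    by_cases h3 : k₀ ≤ k ∧ l < D * k
    · rw [if_pos h3, if_pos h3]
      have hk1 : 1 ≤ k := hk₀.trans h3.1
      have hk' : (1 : ℝ) ≤ k := by exact_mod_cast hk1
      have hg : gth Cd (i, k, l) = (4 * ((Cd * k : ℕ) : ℝ) ^ 4)⁻¹ := by
        unfold gth; simp only; rw [if_pos hk1]
      rw [hg, ← ENNReal.ofReal_div_of_pos (by positivity)]
      apply ENNReal.ofReal_le_ofReal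
      apply le_of_eq
      push_cast
      field_simp
    · rw [if_neg h3, if_neg h3]
      simp
  · rw [if_neg h1]
    exact zero_le

end Vale.Agent.P214.GEN
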