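import Vale.Agent.P214.GEN.Props
import Vale.Agent.P214.CAPF.Event2

/-!
# P214, general rate: from the gap points of one scale to an event

`lintegral_le_nuB`: the tilt energy of a measurable set `W ⊆ cylSet T 0 2` whose points project
a.e. into `D` is at most `nuB D`;
`ev_of_gap`: if almost all points of the gap set over `|x| < t` project to `Gap` and the gap set
carries the energy `θ A(t) / C₀`, then `Ev` holds at the level `i` (`c₁ T_i ≤ t ≤ 2 T_i`).
-/

open Set Filter Topology MeasureTheory Metric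
open scoped RealInnerProductSpace ENNReal

set_option linter.all false

namespace Vale.Agent.P214.GEN

open Vale.Agent.P214.Skel Vale.Agent.P214.EX Vale.Agent.P214.R2

variable {E : Type*} [NormedAddCommGroup E] [InnerProductSpace ℝ E] [FiniteDimensional ℝ E]
  [MeasurableSpace E] [BorelSpace E]

variable {m Q : ℕ} {T : Submodule ℝ E} {G : Set E} {h : ℝ} {ν : Measure E} {P : E → E →L[ℝ] E}

/-- the energy of a set over `D` is at most `nuB D` -/
lemma lintegral_le_nuB {W D : Set E} (hW : MeasurableSet W) (hWc : W ⊆ cylSet T 0 2)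
    (hD : ∀ᵐ y ∂ν, y ∈ W → T.starProjection y ∈ D) :
    ∫⁻ y in W, ENNReal.ofReal (FV.tilt T (P y)) ∂ν ≤ nuB T ν P D := by
  unfold nuB
  have h1 := Measure.le_map_apply (μ := (ν.restrict (cylSet T 0 2)).withDensity
    fun y => ENNReal.ofReal (FV.tilt T (P y))) (measurable_starProjection T).aemeasurable D
  refine le_trans ?_ h1
  refine le_trans ?_ (withDensity_apply_le _ _)
  have h2 : ν.restrict W ≤ (ν.restrict (cylSet T 0 2)).restrict (T.starProjection ⁻¹' D) := by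
    have h3 : ν.restrict W = (ν.restrict (cylSet T 0 2)).restrict W := by
      rw [Measure.restrict_restrict hW, inter_eq_left.2 hWc]
    rw [h3]
    refine Measure.restrict_mono' ?_ le_rfl
    have h4 := ae_restrict_of_ae (s := cylSet T 0 2) hD
    filter_upwards [h4] with y hy hyW
    exact hy hyW
  exact lintegral_mono' h2 le_rfl

/-- the same with a real integral on the left -/
lemma ofReal_setIntegral_le_nuB (hC : FV.CylStat m T G h ν P) {W D : Set E}
    (hW : MeasurableSet W) (hWc : W ⊆ cylSet T 0 2)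
    (hD : ∀ᵐ y ∂ν, y ∈ W → T.starProjection y ∈ D) :
    ENNReal.ofReal (∫ y in W, FV.tilt T (P y) ∂ν) ≤ nuB T ν P D := by
  refine le_trans (le_of_eq ?_) (lintegral_le_nuB hW hWc hD)
  refine ofReal_integral_eq_lintegral_ofReal (integrable_tilt' hC).integrableOn ?_
  exact ae_restrict_of_ae (tilt_nonneg_ae hC)

/-- **From gap points to an event.** -/
theorem ev_of_gap (hC : FV.CylStat m T G h ν P) (hm : 1 ≤ m) {t₀ : ℝ} {ρ N : ℕ → E → ℝ} {Cd : ℕ}
    {x : E} {i : ℕ} {t c₁ J C₀ θ : ℝ} {W : Set E} (ht₀ : 0 < t₀) (hx : ‖x‖ ≤ 1) (hxT : x ∈ T)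
    (ht1 : t ≤ 1) (hc₁ : 0 < c₁) (ht : c₁ * (t₀ / 2 ^ i) ≤ t) (ht2 : t ≤ 2 * (t₀ / 2 ^ i))
    (hJ0 : 0 ≤ J) (hC₀ : 0 < C₀) (hθ : 0 ≤ θ)
    (hJ : AA m Q T ν P x (t₀ / 2 ^ i) ≤ J * AA m Q T ν P x t)
    (hW : MeasurableSet W) (hWb : ∀ y ∈ W, ODE.bsq T x y < t ^ 2)
    (hgap : ∀ᵐ y ∂ν, y ∈ W → T.starProjection y ∈
      COMP.Gap ρ N i (Cd * ⌊vv m Q T ν P x (t₀ / 2 ^ i)⌋₊)
        (4 * ((Cd * ⌊vv m Q T ν P x (t₀ / 2 ^ i)⌋₊ : ℕ) : ℝ) ^ 4)⁻¹)
    (hen : θ * AA m Q T ν P x t ≤ C₀ * (t ^ (2 - (m : ℤ)) * ∫ y in W, ODE.tilt T P y ∂ν))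
    (hk : C₀ * (2 * J) ≤ θ * c₁ ^ (m - 2) * ((⌊vv m Q T ν P x (t₀ / 2 ^ i)⌋₊ : ℕ) : ℝ) ^ 3) :
    Ev m Q T ν P t₀ ρ N Cd x i := by
  set Ti : ℝ := t₀ / 2 ^ i with hTi
  have hTi0 : 0 < Ti := by positivity
  have ht0 : 0 < t := lt_of_lt_of_le (by positivity) ht
  set k : ℕ := ⌊vv m Q T ν P x Ti⌋₊ with hkdef
  have hWc : W ⊆ cylSet T 0 2 := by
    intro y hy
    have h1 := hWb y hy
    show T.starProjection y ∈ ball (0 : E) 2
    rw [mem_ball_zero_iff]
    have h2 : ODE.bsq T x y = ‖T.starProjection y - x‖ ^ 2 := by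
      unfold ODE.bsq ODE.bx
      rw [map_sub, Submodule.starProjection_eq_self_iff.2 hxT]
    rw [h2] at h1
    have h3 : ‖T.starProjection y - x‖ < 1 := by
      have h4 := lt_of_pow_lt_pow_left₀ 2 ht0.le h1
      linarith
    calc ‖T.starProjection y‖ = ‖(T.starProjection y - x) + x‖ := by congr 1; abel
      _ ≤ ‖T.starProjection y - x‖ + ‖x‖ := norm_add_le _ _
      _ < 2 := by linarith
  have hmain := ofReal_setIntegral_le_nuB (P := P) hC hW hWc (D := closedBall x (2 * Ti) ∩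
      COMP.Gap ρ N i (Cd * k) (4 * ((Cd * k : ℕ) : ℝ) ^ 4)⁻¹) (by
    filter_upwards [hgap] with y hy hyW
    refine ⟨?_, hy hyW⟩
    have h1 := hWb y hyW
    have h2 : ODE.bsq T x y = ‖T.starProjection y - x‖ ^ 2 := by
      unfold ODE.bsq ODE.bx
      rw [map_sub, Submodule.starProjection_eq_self_iff.2 hxT]
    rw [h2] at h1
    have h4 := lt_of_pow_lt_pow_left₀ 2 ht0.le h1
    rw [mem_closedBall, dist_eq_norm]
    linarith)
  unfold Ev
  rw [← hTi, ← hkdef]
  refine le_trans (ENNReal.ofReal_le_ofReal ?_) hmain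
  have htilt : ∫ y in W, ODE.tilt T P y ∂ν = ∫ y in W, FV.tilt T (P y) ∂ν := by
    refine integral_congr_ae (Eventually.of_forall fun y => ?_)
    exact (TH.tilt_agree T P y).symm
  rw [htilt] at hen
  set I := ∫ y in W, FV.tilt T (P y) ∂ν with hI
  -- powers
  set Z : ℝ := Ti ^ ((m : ℤ) - 2) with hZ
  set z : ℝ := t ^ ((m : ℤ) - 2) with hz
  have hZ0 : 0 < Z := zpow_pos hTi0 _
  have hz0 : 0 < z := zpow_pos ht0 _
  have hz2 : t ^ (2 - (m : ℤ)) = z⁻¹ := by
    rw [hz, ← zpow_neg]; congr 1; ring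
  rw [hz2] at hen
  have hpow : c₁ ^ (m - 2) * Z ≤ 2 * z := by
    rcases Nat.lt_or_ge m 2 with h2 | h2
    · have hm1 : m = 1 := by omega
      subst hm1
      have e1 : ((1 : ℕ) : ℤ) - 2 = -1 := by norm_num
      rw [hZ, hz, e1, zpow_neg_one, zpow_neg_one]
      have e2 : c₁ ^ (1 - 2) = 1 := by norm_num
      rw [e2, one_mul, ← div_eq_mul_inv, le_div_iff₀ ht0, inv_mul_le_iff₀ hTi0]
      linarith
    · have e1 : Z = Ti ^ (m - 2) := by
        rw [hZ, ← zpow_natCast]; congr 1; push_cast [Nat.cast_sub h2]; ring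
      have e2 : z = t ^ (m - 2) := by
        rw [hz, ← zpow_natCast]; congr 1; push_cast [Nat.cast_sub h2]; ring
      have h3 : c₁ ^ (m - 2) * Z ≤ z := by
        rw [e1, e2, ← mul_pow]; gcongr
      linarith
  have hI1 : θ * AA m Q T ν P x t * z ≤ C₀ * I := by
    have h5 := mul_le_mul_of_nonneg_right hen hz0.le
    have h6 : C₀ * (z⁻¹ * I) * z = C₀ * I := by field_simp
    rwa [h6] at h5
  rcases Nat.eq_zero_or_pos k with hk0 | hkpos
  · -- impossible or trivial: `C₀ J ≤ 0`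
    have h7 : J = 0 := by
      rw [hk0] at hk
      have h8 : C₀ * (2 * J) ≤ 0 := by simpa using hk
      by_contra hne
      have : 0 < J := lt_of_le_of_ne hJ0 (Ne.symm hne)
      have := mul_pos hC₀ this
      linarith
    rw [hk0]
    have : ((((0 : ℕ) : ℝ)) ^ 3)⁻¹ = 0 := by simp
    rw [this, zero_mul]
    exact setIntegral_nonneg_of_ae (tilt_nonneg_ae hC)
  · have hk3 : (0:ℝ) < (k : ℝ) ^ 3 := by positivity
    rw [← div_eq_inv_mul, div_le_iff₀ hk3]
    -- `Ti^(m-2) A(Ti) ≤ k³ I`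
    by_cases hA : AA m Q T ν P x t < 0
    · have h8 : AA m Q T ν P x Ti ≤ 0 := by nlinarith
      have hI0 : 0 ≤ I := setIntegral_nonneg_of_ae (tilt_nonneg_ae hC)
      have h9 : Z * AA m Q T ν P x Ti ≤ 0 :=
        mul_nonpos_of_nonneg_of_nonpos hZ0.le h8
      have h10 : 0 ≤ I * (k : ℝ) ^ 3 := by positivity
      linarith
    · push Not at hA
      have h8 : C₀ * (2 * (Z * AA m Q T ν P x Ti)) ≤ C₀ * (2 * (I * (k : ℝ) ^ 3)) := by
        calc C₀ * (2 * (Z * AA m Q T ν P x Ti))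
            ≤ C₀ * (2 * (Z * (J * AA m Q T ν P x t))) := by gcongr
          _ = (C₀ * (2 * J)) * (Z * AA m Q T ν P x t) := by ring
          _ ≤ (θ * c₁ ^ (m - 2) * (k : ℝ) ^ 3) * (Z * AA m Q T ν P x t) := by
              gcongr
          _ = θ * (c₁ ^ (m - 2) * Z) * AA m Q T ν P x t * (k : ℝ) ^ 3 := by ring
          _ ≤ θ * (2 * z) * AA m Q T ν P x t * (k : ℝ) ^ 3 := by gcongr
          _ = 2 * (θ * AA m Q T ν P x t * z) * (k : ℝ) ^ 3 := by ring
          _ ≤ 2 * (C₀ * I) * (k : ℝ) ^ 3 := by gcongr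
          _ = _ := by ring
      have h11 := le_of_mul_le_mul_left h8 hC₀
      linarith

end Vale.Agent.P214.GEN
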