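import Vale.Agent.P214.GEN.Props
import Vale.Agent.P214.NGP.Cyl
import Vale.Agent.P214.R2.Iv
import Vale.Agent.P214.SCALE.Int

/-!
# P214, general rate: the bounds at the top scale and the reduction of `RateFlat` to unit scale
-/

open Set Filter Topology MeasureTheory Metric
open scoped RealInnerProductSpace ENNReal

set_option linter.all false

namespace Vale.Agent.P214.GEN

open Vale.Agent.P214.FV Vale.Agent.P214.ODE Vale.Agent.P214.Skel Vale.Agent.P214.EX
open Vale.Agent.P214.NGP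
open Vale.Agent.P214.R2 (ffl_iv ffl_top eta1 eta1_nonneg eta1_le_one eta1_eq_zero continuous_eta1
  exc_nonneg exc_mono intCyl_mono_delta etaK cK psiStart)

variable {E : Type*} [NormedAddCommGroup E] [InnerProductSpace ℝ E] [FiniteDimensional ℝ E]
  [MeasurableSpace E] [BorelSpace E]
variable {m Q : ℕ} {T : Submodule ℝ E} {G : Set E} {h : ℝ} {ν : Measure E} {P : E → E →L[ℝ] E}
  {x : E}

lemma win_quarter : TH.win (1 / 4) = 1 := TH.win_one le_rfl

lemma win_quarter_pos : 0 < TH.win (1 / 4) := by rw [win_quarter]; norm_num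

lemma win_zero : TH.win 0 = 1 := TH.win_one (by norm_num)

/-- the smooth tilt functional is at most the excess -/
lemma tiltK_le_exc' (hC : FV.CylStat m T G h ν P) (hx : x ∈ T) {t : ℝ} (ht : 0 < t) :
    t ^ ((m : ℤ) - 2) * ODE.tiltK m T x TH.win P ν t ≤ exc T ν P x t := by
  haveI := hC.fin
  have hpl := CylStat.plane hC
  have hb : ∀ᵐ y ∂ν, |ODE.tilt T P y| ≤ 2 * (Module.finrank ℝ E : ℝ) := hpl.abs_tilt_le
  have i1 := integrable_K (z := x) hC kernW ht (aesm_tilt (T := T) hpl.meas) hb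
  unfold ODE.tiltK exc
  rw [← mul_assoc, ← zpow_add₀ ht.ne', show (m : ℤ) - 2 + (2 - m) = 0 by ring, zpow_zero, one_mul,
    ← integral_indicator (R2.measurableSet_cylSet T x t)]
  refine integral_mono_ae i1 ((R2.integrable_tilt' hC).indicator
    (R2.measurableSet_cylSet T x t)) ?_
  filter_upwards [CylStat.tilt_nonneg hC] with y hy
  have hanti : Antitone TH.win := R2.K_antitone kernW
  have hK0 : TH.win (ODE.bsq T x y / t ^ 2) ≤ 1 := by
    rw [← win_zero]
    exact hanti (div_nonneg (ODE.bsq_nonneg T x y) (sq_nonneg t))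
  by_cases hmem : y ∈ cylSet T x t
  · rw [indicator_of_mem hmem, TH.tilt_agree]
    nlinarith
  · rw [indicator_of_notMem hmem]
    have h3 : t ≤ ‖ODE.bx T x y‖ := by
      rw [bx_eq, Submodule.starProjection_eq_self_iff.2 hx]
      by_contra hcon
      push Not at hcon
      exact hmem (by rw [cylSet, mem_setOf_eq, mem_ball, dist_eq_norm]; exact hcon)
    have h4 : TH.win (ODE.bsq T x y / t ^ 2) = 0 := by
      refine kernW.pK.zero _ ?_
      rw [one_le_div (by positivity)]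
      unfold ODE.bsq
      gcongr
    rw [h4, zero_mul]

/-- **The quantity `A` at the top scale.** -/
theorem top_AA (E : Type*) [NormedAddCommGroup E] [InnerProductSpace ℝ E]
    [FiniteDimensional ℝ E] [MeasurableSpace E] [BorelSpace E] (m Q : ℕ) (hm : 1 ≤ m) :
    ∃ C ε : ℝ, 0 < C ∧ 0 < ε ∧ ∀ (T : Submodule ℝ E) (h : ℝ) (ν : Measure E)
      (P : E → E →L[ℝ] E), IntCyl m Q T 0 2 h ε ν P → ∀ (e t : ℝ), 0 < t → t ≤ 1 / 32 →
      exc T ν P 0 2 ≤ e → e ≤ ε * t ^ m → ∀ x ∈ T, ‖x‖ ≤ 1 →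
      t ^ ((m : ℤ) - 2) * AA m Q T ν P x t ≤ C * e := by
  obtain ⟨δ, C, hδ, hC0, H⟩ := ffl_iv E m Q hm
  refine ⟨2 * C + 1, δ, by positivity, hδ, ?_⟩
  intro T h ν P hI e t ht ht1 hexc he x hx hx1
  have hC := hI.cyl
  have htm : 0 < t ^ m := pow_pos ht m
  have hle : ∀ s, t ≤ s → exc T ν P 0 2 ≤ δ * s ^ m := fun s hs => by
    refine hexc.trans (he.trans ?_)
    gcongr
  obtain ⟨Kl, hη⟩ := R2.isKernel_etaK (E := E) kernW win_quarter_pos
  have h1 := H T 0 2 h ν P hI (hle 2 (by linarith)) x hx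
    (by rw [sub_zero]; linarith) t ht (by linarith) (fun s' hs' _ =>
      (exc_mono hC (by rw [dist_zero_right]; linarith)).trans (hle s' hs'))
    (ker (etaK TH.win) x t) 1 (R2.measurable_ker kernW x t)
    (fun y => by rw [abs_of_nonneg (ker_nonneg hη x t y)]; exact ker_le_one hη x t y)
    (fun y hy => by
      unfold EX.ker R2.etaK
      rw [kernW.pK.zero, zero_div]
      rw [norm_smul, norm_inv, Real.norm_of_nonneg ht.le, mul_pow, inv_pow, inv_mul_eq_div,
        le_div_iff₀ (by positivity), one_mul]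
      exact pow_le_pow_left₀ ht.le hy 2)
  have h2 := R2.Lam_ker (Q := Q) hC kernW win_quarter_pos hx ht (by linarith)
  rw [R2.Lam_eq_Ffl hC (R2.measurable_ker kernW x t) (C := 1)
    (fun y => by rw [abs_of_nonneg (ker_nonneg hη x t y)]; exact ker_le_one hη x t y)
    (fun y hy => R2.ker_zero_far kernW ht (by linarith) hy)] at h2
  rw [h2, win_zero, div_one] at h1
  have h3 := tiltK_le_exc' (P := P) hC hx ht
  have h4 : exc T ν P x t ≤ e :=
    (exc_mono hC (by rw [dist_zero_right]; linarith)).trans hexc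
  have h5 : exc T ν P x (2 * t) ≤ e :=
    (exc_mono hC (by rw [dist_zero_right]; linarith)).trans hexc
  have h6 := CylStat.tiltK_nonneg (z := x) hC kernW ht
  have hz : 0 < t ^ ((m : ℤ) - 2) := zpow_pos ht _
  have h7 : t ^ ((m : ℤ) - 2) * ODE.aK m T x TH.win ν (Q * cK m T TH.win) t ≤ (2 * C + 1) * e := by
    have h8 := (abs_le.1 h1).2
    have h9 : C * 1 * exc T ν P x (2 * t) ≤ C * e := by
      rw [mul_one]; gcongr
    have h10 : t ^ ((m : ℤ) - 2) * ((ODE.aK m T x TH.win ν (Q * cK m T TH.win) t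
        - ODE.tiltK m T x TH.win P ν t) / 2)
        = (t ^ ((m : ℤ) - 2) * ODE.aK m T x TH.win ν (Q * cK m T TH.win) t
        - t ^ ((m : ℤ) - 2) * ODE.tiltK m T x TH.win P ν t) / 2 := by ring
    rw [h10] at h8
    linarith
  have he0 : 0 ≤ e := (exc_nonneg hC (P := P) 0 2).trans hexc
  unfold AA
  rw [mul_max_of_nonneg _ _ hz.le]
  refine max_le h7 ?_
  have h11 : t ^ ((m : ℤ) - 2) * (ODE.tiltK m T x TH.win P ν t / 2)
      = (t ^ ((m : ℤ) - 2) * ODE.tiltK m T x TH.win P ν t) / 2 := by ring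
  rw [h11]
  have h12 : 0 ≤ t ^ ((m : ℤ) - 2) * ODE.tiltK m T x TH.win P ν t := mul_nonneg hz.le h6
  nlinarith

/-- the fluctuation of the cut-off function -/
theorem ffl_eta1 (E : Type*) [NormedAddCommGroup E] [InnerProductSpace ℝ E]
    [FiniteDimensional ℝ E] [MeasurableSpace E] [BorelSpace E] (m Q : ℕ) (hm : 1 ≤ m) :
    ∃ C ε : ℝ, 0 < C ∧ 0 < ε ∧ ∀ (T : Submodule ℝ E) (h : ℝ) (ν : Measure E)
      (P : E → E →L[ℝ] E), IntCyl m Q T 0 2 h ε ν P → exc T ν P 0 2 ≤ ε →
      |Ffl m Q T ν P eta1| ≤ C * exc T ν P 0 2 := by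
  obtain ⟨δ, C, hδ, hC0, H⟩ := ffl_top E m Q hm
  refine ⟨C, δ, hC0, hδ, ?_⟩
  intro T h ν P hI hexc
  have h1 : (1:ℝ) ≤ 2 ^ m := one_le_pow₀ (by norm_num)
  have := H T 0 2 h ν P hI (by nlinarith) eta1 1 continuous_eta1.measurable
    (fun y => by rw [abs_of_nonneg (eta1_nonneg y)]; exact eta1_le_one y)
    (fun y hy => eta1_eq_zero (by rw [sub_zero] at hy; linarith))
  rwa [mul_one] at this

/-- **The rate at unit scale with a free parameter gives the rate lemma.** -/
theorem rateFlat_of_rateUnit (H : RateUnit E m Q) : RateFlat E m Q := by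
  refine SCALE.rateFlat_of_unit fun A hA => ?_
  obtain ⟨C, ε, hC, hε, H⟩ := H ⌈A⌉₊
  have hε2 : 0 < min ε (Real.exp (-1)) := lt_min hε (Real.exp_pos _)
  have hlog : ∀ e : ℝ, 0 < e → e ≤ min ε (Real.exp (-1)) → 1 ≤ Real.log e⁻¹ := fun e he he1 => by
    rw [Real.log_inv]
    have := Real.log_le_log he (he1.trans (min_le_right _ _))
    rw [Real.log_exp] at this
    linarith
  refine ⟨C, min ε (Real.exp (-1)), hC, hε2, fun T h ν P φ hI hexc hφ => ?_⟩
  have main : ∀ e, 0 < e → e ≤ min ε (Real.exp (-1)) → exc T ν P 0 2 ≤ e →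
      Ffl m Q T ν P φ ≤ C * (Real.log e⁻¹) ^ (-A) * e := by
    intro e he he1 hee
    have h1 := H e T h ν P φ (intCyl_mono_delta hI (min_le_left _ _)) he
      (he1.trans (min_le_left _ _)) hee hφ
    have hL := hlog e he he1
    have h2 : ((Real.log e⁻¹) ^ ⌈A⌉₊)⁻¹ ≤ (Real.log e⁻¹) ^ (-A) := by
      rw [← Real.rpow_natCast, ← Real.rpow_neg (by linarith)]
      exact Real.rpow_le_rpow_of_exponent_le hL (neg_le_neg (Nat.le_ceil A))
    refine h1.trans ?_
    gcongr
  rcases (exc_nonneg hI.cyl (P := P) 0 2).eq_or_lt with h0 | h0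
  · rw [← h0, mul_zero]
    refine le_of_forall_pos_le_add fun η hη => ?_
    rw [zero_add]
    have he : 0 < min (min ε (Real.exp (-1))) (η / C) := lt_min hε2 (by positivity)
    refine (main _ he (min_le_left _ _) (by rw [← h0]; exact he.le)).trans ?_
    have h1 : Real.log (min (min ε (Real.exp (-1))) (η / C))⁻¹ ^ (-A) ≤ 1 :=
      Real.rpow_le_one_of_one_le_of_nonpos (hlog _ he (min_le_left _ _)) (by linarith)
    calc C * Real.log (min (min ε (Real.exp (-1))) (η / C))⁻¹ ^ (-A)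
          * min (min ε (Real.exp (-1))) (η / C)
        ≤ C * 1 * (η / C) := by gcongr; exact min_le_right _ _
      _ = η := by field_simp
  · exact main _ h0 hexc le_rfl

end Vale.Agent.P214.GEN
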